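import Mathlib
import Vale.Agent.P354p.Defs

open scoped ContDiff
open MeasureTheory Set Filter Topology

namespace Vale.Agent.P354p

variable {M N : Spc}

/-- The map f in the charts e and e', and its domain. -/
def rep (f : M.pt → N.pt) (e : M.Chart) (e' : N.Chart) (y : R4) : R4 := co e' (f (inv e y))
def dom (f : M.pt → N.pt) (e : M.Chart) (e' : N.Chart) : Set R4 :=
  {y | y ∈ tgt e ∧ On e' (f (inv e y))}

/-- The push forward by f of the vector a at y. -/
noncomputable def push (f : M.pt → N.pt) (e : M.Chart) (e' : N.Chart) (y a : R4) : R4 :=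
  lineDeriv ℝ (rep f e e') y a

theorem IsIsom.old {f : M.pt → N.pt} (hI : IsIsom f) (e : M.Chart) (e' : N.Chart) :
    ContDiffOn ℝ ∞ (rep f e e') (dom f e e') ∧ ∀ y ∈ dom f e e',
    (∀ a b, M.g e y a b = N.g e' (rep f e e' y) (push f e e' y a) (push f e e' y b)) ∧
    N.g e' (rep f e e' y) (push f e e' y (M.X e y)) (N.X e' (rep f e e' y)) < 0 :=
  hI e e' (rep f e e') (dom f e e') rfl rfl

theorem IsIsom.mk' {f : M.pt → N.pt} (h : ∀ (e : M.Chart) (e' : N.Chart),
    ContDiffOn ℝ ∞ (rep f e e') (dom f e e') ∧ ∀ y ∈ dom f e e',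
    (∀ a b, M.g e y a b = N.g e' (rep f e e' y) (push f e e' y a) (push f e e' y b)) ∧
    N.g e' (rep f e e' y) (push f e e' y (M.X e y)) (N.X e' (rep f e e' y)) < 0) : IsIsom f := by
  rintro e e' F D rfl rfl
  exact h e e'

end Vale.Agent.P354p
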