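import Mathlib
import Vale.Agent.P354p.Defs

open scoped Manifold ContDiff
open MeasureTheory Set

namespace Vale.Agent.P354p

lemma integrable_mul_of_continuousOn {f φ : R4 → ℝ} {V : Set R4} (hV : IsOpen V)
    (hf : ContinuousOn f V) (hφ : Continuous φ) (hc : HasCompactSupport φ)
    (hs : tsupport φ ⊆ V) : Integrable (fun x => f x * φ x) := by
  have hcont : Continuous (fun x => f x * φ x) := by
    apply ContinuousOn.continuous_of_tsupport_subset (s := V) (hf.mul hφ.continuousOn) hV
    exact (tsupport_mul_subset_right).trans hs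
  exact hcont.integrable_of_hasCompactSupport (hc.mul_left)

lemma volume_haar : Measure.IsAddHaarMeasure (volume : Measure R4) := by
  have h2 : Measure.IsAddHaarMeasure (volume : Measure (ℝ × ℝ)) := inferInstance
  have h3 : Measure.IsAddHaarMeasure (volume : Measure (ℝ × ℝ × ℝ)) :=
    Measure.prod.instIsAddHaarMeasure (volume : Measure ℝ) (volume : Measure (ℝ × ℝ))
  exact Measure.prod.instIsAddHaarMeasure (volume : Measure ℝ) (volume : Measure (ℝ × ℝ × ℝ))

theorem classical_eq_weak {f h : R4 → ℝ} {V : Set R4} (hV : IsOpen V)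
    (hf : ContDiffOn ℝ 1 f V) (a : R4) (hh : LocallyIntegrableOn h V)
    (hw : ∀ φ : R4 → ℝ, ContDiff ℝ ∞ φ → HasCompactSupport φ → tsupport φ ⊆ V →
      ∫ x, f x * fderiv ℝ φ x a = - ∫ x, h x * φ x) :
    ∀ᵐ x, x ∈ V → h x = fderiv ℝ f x a := by
  have hvol := volume_haar
  have hfd : ContinuousOn (fun x => fderiv ℝ f x a) V :=
    (hf.continuousOn_fderiv_of_isOpen hV le_rfl).clm_apply continuousOn_const
  have hloc : LocallyIntegrableOn (fun x => h x - fderiv ℝ f x a) V :=
    hh.sub (hfd.locallyIntegrableOn hV.measurableSet)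
  have key := hV.ae_eq_zero_of_integral_contDiff_smul_eq_zero hloc ?_
  · filter_upwards [key] with x hx hxV
    have := hx hxV
    linarith
  · intro φ hφ hc hs
    have h1 : Integrable (fun x => fderiv ℝ f x a * φ x) :=
      integrable_mul_of_continuousOn hV hfd hφ.continuous hc hs
    have hφ' : Continuous (fun x => fderiv ℝ φ x a) :=
      (hφ.continuous_fderiv (by simp)).clm_apply continuous_const
    have hs' : tsupport (fun x => fderiv ℝ φ x a) ⊆ tsupport φ :=
      tsupport_fderiv_apply_subset ℝ a
    have hc' : HasCompactSupport (fun x => fderiv ℝ φ x a) :=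
      hc.mono' (subset_closure.trans hs')
    have h2 : Integrable (fun x => f x * fderiv ℝ φ x a) :=
      integrable_mul_of_continuousOn hV hf.continuousOn hφ' hc' (hs'.trans hs)
    have h3 : Integrable (fun x => f x * φ x) :=
      integrable_mul_of_continuousOn hV hf.continuousOn hφ.continuous hc hs
    have h4 : Integrable (fun x => h x * φ x) := by
      have : IntegrableOn (fun x => h x * φ x) (tsupport φ) := by
        have hK : IntegrableOn h (tsupport φ) :=
          (hh.integrableOn_compact_subset hs hc)
        exact hK.mul_continuousOn hφ.continuous.continuousOn hc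
      rw [← integrableOn_univ]
      refine this.of_forall_sdiff_eq_zero MeasurableSet.univ ?_
      intro x hx
      have : φ x = 0 := image_eq_zero_of_notMem_tsupport hx.2
      simp [this]
    have e1 := integral_mul_fderiv_eq_neg_fderiv_mul_of_integrable (μ := volume) (f := f) (g := φ)
      (v := a) h1 h2 h3 (fun x hx => (hf.differentiableOn (by simp)).differentiableAt
        (hV.mem_nhds (hs hx))) (fun x _ => hφ.differentiable (by simp) x)
    have e2 := hw φ hφ hc hs
    have e3 : ∫ x, φ x • (h x - fderiv ℝ f x a) =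
        (∫ x, h x * φ x) - ∫ x, fderiv ℝ f x a * φ x := by
      rw [← integral_sub h4 h1]
      congr 1
      ext x
      simp only [smul_eq_mul]
      ring
    rw [e3]
    linarith only [e1, e2]

lemma deriv_eq {f : R4 → ℝ} {x : R4} (hf : DifferentiableAt ℝ f x) (a : R4) :
    deriv f x a = fderiv ℝ f x a := hf.lineDeriv_eq_fderiv

theorem memLp_fderiv {pp : ENNReal} (hp : 2 ≤ pp) {f : R4 → ℝ} {D V : Set R4} (hV : IsOpen V)
    (hVD : V ⊆ D)
    (hf : (IsC0W1 pp) f D) (hfV : ContDiffOn ℝ 1 f V) (a : R4) {K : Set R4} (hK : IsCompact K)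
    (hKD : K ⊆ D) : MemLp (fun x => fderiv ℝ f x a) pp (volume.restrict (K ∩ V)) := by
  have hvol := volume_haar
  obtain ⟨h, hh, hw⟩ := hf.2 a
  have hloc : LocallyIntegrableOn h V := by
    rw [locallyIntegrableOn_iff hV.isLocallyClosed]
    intro Q hQV hQ
    have h1 := hh Q (hQV.trans hVD) hQ
    have : IsFiniteMeasure (volume.restrict Q) := ⟨by
      rw [Measure.restrict_apply MeasurableSet.univ, univ_inter]
      exact hQ.measure_lt_top⟩
    exact memLp_one_iff_integrable.1 (h1.mono_exponent (le_trans (by norm_num) hp))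
  have hae := classical_eq_weak hV hfV a hloc (fun φ h1 h2 h3 => by
    have h4 := hw φ h1.contDiffOn h2 (h3.trans hVD)
    rw [← h4]
    refine integral_congr_ae (Filter.Eventually.of_forall fun x => ?_)
    simp only
    rw [deriv_eq (h1.differentiable (by simp) x)])
  have h1 : MemLp h pp (volume.restrict (K ∩ V)) :=
    (hh K hKD hK).mono_measure (Measure.restrict_mono inter_subset_left le_rfl)
  refine (memLp_congr_ae ?_).mp h1
  rw [Filter.EventuallyEq, ae_restrict_iff' (hK.measurableSet.inter hV.measurableSet)]
  filter_upwards [hae] with x hx hxV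
  exact hx hxV.2

end Vale.Agent.P354p
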