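import Mathlib
import Vale.Agent.P354p.Isom
import Vale.Agent.P354p.Sob
import Vale.Agent.P354.LorentzAlg

set_option linter.unusedSectionVars false
set_option maxSynthPendingDepth 3

open scoped Manifold ContDiff
open MeasureTheory Set Topology

namespace Vale.Agent.P354p

open Vale.Agent.P354 (Bilin LBasis)

/-- coordinate functions, as linear maps -/
noncomputable def crd (i : Fin 4) : R4 →L[ℝ] ℝ :=
  ![ContinuousLinearMap.fst ℝ ℝ (ℝ × ℝ × ℝ),
    (ContinuousLinearMap.fst ℝ ℝ (ℝ × ℝ)).comp (ContinuousLinearMap.snd ℝ ℝ (ℝ × ℝ × ℝ)),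
    (ContinuousLinearMap.fst ℝ ℝ ℝ).comp ((ContinuousLinearMap.snd ℝ ℝ (ℝ × ℝ)).comp
      (ContinuousLinearMap.snd ℝ ℝ (ℝ × ℝ × ℝ))),
    (ContinuousLinearMap.snd ℝ ℝ ℝ).comp ((ContinuousLinearMap.snd ℝ ℝ (ℝ × ℝ)).comp
      (ContinuousLinearMap.snd ℝ ℝ (ℝ × ℝ × ℝ)))] i

lemma crd_zero (a : R4) : crd 0 a = a.1 := rfl
lemma crd_one (a : R4) : crd 1 a = a.2.1 := rfl
lemma crd_two (a : R4) : crd 2 a = a.2.2.1 := rfl
lemma crd_three (a : R4) : crd 3 a = a.2.2.2 := rfl

/-- the coordinate vectors -/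
noncomputable def bas (i : Fin 4) : R4 :=
  ![(1, 0, 0, 0), (0, 1, 0, 0), (0, 0, 1, 0), (0, 0, 0, 1)] i

lemma bas_decomp (a : R4) :
    a = crd 0 a • bas 0 + crd 1 a • bas 1 + crd 2 a • bas 2 + crd 3 a • bas 3 := by
  simp only [crd_zero, crd_one, crd_two, crd_three, bas]
  ext <;> simp only [Nat.succ_eq_add_one, Nat.reduceAdd, Fin.isValue, Matrix.cons_val_zero, Prod.smul_mk, smul_eq_mul, mul_one, mul_zero, Matrix.cons_val_one, Prod.mk_add_mk, add_zero, zero_add, Matrix.cons_val, Prod.mk.eta]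

lemma abs_crd_le (i : Fin 4) (a : R4) : |crd i a| ≤ ‖a‖ := by
  have h1 : |a.1| ≤ ‖a‖ := norm_fst_le a
  have h2 : ‖a.2‖ ≤ ‖a‖ := norm_snd_le a
  have h3 : |a.2.1| ≤ ‖a.2‖ := norm_fst_le a.2
  have h4 : ‖a.2.2‖ ≤ ‖a.2‖ := norm_snd_le a.2
  have h5 : |a.2.2.1| ≤ ‖a.2.2‖ := norm_fst_le a.2.2
  have h6 : |a.2.2.2| ≤ ‖a.2.2‖ := norm_snd_le a.2.2
  fin_cases i
  · exact h1
  · exact h3.trans h2
  · exact h5.trans (h4.trans h2)
  · exact h6.trans (h4.trans h2)

lemma bilin_expand {B : R4 → R4 → ℝ} (hB : Bilin B) (a b : R4) :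
    B a b = ∑ i, ∑ j, crd i a * crd j b * B (bas i) (bas j) := by
  conv_lhs => rw [bas_decomp a, bas_decomp b]
  simp only [hB.add_left, hB.add_right, hB.smul_left, hB.smul_right, Fin.sum_univ_four]
  ring

lemma mink_bilin : Bilin mink where
  add_left a b c := by simp only [mink, cu, cv, c1, c2, Prod.fst_add, Prod.snd_add]; ring
  add_right a b c := by simp only [mink, cu, cv, c1, c2, Prod.fst_add, Prod.snd_add]; ring
  smul_left t a b := by
    simp only [mink, cu, cv, c1, c2, Prod.smul_fst, Prod.smul_snd, smul_eq_mul]; ring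
  smul_right t a b := by
    simp only [mink, cu, cv, c1, c2, Prod.smul_fst, Prod.smul_snd, smul_eq_mul]; ring

section

variable {M : Spc} {Reg : (R4 → ℝ) → Set R4 → Prop}

lemma IsSpacetime.sig (h : IsSpacetime Reg M) (e : M.Chart) {y : R4} (hy : y ∈ tgt e) :
    ∃ L : R4 ≃ₗ[ℝ] R4, ∀ a b, M.g e y a b = mink (L a) (L b) := by
  obtain ⟨L, hL, hinj, hm⟩ := h.signature e y hy
  exact ⟨LinearEquiv.ofInjectiveEndo (IsLinearMap.mk' L hL) hinj, hm⟩

lemma IsSpacetime.bilin (h : IsSpacetime Reg M) (e : M.Chart) {y : R4} (hy : y ∈ tgt e) :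
    Bilin (M.g e y) := by
  obtain ⟨L, hL⟩ := h.sig e hy
  have hm := mink_bilin
  exact
    { add_left := fun a b c => by rw [hL, hL, hL, map_add, hm.add_left]
      add_right := fun a b c => by rw [hL, hL, hL, map_add, hm.add_right]
      smul_left := fun t a b => by rw [hL, hL, map_smul, hm.smul_left]
      smul_right := fun t a b => by rw [hL, hL, map_smul, hm.smul_right] }

lemma IsSpacetime.exists_LBasis (h : IsSpacetime Reg M) (e : M.Chart) {y : R4}
    (hy : y ∈ tgt e) : ∃ β : Fin 4 → R4, LBasis (M.g e y) β := by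
  obtain ⟨L, hL⟩ := h.sig e hy
  refine ⟨fun i => L.symm (bas i), fun i j => ?_⟩
  rw [hL, L.apply_symm_apply, L.apply_symm_apply]
  fin_cases i <;> fin_cases j <;> simp only [mink, cu, bas, Nat.succ_eq_add_one, Nat.reduceAdd, Fin.zero_eta, Fin.isValue, Matrix.cons_val_zero, mul_one, cv, mul_zero, add_zero, c1, c2, ↓reduceIte, Fin.mk_one, Matrix.cons_val_one, neg_zero, zero_ne_one, Fin.reduceFinMk, Matrix.cons_val, Fin.reduceEq, one_ne_zero, zero_add]

lemma IsSpacetime.nondeg (h : IsSpacetime Reg M) (e : M.Chart) {y : R4} (hy : y ∈ tgt e)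
    {a : R4} (ha : ∀ b, M.g e y a b = 0) : a = 0 := by
  obtain ⟨L, hL⟩ := h.sig e hy
  have h0 : ∀ b, mink (L a) b = 0 := by
    intro b
    have := ha (L.symm b)
    rwa [hL, L.apply_symm_apply] at this
  have h1 : L a = 0 := by
    have k0 := h0 (bas 0)
    have k1 := h0 (bas 1)
    have k2 := h0 (bas 2)
    have k3 := h0 (bas 3)
    simp only [mink, cu, bas, Nat.succ_eq_add_one, Nat.reduceAdd, Fin.isValue, Matrix.cons_val_zero, mul_one, cv, mul_zero, add_zero, c1, c2, neg_eq_zero, Matrix.cons_val_one, neg_zero, zero_add, Matrix.cons_val] at k0 k1 k2 k3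
    ext <;> simp [k0, k1, k2, k3]
  simpa using h1

lemma IsSpacetime.symm (h : IsSpacetime Reg M) (e : M.Chart) {y : R4} (hy : y ∈ tgt e)
    (a b : R4) : M.g e y a b = M.g e y b a := by
  obtain ⟨L, hL⟩ := h.sig e hy
  rw [hL, hL]; simp only [mink]; ring

lemma finrank_R4 : Module.finrank ℝ R4 = 4 := by simp only [Module.finrank_prod, Module.finrank_self, Nat.reduceAdd]

lemma IsSpacetime.same_cone (h : IsSpacetime Reg M) (e : M.Chart) {y : R4}
    (hy : y ∈ tgt e) {a t c : R4} (ht : M.g e y t t < 0) (ha : M.g e y a a < 0)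
    (hat : M.g e y a t < 0) (hc : M.g e y c c ≤ 0) (hct : M.g e y c t < 0) :
    M.g e y a c < 0 := by
  obtain ⟨β, hβ⟩ := h.exists_LBasis e hy
  exact P354.same_cone (h.bilin e hy) hβ finrank_R4 ht ha hat hc hct

end

section

variable {M : Spc}

lemma inv_co {e : M.Chart} {p : M.pt} (hp : On e p) : inv e (co e p) = p := (M.toE e).left_inv hp

lemma co_inv {e : M.Chart} {y : R4} (hy : y ∈ tgt e) : co e (inv e y) = y :=
  (M.toE e).right_inv hy

lemma co_mem {e : M.Chart} {p : M.pt} (hp : On e p) : co e p ∈ tgt e := (M.toE e).map_source hp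

lemma inv_mem {e : M.Chart} {y : R4} (hy : y ∈ tgt e) : On e (inv e y) :=
  (M.toE e).map_target hy

end

section

variable {M N : Spc} [Nonempty M.pt] {e : M.Chart} {e' : N.Chart}
  {ι : M.pt → N.pt} {h : IsOpenEmbedding ι}

/-- the transition map from the chart e of M to the chart e' of N through ι -/
noncomputable def theta (e : M.Chart) (e' : N.Chart) (ι : M.pt → N.pt) (h : IsOpenEmbedding ι) :
    OpenPartialHomeomorph R4 R4 :=
  ((M.toE e).symm.trans (h.toOpenPartialHomeomorph ι)).trans (N.toE e')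

lemma mem_theta_source {x : R4} : x ∈ (theta e e' ι h).source ↔
    x ∈ tgt e ∧ On e' (ι (inv e x)) := by
  simp only [theta, OpenPartialHomeomorph.trans_toPartialEquiv, OpenPartialHomeomorph.symm_toPartialEquiv, PartialEquiv.trans_source, PartialEquiv.symm_source, PartialHomeomorph.coe_toPartialEquiv_symm, OpenPartialHomeomorph.coe_toPartialHomeomorph_symm, IsOpenEmbedding.toOpenPartialHomeomorph_source, preimage_univ, inter_univ, PartialEquiv.coe_trans, PartialHomeomorph.toFun_eq_coe, OpenPartialHomeomorph.coe_toPartialHomeomorph, IsOpenEmbedding.toOpenPartialHomeomorph_apply, mem_inter_iff, mem_preimage, Function.comp_apply, tgt, On, inv]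

lemma theta_source : (theta e e' ι h).source = dom ι e e' := by
  ext x; exact mem_theta_source

lemma theta_apply (x : R4) : theta e e' ι h x = co e' (ι (inv e x)) := by
  simp [theta, co, inv]

lemma theta_eq_rep : (theta e e' ι h : R4 → R4) = rep ι e e' := by
  funext x; exact theta_apply x

lemma mem_theta_target {y : R4} : y ∈ (theta e e' ι h).target ↔
    y ∈ tgt e' ∧ ∃ p, On e p ∧ ι p = inv e' y := by
  constructor
  · intro hy
    have h1 := (theta e e' ι h).map_target hy
    have h2 := (theta e e' ι h).right_inv hy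
    rw [mem_theta_source] at h1
    rw [theta_apply] at h2
    refine ⟨by rw [← h2]; exact co_mem h1.2, _, inv_mem h1.1, ?_⟩
    have h3 := inv_co h1.2
    rw [h2] at h3
    exact h3.symm
  · rintro ⟨hy, p, hp, hpy⟩
    have h1 : co e p ∈ (theta e e' ι h).source := by
      rw [mem_theta_source]
      refine ⟨co_mem hp, ?_⟩
      rw [inv_co hp, hpy]
      exact inv_mem hy
    have h2 := (theta e e' ι h).map_source h1
    rw [theta_apply, inv_co hp, hpy, co_inv hy] at h2
    exact h2

lemma theta_symm_apply {y : R4} {p : M.pt} (hp : On e p) (hy : y ∈ tgt e')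
    (hpy : ι p = inv e' y) : (theta e e' ι h).symm y = co e p := by
  have h1 : co e p ∈ (theta e e' ι h).source := by
    rw [mem_theta_source]
    refine ⟨co_mem hp, ?_⟩
    rw [inv_co hp, hpy]
    exact inv_mem hy
  have h2 : theta e e' ι h (co e p) = y := by
    rw [theta_apply, inv_co hp, hpy, co_inv hy]
  rw [← h2, (theta e e' ι h).left_inv h1]

variable {Reg Reg' : (R4 → ℝ) → Set R4 → Prop}

lemma theta_contDiffOn (hI : IsIsom ι) :
    ContDiffOn ℝ ∞ (theta e e' ι h) (theta e e' ι h).source := by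
  rw [theta_eq_rep, theta_source]; exact (hI.old e e').1

lemma theta_hasFDerivAt (hI : IsIsom ι) {x : R4} (hx : x ∈ (theta e e' ι h).source) :
    HasFDerivAt (theta e e' ι h) (fderiv ℝ (theta e e' ι h) x) x :=
  (((theta_contDiffOn (h := h) hI).differentiableOn (by simp)).differentiableAt
      ((theta e e' ι h).open_source.mem_nhds hx)).hasFDerivAt

lemma push_eq (hI : IsIsom ι) {x : R4} (hx : x ∈ (theta e e' ι h).source) (a : R4) :
    push ι e e' x a = fderiv ℝ (theta e e' ι h) x a := by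
  unfold push
  rw [← theta_eq_rep (h := h)]
  exact (theta_hasFDerivAt hI hx).differentiableAt.lineDeriv_eq_fderiv

lemma theta_pull (hI : IsIsom ι) {x : R4} (hx : x ∈ (theta e e' ι h).source) (a b : R4) :
    M.g e x a b = N.g e' (theta e e' ι h x) (fderiv ℝ (theta e e' ι h) x a)
      (fderiv ℝ (theta e e' ι h) x b) := by
  have hx' := hx
  rw [theta_source] at hx'
  rw [((hI.old e e').2 x hx').1 a b, push_eq (h := h) hI hx, push_eq (h := h) hI hx, theta_eq_rep]

lemma theta_orient (hI : IsIsom ι) {x : R4} (hx : x ∈ (theta e e' ι h).source) :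
    N.g e' (theta e e' ι h x) (fderiv ℝ (theta e e' ι h) x (M.X e x))
      (N.X e' (theta e e' ι h x)) < 0 := by
  have hx' := hx
  rw [theta_source] at hx'
  have := ((hI.old e e').2 x hx').2
  rw [push_eq (h := h) hI hx] at this
  rw [theta_eq_rep] at this ⊢
  exact this

/-- the derivative of the transition map, as an equivalence -/
lemma theta_equiv (hg : IsSpacetime Reg M) (hg' : IsSpacetime Reg' N)
    (hI : IsIsom ι) {x : R4} (hx : x ∈ (theta e e' ι h).source) :
    ∃ L : R4 ≃L[ℝ] R4, (L : R4 →L[ℝ] R4) = fderiv ℝ (theta e e' ι h) x := by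
  have hinj : Function.Injective (fderiv ℝ (theta e e' ι h) x) := by
    rw [injective_iff_map_eq_zero]
    intro a ha
    apply hg.nondeg e (mem_theta_source.1 hx).1
    intro b
    rw [theta_pull hI hx, ha]
    have hy : theta e e' ι h x ∈ tgt e' :=
      (mem_theta_target.1 ((theta e e' ι h).map_source hx)).1
    have := (hg'.bilin e' hy).smul_left 0 0 (fderiv ℝ (theta e e' ι h) x b)
    simpa only [smul_zero, zero_mul] using this
  let L1 : R4 ≃ₗ[ℝ] R4 := LinearEquiv.ofInjectiveEndo
    ((fderiv ℝ (theta e e' ι h) x : R4 →L[ℝ] R4) : R4 →ₗ[ℝ] R4) hinj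
  refine ⟨L1.toContinuousLinearEquiv, ?_⟩
  apply ContinuousLinearMap.ext
  intro v
  rfl

lemma theta_symm_contDiffOn (hg : IsSpacetime Reg M) (hg' : IsSpacetime Reg' N)
    (hI : IsIsom ι) :
    ContDiffOn ℝ ∞ (theta e e' ι h).symm (theta e e' ι h).target := by
  intro y hy
  apply ContDiffAt.contDiffWithinAt
  have hx := (theta e e' ι h).map_target hy
  obtain ⟨L, hL⟩ := theta_equiv (h := h) hg hg' hI hx
  refine OpenPartialHomeomorph.contDiffAt_symm (f₀' := L) _ hy ?_ ?_
  · rw [hL]; exact theta_hasFDerivAt hI hx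
  · exact (theta_contDiffOn (h := h) hI).contDiffAt
      ((theta e e' ι h).open_source.mem_nhds hx)

/-- derivative of the inverse is the inverse of the derivative -/
lemma theta_fderiv_symm (hg : IsSpacetime Reg M) (hg' : IsSpacetime Reg' N)
    (hI : IsIsom ι)
    {y : R4} (hy : y ∈ (theta e e' ι h).target) (a : R4) :
    fderiv ℝ (theta e e' ι h) ((theta e e' ι h).symm y)
      (fderiv ℝ (theta e e' ι h).symm y a) = a := by
  have hx := (theta e e' ι h).map_target hy
  have h1 := theta_hasFDerivAt (h := h) hI hx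
  have h2 : HasFDerivAt (theta e e' ι h).symm (fderiv ℝ (theta e e' ι h).symm y) y :=
    (((theta_symm_contDiffOn (h := h) hg hg' hI).differentiableOn (by simp)).differentiableAt
      ((theta e e' ι h).open_target.mem_nhds hy)).hasFDerivAt
  have h3 := h1.comp y h2
  have h4 : HasFDerivAt (theta e e' ι h ∘ (theta e e' ι h).symm)
      (ContinuousLinearMap.id ℝ R4) y := by
    refine (hasFDerivAt_id y).congr_of_eventuallyEq ?_
    filter_upwards [(theta e e' ι h).open_target.mem_nhds hy] with z hz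
    exact (theta e e' ι h).right_inv hz
  have h5 := h3.unique h4
  have := DFunLike.congr_fun h5 a
  exact this

lemma theta_pull_symm (hg : IsSpacetime Reg M) (hg' : IsSpacetime Reg' N)
    (hI : IsIsom ι)
    {y : R4} (hy : y ∈ (theta e e' ι h).target) (a b : R4) :
    N.g e' y a b = M.g e ((theta e e' ι h).symm y)
      (fderiv ℝ (theta e e' ι h).symm y a) (fderiv ℝ (theta e e' ι h).symm y b) := by
  have hx := (theta e e' ι h).map_target hy
  rw [theta_pull hI hx, theta_fderiv_symm hg hg' hI hy,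
    theta_fderiv_symm hg hg' hI hy, (theta e e' ι h).right_inv hy]

lemma comp_contDiffOn_target (hg : IsSpacetime IsSmooth M) (hg' : IsSpacetime Reg' N)
    (hI : IsIsom ι) (a b : R4) :
    ContDiffOn ℝ ∞ (fun y => N.g e' y a b) (theta e e' ι h).target := by
  have h1 := theta_symm_contDiffOn (h := h) (e := e) (e' := e') hg hg' hI
  have h2 : ContDiffOn ℝ ∞ (fderiv ℝ (theta e e' ι h).symm) (theta e e' ι h).target :=
    h1.fderiv_of_isOpen (theta e e' ι h).open_target (by simp)
  have h3 : ∀ (k : Fin 4) (c : R4), ContDiffOn ℝ ∞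
      (fun y => crd k (fderiv ℝ (theta e e' ι h).symm y c)) (theta e e' ι h).target := by
    intro k c
    have := h2.clm_apply (contDiffOn_const (c := c))
    exact (crd k).contDiff.comp_contDiffOn this
  have h4 : ∀ (k l : Fin 4), ContDiffOn ℝ ∞
      (fun y => M.g e ((theta e e' ι h).symm y) (bas k) (bas l)) (theta e e' ι h).target := by
    intro k l
    refine (hg.regular e (bas k) (bas l)).comp h1 ?_
    intro y hy
    exact (mem_theta_source.1 ((theta e e' ι h).map_target hy)).1
  have h5 : ContDiffOn ℝ ∞ (fun y => ∑ k, ∑ l,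
      crd k (fderiv ℝ (theta e e' ι h).symm y a) * crd l (fderiv ℝ (theta e e' ι h).symm y b) *
        M.g e ((theta e e' ι h).symm y) (bas k) (bas l)) (theta e e' ι h).target := by
    refine ContDiffOn.sum fun k _ => ContDiffOn.sum fun l _ => ?_
    exact ((h3 k a).mul (h3 l b)).mul (h4 k l)
  refine h5.congr ?_
  intro y hy
  have hx := (mem_theta_source.1 ((theta e e' ι h).map_target hy)).1
  rw [theta_pull_symm (h := h) hg hg' hI hy a b, bilin_expand (hg.bilin e hx)]

end

end Vale.Agent.P354p
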