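import Mathlib
import Vale.Agent.P354p.Chart
import Vale.Agent.P354p.Defs
import Vale.Agent.P354.Iso

set_option linter.unusedSectionVars false
set_option maxSynthPendingDepth 3

open scoped Manifold ContDiff
open MeasureTheory Set Topology

namespace Vale.Agent.P354p

open Vale.Agent.P354 (Bilin LBasis P4 Coef Iso)


/-- affine change of coordinates -/
noncomputable def yv (y0 : R4) (A : R4 ≃L[ℝ] R4) (z : R4) : R4 := y0 + A z

lemma yv_continuous (y0 : R4) (A : R4 ≃L[ℝ] R4) : Continuous (yv y0 A) := by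
  unfold yv; fun_prop

lemma yv_contDiff (y0 : R4) (A : R4 ≃L[ℝ] R4) : ContDiff ℝ ∞ (yv y0 A) := by
  unfold yv; exact contDiff_const.add A.contDiff

lemma yv_hasFDerivAt (y0 : R4) (A : R4 ≃L[ℝ] R4) (z : R4) :
    HasFDerivAt (yv y0 A) (A : R4 →L[ℝ] R4) z := by
  unfold yv; exact (A.hasFDerivAt).const_add y0

/-- elementary bilinear forms -/
noncomputable def Qf (A : R4 ≃L[ℝ] R4) (i j : Fin 4) : R4 →L[ℝ] R4 →L[ℝ] ℝ :=
  ((crd i).comp (A : R4 →L[ℝ] R4)).smulRight ((crd j).comp (A : R4 →L[ℝ] R4))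

lemma Qf_apply (A : R4 ≃L[ℝ] R4) (i j : Fin 4) (a b : R4) :
    Qf A i j a b = crd i (A a) * crd j (A b) := by
  simp only [Qf, ContinuousLinearMap.smulRight_apply, ContinuousLinearMap.comp_apply, ContinuousLinearEquiv.coe_coe, smul_apply, smul_eq_mul]

/-- components -/
noncomputable def comp {N : Spc} (e' : N.Chart) (i j : Fin 4) (y : R4) : ℝ :=
  N.g e' y (bas i) (bas j)

/-- the metric in exotic coordinates -/
noncomputable def Gf (c : Fin 4 → Fin 4 → R4 → ℝ) (y0 : R4) (A : R4 ≃L[ℝ] R4) (z : R4) :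
    R4 →L[ℝ] R4 →L[ℝ] ℝ :=
  ∑ i, ∑ j, c i j (yv y0 A z) • Qf A i j

lemma Gf_apply {N : Spc} {e' : N.Chart} {y0 : R4} {A : R4 ≃L[ℝ] R4} {z : R4}
    (hB : Bilin (N.g e' (yv y0 A z))) (a b : R4) :
    Gf (comp e') y0 A z a b = N.g e' (yv y0 A z) (A a) (A b) := by
  rw [bilin_expand hB]
  simp only [Gf, _root_.sum_apply, _root_.smul_apply, Qf_apply,
    smul_eq_mul]
  refine Finset.sum_congr rfl fun i _ => Finset.sum_congr rfl fun j _ => ?_
  simp only [comp]
  ring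

lemma Gf_continuousOn {c : Fin 4 → Fin 4 → R4 → ℝ} {D : Set R4}
    (hc : ∀ i j, ContinuousOn (c i j) D) (y0 : R4) (A : R4 ≃L[ℝ] R4) :
    ContinuousOn (Gf c y0 A) (yv y0 A ⁻¹' D) := by
  unfold Gf
  refine continuousOn_finsetSum _ fun i _ => continuousOn_finsetSum _ fun j _ => ?_
  exact ((hc i j).comp (yv_continuous y0 A).continuousOn (fun z hz => hz)).smul
    continuousOn_const

lemma Gf_contDiffOn {c : Fin 4 → Fin 4 → R4 → ℝ} {D : Set R4}
    (hc : ∀ i j, ContDiffOn ℝ ∞ (c i j) D) (y0 : R4) (A : R4 ≃L[ℝ] R4) :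
    ContDiffOn ℝ ∞ (Gf c y0 A) (yv y0 A ⁻¹' D) := by
  unfold Gf
  refine ContDiffOn.sum fun i _ => ContDiffOn.sum fun j _ => ?_
  exact ((hc i j).comp (yv_contDiff y0 A).contDiffOn (fun z hz => hz)).smul
    contDiffOn_const

lemma norm_clm_le_sum (L : R4 →L[ℝ] ℝ) : ‖L‖ ≤ ∑ k, |L (bas k)| := by
  refine ContinuousLinearMap.opNorm_le_bound _ (Finset.sum_nonneg fun _ _ => abs_nonneg _) ?_
  intro x
  have hx : x = ∑ k, crd k x • bas k := by
    rw [Fin.sum_univ_four]; exact bas_decomp x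
  conv_lhs => rw [hx, map_sum]
  calc ‖∑ k, L (crd k x • bas k)‖ ≤ ∑ k, ‖L (crd k x • bas k)‖ := norm_sum_le _ _
    _ ≤ ∑ k, |L (bas k)| * ‖x‖ := by
        refine Finset.sum_le_sum fun k _ => ?_
        rw [map_smul, smul_eq_mul, norm_mul, mul_comm]
        gcongr
        · exact le_of_eq (Real.norm_eq_abs _)
        · exact abs_crd_le k x
    _ = (∑ k, |L (bas k)|) * ‖x‖ := by rw [Finset.sum_mul]

lemma Gf_fderiv_bound {c : Fin 4 → Fin 4 → R4 → ℝ} {y0 : R4} {A : R4 ≃L[ℝ] R4} {z : R4}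
    (hc : ∀ i j, DifferentiableAt ℝ (c i j) (yv y0 A z)) :
    ‖fderiv ℝ (Gf c y0 A) z‖ ≤ ∑ i, ∑ j, ∑ k,
      (‖(A : R4 →L[ℝ] R4)‖ * ‖Qf A i j‖) * |fderiv ℝ (c i j) (yv y0 A z) (bas k)| := by
  have h1 : HasFDerivAt (Gf c y0 A) (∑ i, ∑ j,
      (((fderiv ℝ (c i j) (yv y0 A z)).comp (A : R4 →L[ℝ] R4)).smulRight (Qf A i j))) z := by
    unfold Gf
    refine HasFDerivAt.fun_sum fun i _ => HasFDerivAt.fun_sum fun j _ => ?_
    have h2 : HasFDerivAt (fun z => c i j (yv y0 A z))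
        ((fderiv ℝ (c i j) (yv y0 A z)).comp (A : R4 →L[ℝ] R4)) z :=
      (hc i j).hasFDerivAt.comp z (yv_hasFDerivAt y0 A z)
    exact h2.smul_const (Qf A i j)
  rw [h1.fderiv]
  calc _ ≤ ∑ i, ‖∑ j, (((fderiv ℝ (c i j) (yv y0 A z)).comp
        (A : R4 →L[ℝ] R4)).smulRight (Qf A i j))‖ := norm_sum_le _ _
    _ ≤ ∑ i, ∑ j, ‖(((fderiv ℝ (c i j) (yv y0 A z)).comp
        (A : R4 →L[ℝ] R4)).smulRight (Qf A i j))‖ :=
        Finset.sum_le_sum fun i _ => norm_sum_le _ _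
    _ ≤ _ := by
        refine Finset.sum_le_sum fun i _ => Finset.sum_le_sum fun j _ => ?_
        rw [ContinuousLinearMap.norm_smulRight_apply, ← Finset.mul_sum]
        calc ‖(fderiv ℝ (c i j) (yv y0 A z)).comp (A : R4 →L[ℝ] R4)‖ * ‖Qf A i j‖
            ≤ (‖fderiv ℝ (c i j) (yv y0 A z)‖ * ‖(A : R4 →L[ℝ] R4)‖) * ‖Qf A i j‖ := by
              gcongr; exact ContinuousLinearMap.opNorm_comp_le _ _
          _ ≤ ((∑ k, |fderiv ℝ (c i j) (yv y0 A z) (bas k)|) * ‖(A : R4 →L[ℝ] R4)‖)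
                * ‖Qf A i j‖ := by
              gcongr; exact norm_clm_le_sum _
          _ = _ := by ring

lemma map_yv_volume (y0 : R4) (A : R4 ≃L[ℝ] R4) :
    ∃ c : NNReal, (volume : Measure R4).map (yv y0 A) = c • (volume : Measure R4) := by
  have h0 := volume_haar
  have hHaar : Measure.IsAddHaarMeasure ((volume : Measure R4).map (A : R4 → R4)) :=
    A.isAddHaarMeasure_map volume
  obtain ⟨c, hc⟩ : ∃ c : NNReal, (volume : Measure R4).map (A : R4 → R4) =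
      c • (volume : Measure R4) := ⟨_, Measure.isAddLeftInvariant_eq_smul _ _⟩
  refine ⟨c, ?_⟩
  have : yv y0 A = (fun x => y0 + x) ∘ (A : R4 → R4) := rfl
  rw [this, ← Measure.map_map (measurable_const_add y0) A.continuous.measurable, hc,
      Measure.map_smul, map_add_left_eq_self]

lemma memLp_comp_yv {pp : ENNReal} {f : R4 → ℝ} {S : Set R4} (hS : MeasurableSet S) (y0 : R4)
    (A : R4 ≃L[ℝ] R4) (hf : MemLp f pp (volume.restrict S)) :
    MemLp (fun z => f (yv y0 A z)) pp (volume.restrict (yv y0 A ⁻¹' S)) := by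
  have hmeas : Measurable (yv y0 A) := (yv_continuous y0 A).measurable
  obtain ⟨c, hmap⟩ := map_yv_volume y0 A
  have h1 : MemLp f pp (((volume : Measure R4).restrict (yv y0 A ⁻¹' S)).map (yv y0 A)) := by
    rw [← Measure.restrict_map hmeas hS, hmap, Measure.restrict_smul]
    exact hf.smul_measure (by simp)
  exact (memLp_map_measure_iff h1.1 hmeas.aemeasurable).1 h1

lemma Gf_energy {pp : ENNReal} (hpp : 2 ≤ pp) {c : Fin 4 → Fin 4 → R4 → ℝ} {D W K : Set R4} (hW : IsOpen W) (hWD : W ⊆ D)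
    (hc : ∀ i j, (IsC0W1 pp) (c i j) D) (hcW : ∀ i j, ContDiffOn ℝ ∞ (c i j) W)
    (hK : IsCompact K) (hKD : K ⊆ D) (y0 : R4) (A : R4 ≃L[ℝ] R4) :
    MemLp (fderiv ℝ (Gf c y0 A)) pp (volume.restrict (yv y0 A ⁻¹' (K ∩ W))) := by
  set S : Set R4 := K ∩ W with hS
  have hSm : MeasurableSet S := hK.measurableSet.inter hW.measurableSet
  have hmeasS : MeasurableSet (yv y0 A ⁻¹' S) := (yv_continuous y0 A).measurable hSm
  have hG : ContDiffOn ℝ ∞ (Gf c y0 A) (yv y0 A ⁻¹' W) := Gf_contDiffOn hcW y0 A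
  have hWo : IsOpen (yv y0 A ⁻¹' W) := hW.preimage (yv_continuous y0 A)
  have hGc : ContinuousOn (fderiv ℝ (Gf c y0 A)) (yv y0 A ⁻¹' W) :=
    hG.continuousOn_fderiv_of_isOpen hWo (by simp only [WithTop.one_le_coe, le_top])
  have h1 : ∀ i j k, MemLp (fun z => (‖(A : R4 →L[ℝ] R4)‖ * ‖Qf A i j‖) *
      |fderiv ℝ (c i j) (yv y0 A z) (bas k)|) pp (volume.restrict (yv y0 A ⁻¹' S)) := by
    intro i j k
    have h2 := memLp_fderiv hpp hW hWD (hc i j) ((hcW i j).of_le (by simp only [WithTop.one_le_coe, le_top])) (bas k) hK hKD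
    have h3 := memLp_comp_yv hSm y0 A h2
    exact h3.abs.const_mul _
  have h2 : MemLp (fun z => ∑ i, ∑ j, ∑ k, (‖(A : R4 →L[ℝ] R4)‖ * ‖Qf A i j‖) *
      |fderiv ℝ (c i j) (yv y0 A z) (bas k)|) pp (volume.restrict (yv y0 A ⁻¹' S)) := by
    refine memLp_finsetSum _ fun i _ => memLp_finsetSum _ fun j _ =>
      memLp_finsetSum _ fun k _ => h1 i j k
  have h3 : MemLp (fderiv ℝ (Gf c y0 A)) pp (volume.restrict (yv y0 A ⁻¹' S)) := by
    refine h2.mono ?_ ?_
    · exact (hGc.mono (preimage_mono inter_subset_right)).aestronglyMeasurable hmeasS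
    · rw [ae_restrict_iff' hmeasS]
      refine Filter.Eventually.of_forall fun z hz => ?_
      have hd : ∀ i j, DifferentiableAt ℝ (c i j) (yv y0 A z) := fun i j =>
        ((hcW i j).differentiableOn (by simp)).differentiableAt (hW.mem_nhds hz.2)
      exact (Gf_fderiv_bound hd).trans (le_abs_self _)
  exact h3

/-- the permutation of coordinates from (u, v, th1, th2) to (th1, (v, (u, th2))) -/
noncomputable def Sp : R4 ≃L[ℝ] R4 :=
  LinearEquiv.toContinuousLinearEquiv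
    { toFun := fun x => (x.2.2.1, x.2.1, x.1, x.2.2.2)
      invFun := fun x => (x.2.2.1, x.2.1, x.1, x.2.2.2)
      map_add' := fun x y => by simp only [Prod.snd_add, Prod.fst_add, Prod.mk_add_mk]
      map_smul' := fun t x => by simp only [Prod.smul_snd, Prod.smul_fst, smul_eq_mul, Real.ringHom_apply, Prod.smul_mk]
      left_inv := fun x => by simp
      right_inv := fun z => by simp }

lemma Sp_apply (x : R4) : Sp x = (x.2.2.1, x.2.1, x.1, x.2.2.2) := rfl

lemma Sp_symm_apply (x : R4) : Sp.symm x = (x.2.2.1, x.2.1, x.1, x.2.2.2) := rfl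

/-- coefficients transported to the internal order of coordinates -/
noncomputable def toCoef (C : ℕ → R4 → ℝ) : Coef where
  om := fun z => C 3 (Sp.symm z)
  s1 := fun z => C 4 (Sp.symm z)
  s2 := fun z => C 5 (Sp.symm z)
  g11 := fun z => C 0 (Sp.symm z)
  g12 := fun z => C 1 (Sp.symm z)
  g22 := fun z => C 2 (Sp.symm z)

lemma form_eq (C : ℕ → R4 → ℝ) {x : R4} (h6 : C 6 x = 0) (h7 : C 7 x = 0) (a b : R4) :
    form C x a b = (toCoef C).gF (Sp x) (Sp a) (Sp b) := by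
  simp only [form, ang, h1, h2, cu, cv, c1, c2, h6, h7, Coef.gF,
    Coef.h1, Coef.h2, toCoef, ContinuousLinearEquiv.symm_apply_apply]
  simp only [Sp_apply]
  ring

end Vale.Agent.P354p
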