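import Mathlib
import Vale.Agent.P354p.Adapt
import Vale.Agent.P354w.Iso

set_option linter.unusedSectionVars false
set_option maxSynthPendingDepth 3

open scoped Manifold ContDiff
open MeasureTheory Set Topology

namespace Vale.Agent.P354p

open Vale.Agent.P354 (Bilin LBasis P4 Coef Iso comb exists_adapted B_comb)

section

variable {M N : Spc} [Nonempty M.pt] {e : M.Chart} {e' : N.Chart}
  {ι : M.pt → N.pt} {h : IsOpenEmbedding ι} {Reg Reg' : (R4 → ℝ) → Set R4 → Prop}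
  {C : ℕ → R4 → ℝ} {Om : Set R4}

/-- domain of the map Psi, in exotic coordinates -/
noncomputable def Vset (e : M.Chart) (e' : N.Chart) (ι : M.pt → N.pt) (h : IsOpenEmbedding ι)
    (Om : Set R4) (y0 : R4) (A : R4 ≃L[ℝ] R4) : Set R4 :=
  {z | yv y0 A z ∈ (theta e e' ι h).target ∧ (theta e e' ι h).symm (yv y0 A z) ∈ Om}

/-- from exotic coordinates to the standard coordinates (th1, (v, (u, th2))) -/
noncomputable def PsiF (e : M.Chart) (e' : N.Chart) (ι : M.pt → N.pt) (h : IsOpenEmbedding ι)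
    (y0 : R4) (A : R4 ≃L[ℝ] R4) (z : R4) : R4 :=
  Sp ((theta e e' ι h).symm (yv y0 A z))

lemma Vset_isOpen (hOm : IsOpen Om) (y0 : R4) (A : R4 ≃L[ℝ] R4) :
    IsOpen (Vset e e' ι h Om y0 A) := by
  have : IsOpen ((theta e e' ι h).target ∩ (theta e e' ι h).symm ⁻¹' Om) :=
    (theta e e' ι h).symm.isOpen_inter_preimage hOm
  exact this.preimage (yv_continuous y0 A)

lemma Psi_contDiffOn (hg : IsSpacetime Reg M) (hg' : IsSpacetime Reg' N)
    (hI : IsIsom ι) (Om : Set R4) (y0 : R4) (A : R4 ≃L[ℝ] R4) :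
    ContDiffOn ℝ ∞ (PsiF e e' ι h y0 A) (Vset e e' ι h Om y0 A) := by
  have h1 := theta_symm_contDiffOn (h := h) (e := e) (e' := e') hg hg' hI
  exact Sp.contDiff.comp_contDiffOn
    (h1.comp (yv_contDiff y0 A).contDiffOn (fun z hz => hz.1))

lemma Psi_hasFDerivAt (hg : IsSpacetime Reg M) (hg' : IsSpacetime Reg' N)
    (hI : IsIsom ι) (y0 : R4) (A : R4 ≃L[ℝ] R4) {z : R4}
    (hz : yv y0 A z ∈ (theta e e' ι h).target) :
    HasFDerivAt (PsiF e e' ι h y0 A) ((Sp : R4 →L[ℝ] R4).comp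
      ((fderiv ℝ (theta e e' ι h).symm (yv y0 A z)).comp (A : R4 →L[ℝ] R4))) z := by
  have h2 : HasFDerivAt (theta e e' ι h).symm (fderiv ℝ (theta e e' ι h).symm (yv y0 A z))
      (yv y0 A z) :=
    (((theta_symm_contDiffOn (h := h) hg hg' hI).differentiableOn (by simp)).differentiableAt
      ((theta e e' ι h).open_target.mem_nhds hz)).hasFDerivAt
  exact Sp.hasFDerivAt.comp z (h2.comp z (yv_hasFDerivAt y0 A z))

lemma target_sub {y : R4} (hy : y ∈ (theta e e' ι h).target) : y ∈ tgt e' :=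
  (mem_theta_target.1 hy).1

lemma Psi_form (hg : IsSpacetime Reg M) (hg' : IsSpacetime Reg' N)
    (hI : IsIsom ι)
    (hC : ∀ x ∈ Om, ∀ a b, M.g e x a b = form C x a b)
    (y0 : R4) (A : R4 ≃L[ℝ] R4) {z : R4} (hz : z ∈ Vset e e' ι h Om y0 A) (a b : R4) :
    Gf (comp e') y0 A z a b = form C ((theta e e' ι h).symm (yv y0 A z))
      (fderiv ℝ (theta e e' ι h).symm (yv y0 A z) (A a))
      (fderiv ℝ (theta e e' ι h).symm (yv y0 A z) (A b)) := by
  rw [Gf_apply (hg'.bilin e' (target_sub hz.1)), theta_pull_symm (h := h) hg hg' hI hz.1,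
    hC _ hz.2]

lemma Psi_iso (hg : IsSpacetime Reg M) (hg' : IsSpacetime Reg' N)
    (hI : IsIsom ι)
    (hC : ∀ x ∈ Om, ∀ a b, M.g e x a b = form C x a b)
    (h67 : ∀ x ∈ Om, C 6 x = 0 ∧ C 7 x = 0)
    (y0 : R4) (A : R4 ≃L[ℝ] R4) {z : R4} (hz : z ∈ Vset e e' ι h Om y0 A) (a b : R4) :
    Gf (comp e') y0 A z a b = (toCoef C).gF (PsiF e e' ι h y0 A z)
      (fderiv ℝ (PsiF e e' ι h y0 A) z a) (fderiv ℝ (PsiF e e' ι h y0 A) z b) := by
  rw [Psi_form hg hg' hI hC y0 A hz, form_eq C (h67 _ hz.2).1 (h67 _ hz.2).2,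
    (Psi_hasFDerivAt (h := h) hg hg' hI y0 A hz.1).fderiv]
  rfl

lemma diff_Sp {f : R4 → ℝ} {x : R4} (hf : DifferentiableAt ℝ f x) :
    DifferentiableAt ℝ (fun z => f (Sp.symm z)) (Sp x) := by
  have : DifferentiableAt ℝ f (Sp.symm (Sp x)) := by simpa using hf
  exact this.comp (Sp x) Sp.symm.differentiableAt

lemma diffG (hg : IsSpacetime IsSmooth M) (hg' : IsSpacetime Reg' N)
    (hI : IsIsom ι) (y0 : R4) (A : R4 ≃L[ℝ] R4) {z : R4}
    (hz : yv y0 A z ∈ (theta e e' ι h).target) :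
    DifferentiableAt ℝ (Gf (comp e') y0 A) z := by
  have h1 := Gf_contDiffOn (c := comp e')
    (fun i j => comp_contDiffOn_target (h := h) (e := e) (e' := e') hg hg' hI (bas i) (bas j)) y0 A
  refine (h1.differentiableOn (by simp)).differentiableAt ?_
  exact ((theta e e' ι h).open_target.preimage (yv_continuous y0 A)).mem_nhds hz

lemma Psi_Iso (hg : IsSpacetime IsSmooth M) (hg' : IsSpacetime Reg' N)
    (hI : IsIsom ι) (hOm : IsOpen Om)
    (hC : ∀ x ∈ Om, ∀ a b, M.g e x a b = form C x a b)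
    (h67 : ∀ x ∈ Om, C 6 x = 0 ∧ C 7 x = 0)
    (hCd : ∀ x ∈ Om, ∀ i, DifferentiableAt ℝ (C i) x)
    (y0 : R4) (A : R4 ≃L[ℝ] R4) :
    Iso (toCoef C) (Gf (comp e') y0 A) (PsiF e e' ι h y0 A) (Vset e e' ι h Om y0 A) where
  isOpen := Vset_isOpen hOm y0 A
  smooth := (Psi_contDiffOn hg hg' hI Om y0 A).of_le (by norm_cast)
  diffG := fun z hz => diffG hg hg' hI y0 A hz.1
  diffK := by
    intro z hz
    have hd := hCd _ hz.2
    exact ⟨diff_Sp (hd 3), diff_Sp (hd 4), diff_Sp (hd 5), diff_Sp (hd 0), diff_Sp (hd 1),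
      diff_Sp (hd 2)⟩
  iso := fun z hz a b => Psi_iso hg hg' hI hC h67 y0 A hz a b

/-- coefficients transported to the internal order of coordinates, both shifts -/
noncomputable def toW (C : ℕ → R4 → ℝ) : P354w.Coef where
  om := fun z => C 3 (Sp.symm z)
  s1 := fun z => C 4 (Sp.symm z)
  s2 := fun z => C 5 (Sp.symm z)
  w1 := fun z => C 6 (Sp.symm z)
  w2 := fun z => C 7 (Sp.symm z)
  g11 := fun z => C 0 (Sp.symm z)
  g12 := fun z => C 1 (Sp.symm z)
  g22 := fun z => C 2 (Sp.symm z)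

lemma form_eqW (C : ℕ → R4 → ℝ) (x a b : R4) :
    form C x a b = (toW C).gF (Sp x) (Sp a) (Sp b) := by
  simp only [form, ang, h1, h2, cu, cv, c1, c2, P354w.Coef.gF,
    P354w.Coef.h1, P354w.Coef.h2, toW, ContinuousLinearEquiv.symm_apply_apply]
  simp only [Sp_apply]
  ring

lemma Psi_IsoW (hg : IsSpacetime IsSmooth M) (hg' : IsSpacetime Reg' N)
    (hI : IsIsom ι) (hOm : IsOpen Om)
    (hC : ∀ x ∈ Om, ∀ a b, M.g e x a b = form C x a b)
    (hCd : ∀ x ∈ Om, ∀ i, DifferentiableAt ℝ (C i) x)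
    (y0 : R4) (A : R4 ≃L[ℝ] R4) :
    P354w.Iso (toW C) (Gf (comp e') y0 A) (PsiF e e' ι h y0 A) (Vset e e' ι h Om y0 A) where
  isOpen := Vset_isOpen hOm y0 A
  smooth := (Psi_contDiffOn hg hg' hI Om y0 A).of_le (by norm_cast)
  diffG := fun z hz => diffG hg hg' hI y0 A hz.1
  diffK := by
    intro z hz
    have hd := hCd _ hz.2
    exact ⟨diff_Sp (hd 3), diff_Sp (hd 4), diff_Sp (hd 5), diff_Sp (hd 6), diff_Sp (hd 7),
      diff_Sp (hd 0), diff_Sp (hd 1), diff_Sp (hd 2)⟩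
  iso := fun z hz a b => by
    rw [Psi_form hg hg' hI hC y0 A hz, form_eqW,
      (Psi_hasFDerivAt (h := h) hg hg' hI y0 A hz.1).fderiv]
    rfl

end

section

variable {N : Spc} {e' : N.Chart} {Reg' : (R4 → ℝ) → Set R4 → Prop}

/-- the linear map with columns b -/
noncomputable def colMap (b : Fin 4 → R4) : R4 →ₗ[ℝ] R4 where
  toFun := fun a => comb b ![a.1, a.2.1, a.2.2.1, a.2.2.2]
  map_add' := fun x y => by
    simp [comb, add_smul]
    abel
  map_smul' := fun t x => by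
    simp [comb, mul_smul, smul_add]

lemma colMap_apply (b : Fin 4 → R4) (a : R4) :
    colMap b a = comb b ![a.1, a.2.1, a.2.2.1, a.2.2.2] := rfl

lemma mink_nondeg {a : R4} (h : ∀ b, P354.mink a b = 0) : a = 0 := by
  have h0 := h (1, 0, 0, 0)
  have h1 := h (0, 1, 0, 0)
  have h2 := h (0, 0, 1, 0)
  have h3 := h (0, 0, 0, 1)
  simp [P354.mink] at h0 h1 h2 h3
  ext <;> simp [h0, h1, h2, h3]

lemma exists_A (hg' : IsSpacetime Reg' N) {y0 : R4}
    (hy0 : y0 ∈ tgt e') {w : R4} (hw : N.g e' y0 w w < 0) :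
    ∃ A : R4 ≃L[ℝ] R4, (∀ a b, N.g e' y0 (A a) (A b) = P354.mink a b) ∧
      ∃ l : ℝ, 0 < l ∧ A (1, 0, 0, 0) = l • w := by
  obtain ⟨b, hb⟩ := hg'.exists_LBasis e' hy0
  have hB := hg'.bilin e' hy0
  obtain ⟨b', hb', l, hl, hb0⟩ := exists_adapted hB hb (hb.span hB finrank_R4) hw
  have hform : ∀ a c : R4, N.g e' y0 (colMap b' a) (colMap b' c) = P354.mink a c := by
    intro a c
    rw [colMap_apply, colMap_apply, B_comb hB hb']
    simp [P354.mink]
  have hinj : Function.Injective (colMap b') := by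
    rw [injective_iff_map_eq_zero]
    intro a ha
    apply mink_nondeg
    intro c
    rw [← hform, ha]
    have := hB.smul_left 0 0 (colMap b' c)
    simpa using this
  let L : R4 ≃ₗ[ℝ] R4 := LinearMap.linearEquivOfInjective (colMap b') hinj rfl
  have hL : ∀ a, L a = colMap b' a := fun a => rfl
  refine ⟨L.toContinuousLinearEquiv, ?_, l, hl, ?_⟩
  · intro a c
    exact hform a c
  · show colMap b' (1, 0, 0, 0) = l • w
    rw [colMap_apply, ← hb0]
    simp [comb]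

end

end Vale.Agent.P354p
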