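import Mathlib
import Vale.Agent.P354p.Defs
import Vale.Agent.P354p.Map
import Vale.Agent.P354w.SC4

set_option linter.unusedSectionVars false
set_option maxSynthPendingDepth 3

open scoped Manifold ContDiff
open MeasureTheory Set Topology

namespace Vale.Agent.P354p

open Vale.Agent.P354 (P4 norm_P4_le)

lemma norm_Sp (x : R4) : ‖Sp x‖ = ‖x‖ := by
  have h := norm_P4_le.1 (le_refl ‖Sp x‖)
  have h' := norm_P4_le.1 (le_refl ‖x‖)
  apply le_antisymm
  · rw [norm_P4_le]
    exact ⟨h'.2.2.1, h'.2.1, h'.1, h'.2.2.2⟩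
  · rw [norm_P4_le]
    exact ⟨h.2.2.1, h.2.1, h.1, h.2.2.2⟩

lemma fderiv_comp_Sp {f : R4 → ℝ} {x : R4} (hf : DifferentiableAt ℝ f x) (w : R4) :
    fderiv ℝ (fun z => f (Sp.symm z)) (Sp x) w = deriv f x (Sp.symm w) := by
  rw [deriv_eq hf]
  have hf' : DifferentiableAt ℝ f (Sp.symm (Sp x)) := by simpa only [ContinuousLinearEquiv.symm_apply_apply] using hf
  have h1 : HasFDerivAt (fun z => f (Sp.symm z))
      ((fderiv ℝ f (Sp.symm (Sp x))).comp (Sp.symm : R4 →L[ℝ] R4)) (Sp x) :=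
    hf'.hasFDerivAt.comp (Sp x) Sp.symm.hasFDerivAt
  rw [h1.fderiv]
  simp only [ContinuousLinearEquiv.symm_apply_apply, ContinuousLinearMap.comp_apply, ContinuousLinearEquiv.coe_coe]

lemma fderiv_comp_Sp4 {f : R4 → ℝ} {x : R4} (hf : DifferentiableAt ℝ f x) (w : R4) :
    fderiv ℝ (fun z => 4 * f (Sp.symm z)) (Sp x) w = 4 * deriv f x (Sp.symm w) := by
  have h1 : DifferentiableAt ℝ (fun z => f (Sp.symm z)) (Sp x) := diff_Sp hf
  have h2 : HasFDerivAt (fun z => 4 * f (Sp.symm z))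
      ((4:ℝ) • fderiv ℝ (fun z => f (Sp.symm z)) (Sp x)) (Sp x) := h1.hasFDerivAt.const_mul 4
  rw [h2.fderiv]
  show 4 * fderiv ℝ (fun z => f (Sp.symm z)) (Sp x) w = _
  rw [fderiv_comp_Sp hf]

lemma deriv_add {f : R4 → ℝ} {x : R4} (hf : DifferentiableAt ℝ f x) (a b : R4) :
    deriv f x (a + b) = deriv f x a + deriv f x b := by
  rw [deriv_eq hf, deriv_eq hf, deriv_eq hf, map_add]

lemma deriv_smul {f : R4 → ℝ} {x : R4} (hf : DifferentiableAt ℝ f x) (t : ℝ) (a : R4) :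
    deriv f x (t • a) = t * deriv f x a := by
  rw [deriv_eq hf, deriv_eq hf, map_smul, smul_eq_mul]

/-- a vector tangent to the spheres -/
def sph (p q : ℝ) : R4 := (0, 0, p, q)

lemma norm_sph_le {p q K : ℝ} (hp : |p| ≤ K) (hq : |q| ≤ K) : ‖sph p q‖ ≤ K := by
  have hK : 0 ≤ K := (abs_nonneg _).trans hp
  exact norm_P4_le.2 ⟨by simpa only [sph, abs_zero], by simpa only [sph, abs_zero], hp, hq⟩

section

variable {C : ℕ → R4 → ℝ} {x : R4} {K k n : ℝ}

namespace IsBounded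

lemma K_one (h : IsBounded C x K k n) : 1 ≤ K := by
  have h1 := h.om_lower
  have h2 := (h.bound 3 (by norm_num)).1
  have h0 : 0 ≤ K := (abs_nonneg _).trans h2
  have h3 : K * C 3 x ≤ K * K := mul_le_mul_of_nonneg_left ((le_abs_self _).trans h2) h0
  nlinarith

lemma om_pos (h : IsBounded C x K k n) : 0 < C 3 x := by
  have h1 := h.om_lower
  have hK := h.K_one
  by_contra hcon
  push Not at hcon
  nlinarith only [h1, hcon, hK]

lemma g_low (h : IsBounded C x K k n) (p q : ℝ) :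
    p ^ 2 + q ^ 2 ≤ K * (C 0 x * p ^ 2 + 2 * C 1 x * p * q + C 2 x * q ^ 2) := by
  have h1 := h.g_lower p q
  have h2 : ang C x p q p q = C 0 x * p ^ 2 + 2 * C 1 x * p * q + C 2 x * q ^ 2 := by
    simp only [ang]; ring
  rwa [h2] at h1

lemma Q_nonneg (h : IsBounded C x K k n) (p q : ℝ) :
    0 ≤ C 0 x * p ^ 2 + 2 * C 1 x * p * q + C 2 x * q ^ 2 := by
  have h1 := h.g_low p q
  have h2 : 0 ≤ p ^ 2 + q ^ 2 := by positivity
  have hK := h.K_one
  by_contra hcon
  push Not at hcon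
  nlinarith only [h1, hcon, hK]

lemma k0 (h : IsBounded C x K k n) : 0 ≤ k := (abs_nonneg _).trans (h.deriv_vu 0 (by norm_num)).1
lemma n0 (h : IsBounded C x K k n) : 0 ≤ n := (abs_nonneg _).trans (h.deriv_vu 0 (by norm_num)).2

lemma deriv_sph (h : IsBounded C x K k n) {i : ℕ} (hi : i < 8) {p q m : ℝ} (hp : |p| ≤ m)
    (hq : |q| ≤ m) : |deriv (C i) x (sph p q)| ≤ K * m := by
  have hK := h.K_one
  calc _ ≤ K * ‖sph p q‖ := (h.bound i hi).2 _ rfl rfl
    _ ≤ K * m := by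
      gcongr
      exact norm_sph_le hp hq

lemma cbd (h : IsBounded C x K k n) {K' : ℝ} (hK' : K ≤ K') :
    P354w.CBdW (toW C) K' (Sp x) := by
  have hK := h.K_one
  have hK0 : 0 < K := by linarith
  have hK'0 : 0 < K' := by linarith
  have hb : ∀ i < 8, |C i (Sp.symm (Sp x))| ≤ K' := fun i hi => by
    rw [ContinuousLinearEquiv.symm_apply_apply]
    exact ((h.bound i hi).1).trans hK'
  refine ⟨by linarith, ?_, ?_, ?_, ?_, ?_, ?_, ?_, ?_, ?_, ?_⟩
  · rw [div_le_iff₀ (by positivity)]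
    have h1 := h.om_lower
    have h2 : 0 ≤ C 3 x := h.om_pos.le
    show 1 ≤ C 3 (Sp.symm (Sp x)) * K'
    rw [ContinuousLinearEquiv.symm_apply_apply]
    linarith only [h1, mul_le_mul_of_nonneg_right hK' h2]
  · exact (le_abs_self _).trans (hb 3 (by norm_num))
  · intro p q
    rw [div_le_iff₀ (by positivity)]
    have h1 := h.g_low p q
    have h2 := h.Q_nonneg p q
    show p ^ 2 + q ^ 2 ≤ (C 0 (Sp.symm (Sp x)) * p ^ 2 + 2 * C 1 (Sp.symm (Sp x)) * p * q +
      C 2 (Sp.symm (Sp x)) * q ^ 2) * K'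
    rw [ContinuousLinearEquiv.symm_apply_apply]
    linarith only [h1, mul_le_mul_of_nonneg_right hK' h2]
  · exact hb 0 (by norm_num)
  · exact hb 1 (by norm_num)
  · exact hb 2 (by norm_num)
  · exact hb 4 (by norm_num)
  · exact hb 5 (by norm_num)
  · exact hb 6 (by norm_num)
  · exact hb 7 (by norm_num)

lemma e4_eq (C : ℕ → R4 → ℝ) (x : R4) :
    Sp.symm (P354w.e4 ((toW C).scale 4) (Sp x)) = dv + sph (C 4 x) (C 5 x) := by
  rw [Sp_symm_apply]
  simp only [P354w.e4, P354w.Coef.scale, toW, ContinuousLinearEquiv.symm_apply_apply, dv, sph, Prod.mk_add_mk, add_zero, zero_add]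

lemma e3_eq (C : ℕ → R4 → ℝ) (x : R4) :
    Sp.symm (P354w.e3 ((toW C).scale 4) (Sp x)) = du + sph (C 6 x) (C 7 x) := by
  rw [Sp_symm_apply]
  simp only [P354w.e3, P354w.Coef.scale, toW, ContinuousLinearEquiv.symm_apply_apply, du, sph, Prod.mk_add_mk, add_zero, zero_add]

lemma bd (h : IsBounded C x K k n) (hd : ∀ i < 8, DifferentiableAt ℝ (C i) x) {Cc : ℝ}
    (hCc : 6 * K ^ 2 ≤ Cc) :
    ((toW C).scale 4).Bd (Sp x) Cc (4 * (k + K ^ 2)) (4 * (k + K ^ 2)) (4 * (n + K ^ 2)) := by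
  have hK := h.K_one
  have hK0 : 0 < K := by linarith
  have hKK : K ≤ K ^ 2 := by nlinarith only [hK]
  have hk0 := h.k0
  have hl0 := h.k0
  have hn0 := h.n0
  have hC0 : 0 ≤ Cc := by linarith only [hCc, hK, hKK]
  have hCcK : 4 * K ≤ Cc := by linarith
  have hss : Sp.symm (Sp x) = x := ContinuousLinearEquiv.symm_apply_apply _ _
  have hb : ∀ i < 8, |C i (Sp.symm (Sp x))| ≤ Cc := fun i hi => by
    rw [hss]
    exact ((h.bound i hi).1).trans (by linarith only [hCc, hK, hKK])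
  have hb4 : ∀ i < 8, |4 * C i (Sp.symm (Sp x))| ≤ Cc := fun i hi => by
    rw [hss, abs_mul, abs_of_pos (by norm_num : (0:ℝ) < 4)]
    have := (h.bound i hi).1
    linarith only [hCc, hK, hKK, this]
  have v1 : Sp.symm P354w.e1 = sph 1 0 := by simp [Sp_symm_apply, P354w.e1, sph]
  have v2 : Sp.symm P354w.e2 = sph 0 1 := by simp [Sp_symm_apply, P354w.e2, sph]
  have hd1 : ∀ i < 8, |fderiv ℝ (fun z => C i (Sp.symm z)) (Sp x) P354w.e1| ≤ Cc := fun i hi => by
    rw [fderiv_comp_Sp (hd i hi), v1]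
    have := h.deriv_sph hi (p := 1) (q := 0) (m := 1) (by simp) (by simp only [abs_zero, zero_le_one])
    linarith only [hCc, hK, hKK, this]
  have hd2 : ∀ i < 8, |fderiv ℝ (fun z => C i (Sp.symm z)) (Sp x) P354w.e2| ≤ Cc := fun i hi => by
    rw [fderiv_comp_Sp (hd i hi), v2]
    have := h.deriv_sph hi (p := 0) (q := 1) (m := 1) (by simp only [abs_zero, zero_le_one]) (by simp)
    linarith only [hCc, hK, hKK, this]
  have hf1 : ∀ i < 8, |fderiv ℝ (fun z => 4 * C i (Sp.symm z)) (Sp x) P354w.e1| ≤ Cc :=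
    fun i hi => by
      rw [fderiv_comp_Sp4 (hd i hi), v1, abs_mul, abs_of_pos (by norm_num : (0:ℝ) < 4)]
      have := h.deriv_sph hi (p := 1) (q := 0) (m := 1) (by simp) (by simp only [abs_zero, zero_le_one])
      linarith only [hCc, hK, hKK, this]
  have hf2 : ∀ i < 8, |fderiv ℝ (fun z => 4 * C i (Sp.symm z)) (Sp x) P354w.e2| ≤ Cc :=
    fun i hi => by
      rw [fderiv_comp_Sp4 (hd i hi), v2, abs_mul, abs_of_pos (by norm_num : (0:ℝ) < 4)]
      have := h.deriv_sph hi (p := 0) (q := 1) (m := 1) (by simp only [abs_zero, zero_le_one]) (by simp)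
      linarith only [hCc, hK, hKK, this]
  have hs : ∀ i < 8, ∀ j < 8, ∀ j' < 8, |deriv (C i) x (sph (C j x) (C j' x))| ≤ K ^ 2 :=
    fun i hi j hj j' hj' => by
      have := h.deriv_sph hi (h.bound j hj).1 (h.bound j' hj').1
      linarith only [this]
  have h4v : ∀ i < 8, ∀ m : ℝ, |deriv (C i) x dv| ≤ m →
      |fderiv ℝ (fun z => 4 * C i (Sp.symm z)) (Sp x)
        (P354w.e4 ((toW C).scale 4) (Sp x))| ≤ 4 * (m + K ^ 2) := fun i hi m hm => by
    rw [fderiv_comp_Sp4 (hd i hi), e4_eq, abs_mul, abs_of_pos (by norm_num : (0:ℝ) < 4),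
      deriv_add (hd i hi)]
    have h1 := hs i hi 4 (by norm_num) 5 (by norm_num)
    have h2 := abs_add_le (deriv (C i) x dv) (deriv (C i) x (sph (C 4 x) (C 5 x)))
    linarith only [hm, h1, h2]
  have h4u : ∀ i < 8, ∀ m : ℝ, |deriv (C i) x du| ≤ m →
      |fderiv ℝ (fun z => 4 * C i (Sp.symm z)) (Sp x)
        (P354w.e3 ((toW C).scale 4) (Sp x))| ≤ 4 * (m + K ^ 2) := fun i hi m hm => by
    rw [fderiv_comp_Sp4 (hd i hi), e3_eq, abs_mul, abs_of_pos (by norm_num : (0:ℝ) < 4),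
      deriv_add (hd i hi)]
    have h1 := hs i hi 6 (by norm_num) 7 (by norm_num)
    have h2 := abs_add_le (deriv (C i) x du) (deriv (C i) x (sph (C 6 x) (C 7 x)))
    linarith only [hm, h1, h2]
  have ht : ∀ i, (i = 4 ∨ i = 5) →
      |fderiv ℝ (fun z => C i (Sp.symm z)) (Sp x) (P354w.e3 ((toW C).scale 4) (Sp x)) -
      fderiv ℝ (fun z => C (i + 2) (Sp.symm z)) (Sp x)
        (P354w.e4 ((toW C).scale 4) (Sp x))| ≤ Cc := fun i hi => by
    have hi8 : i < 8 := by omega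
    have hi28 : i + 2 < 8 := by omega
    rw [fderiv_comp_Sp (hd i hi8), fderiv_comp_Sp (hd _ hi28), e3_eq, e4_eq,
      deriv_add (hd i hi8), deriv_add (hd _ hi28)]
    have h1 := hs i hi8 6 (by norm_num) 7 (by norm_num)
    have h2 := hs (i + 2) hi28 4 (by norm_num) 5 (by norm_num)
    have h3 := h.torsion i hi
    rw [abs_le] at h1 h2 h3 ⊢
    constructor <;> linarith only [hCc, hK, hKK, h1, h2, h3]
  have hom := h.om_lower
  have hompos := h.om_pos
  exact
    { one_le := by linarith only [hCc, hK, hKK]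
      cv0 := by positivity
      cw0 := by positivity
      cu0 := by positivity
      om_lo := by
        show 1 ≤ Cc * (4 * C 3 (Sp.symm (Sp x)))
        rw [hss]
        have : K * C 3 x ≤ Cc * C 3 x := by
          apply mul_le_mul_of_nonneg_right _ hompos.le
          linarith only [hCc, hK, hKK]
        have h2 : 0 ≤ Cc * C 3 x := by positivity
        linarith only [hom, this]
      om_hi := (le_abs_self _).trans (hb4 3 (by norm_num))
      g_lo := by
        intro p q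
        show p ^ 2 + q ^ 2 ≤ Cc * (4 * C 0 (Sp.symm (Sp x)) * p ^ 2 +
          2 * (4 * C 1 (Sp.symm (Sp x))) * p * q + 4 * C 2 (Sp.symm (Sp x)) * q ^ 2)
        rw [hss]
        have h1 := h.g_low p q
        have hQ := h.Q_nonneg p q
        have h3 : K * (C 0 x * p ^ 2 + 2 * C 1 x * p * q + C 2 x * q ^ 2) ≤
            (4 * Cc) * (C 0 x * p ^ 2 + 2 * C 1 x * p * q + C 2 x * q ^ 2) := by
          apply mul_le_mul_of_nonneg_right _ hQ
          linarith only [hCc, hK, hKK]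
        linarith only [h1, h3]
      g11 := hb4 0 (by norm_num)
      g12 := hb4 1 (by norm_num)
      g22 := hb4 2 (by norm_num)
      om_1 := hf1 3 (by norm_num)
      om_2 := hf2 3 (by norm_num)
      g11_1 := hf1 0 (by norm_num)
      g11_2 := hf2 0 (by norm_num)
      g12_1 := hf1 1 (by norm_num)
      g12_2 := hf2 1 (by norm_num)
      g22_1 := hf1 2 (by norm_num)
      g22_2 := hf2 2 (by norm_num)
      s1_1 := hd1 4 (by norm_num)
      s1_2 := hd2 4 (by norm_num)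
      s2_1 := hd1 5 (by norm_num)
      s2_2 := hd2 5 (by norm_num)
      w1_1 := hd1 6 (by norm_num)
      w1_2 := hd2 6 (by norm_num)
      w2_1 := hd1 7 (by norm_num)
      w2_2 := hd2 7 (by norm_num)
      t1 := ht 4 (Or.inl rfl)
      t2 := ht 5 (Or.inr rfl)
      om_4 := h4v 3 (by norm_num) _ (h.deriv_vu 3 (by norm_num)).1
      g11_4 := h4v 0 (by norm_num) _ (h.deriv_vu 0 (by norm_num)).1
      g12_4 := h4v 1 (by norm_num) _ (h.deriv_vu 1 (by norm_num)).1
      g22_4 := h4v 2 (by norm_num) _ (h.deriv_vu 2 (by norm_num)).1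
      om_3 := h4u 3 (by norm_num) _ (h.deriv_vu 3 (by norm_num)).2
      g11_3 := h4u 0 (by norm_num) _ (h.deriv_vu 0 (by norm_num)).2
      g12_3 := h4u 1 (by norm_num) _ (h.deriv_vu 1 (by norm_num)).2
      g22_3 := h4u 2 (by norm_num) _ (h.deriv_vu 2 (by norm_num)).2 }

end IsBounded

lemma smoothW {C : ℕ → R4 → ℝ} {D : Set R4} (h : ∀ i, IsSmooth (C i) D) :
    (toW C).SmoothOn (Sp '' D) := by
  have h1 : ∀ i, ContDiffOn ℝ 1 (fun z => C i (Sp.symm z)) (Sp '' D) := by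
    intro i
    refine ContDiffOn.comp (ContDiffOn.of_le (h i) (by norm_cast))
      Sp.symm.contDiff.contDiffOn ?_
    rintro _ ⟨x, hx, rfl⟩
    show Sp.symm (Sp x) ∈ D
    rw [ContinuousLinearEquiv.symm_apply_apply]; exact hx
  exact ⟨h1 3, h1 4, h1 5, h1 6, h1 7, h1 0, h1 1, h1 2⟩

end

end Vale.Agent.P354p
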