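import Mathlib
import Vale.Agent.P354p.Map

set_option linter.unusedSectionVars false
set_option maxSynthPendingDepth 3

open scoped Manifold ContDiff
open MeasureTheory Set Topology

namespace Vale.Agent.P354p

open Vale.Agent.P354 (Bilin LBasis P4)

section

variable {N : Spc} {e' : N.Chart} {c : ℝ → N.pt}

/-- velocity of the curve at the end point, in the chart -/
noncomputable def endVel (e' : N.Chart) (c : ℝ → N.pt) : R4 :=
  derivWithin (fun s => co e' (c s)) (Icc 0 1) 1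

lemma endVel_timelike (hp : On e' (c 1)) (hc : IsFutureCurve N 0 (Icc 0 1) c) :
    N.g e' (co e' (c 1)) (endVel e' c) (endVel e' c) < 0 :=
  ((hc.2 1 ⟨zero_le_one, le_rfl⟩ e' hp).2 _ _ rfl rfl).1

lemma endVel_future (hp : On e' (c 1)) (hc : IsFutureCurve N 0 (Icc 0 1) c) :
    N.g e' (co e' (c 1)) (endVel e' c) (N.X e' (co e' (c 1))) < 0 :=
  ((hc.2 1 ⟨zero_le_one, le_rfl⟩ e' hp).2 _ _ rfl rfl).2.2

lemma curve_hasDerivWithinAt (hp : On e' (c 1)) (hc : IsFutureCurve N 0 (Icc 0 1) c) :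
    HasDerivWithinAt (fun t => co e' (c t)) (endVel e' c) (Icc 0 1) 1 := by
  have h1 := (hc.2 1 ⟨zero_le_one, le_rfl⟩ e' hp).1
  exact (h1.differentiableWithinAt (by simp)).hasDerivWithinAt

lemma curve_contDiffOn (hp : On e' (c 1)) (hc : IsFutureCurve N 0 (Icc 0 1) c) :
    ∃ δ : ℝ, 0 < δ ∧ δ < 1 ∧ (∀ t ∈ Icc (1 - δ) 1, On e' (c t)) ∧
      ContDiffOn ℝ 1 (fun t => co e' (c t)) (Icc (1 - δ) 1) := by
  have hcont : ContinuousWithinAt c (Icc 0 1) 1 := hc.1 1 ⟨zero_le_one, le_rfl⟩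
  have h1 : c ⁻¹' (N.toE e').source ∈ 𝓝[Icc 0 1] (1 : ℝ) :=
    hcont.preimage_mem_nhdsWithin ((N.toE e').open_source.mem_nhds hp)
  rw [Metric.mem_nhdsWithin_iff] at h1
  obtain ⟨ε, hε, hball⟩ := h1
  set δ := min (ε / 2) (1 / 2) with hδ
  have hδ0 : 0 < δ := by positivity
  have hδ1 : δ ≤ 1 / 2 := min_le_right _ _
  have hδ2 : δ ≤ ε / 2 := min_le_left _ _
  have hsub : ∀ t ∈ Icc (1 - δ) 1, On e' (c t) := by
    intro t ht
    apply hball
    refine ⟨?_, ⟨by linarith only [hδ0, hδ1, ht.1], ht.2⟩⟩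
    rw [Metric.mem_ball, Real.dist_eq, abs_lt]
    constructor <;> linarith only [hδ0, hδ2, ht.1, ht.2]
  refine ⟨δ, hδ0, by linarith only [hδ0, hδ1], hsub, ?_⟩
  have hIcc : Icc (1 - δ) (1:ℝ) ⊆ Icc 0 1 := Icc_subset_Icc (by linarith only [hδ0, hδ1]) le_rfl
  intro t ht
  exact ((hc.2 t (hIcc ht) e' (hsub t ht)).1).mono hIcc

/-- the curve in the exotic coordinates -/
noncomputable def gam (e' : N.Chart) (A : R4 ≃L[ℝ] R4) (c : ℝ → N.pt) (t : ℝ) :
    R4 := A.symm (co e' (c t) - co e' (c 1))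

lemma gam_one (A : R4 ≃L[ℝ] R4) : gam e' A c 1 = 0 := by simp only [gam, sub_self, map_zero]

lemma yv_gam (A : R4 ≃L[ℝ] R4) (t : ℝ) :
    yv (co e' (c 1)) A (gam e' A c t) = co e' (c t) := by
  simp [yv, gam]

lemma gam_cone (hp : On e' (c 1))
    (hc : IsFutureCurve N 0 (Icc 0 1) c) {A : R4 ≃L[ℝ] R4} {l : ℝ} (hl : 0 < l)
    (hA : A (1, 0, 0, 0) = l • endVel e' c) {κ : ℝ} (hκ : 0 < κ) :
    ∃ δ : ℝ, 0 < δ ∧ δ < 1 ∧ (∀ t ∈ Icc (1 - δ) 1, On e' (c t)) ∧
      ContinuousOn (gam e' A c) (Icc (1 - δ) 1) ∧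
      ∀ t ∈ Icc (1 - δ) 1, ∀ t' ∈ Icc (1 - δ) 1, t < t' →
        0 < (gam e' A c t' - gam e' A c t).1 ∧
        ‖(gam e' A c t' - gam e' A c t).2‖ ≤ κ * (gam e' A c t' - gam e' A c t).1 := by
  obtain ⟨δ, hδ0, hδ1, hsrc, hCD⟩ := curve_contDiffOn hp hc
  have hγ : ContDiffOn ℝ 1 (gam e' A c) (Icc (1 - δ) 1) := by
    have : gam e' A c = fun t => A.symm (co e' (c t) - co e' (c 1)) := rfl
    rw [this]
    exact A.symm.contDiff.comp_contDiffOn (hCD.sub contDiffOn_const)
  have hud : UniqueDiffOn ℝ (Icc (1 - δ) (1:ℝ)) := uniqueDiffOn_Icc (by linarith)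
  have h1mem : (1:ℝ) ∈ Icc (1 - δ) (1:ℝ) := ⟨by linarith, le_rfl⟩
  -- derivative at 1
  have hd1 : HasDerivWithinAt (gam e' A c) (A.symm (endVel e' c)) (Icc (1 - δ) 1) 1 := by
    have h2 := (curve_hasDerivWithinAt hp hc).mono
      (Icc_subset_Icc (show (0:ℝ) ≤ 1 - δ by linarith) le_rfl)
    have h3 := (h2.sub_const (co e' (c 1)))
    exact A.symm.hasFDerivAt.comp_hasDerivWithinAt 1 h3
  have hval : A.symm (endVel e' c) = ((1 / l, 0, 0, 0) : R4) := by
    have h2 : endVel e' c = A ((1 / l, 0, 0, 0) : R4) := by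
      have h3 : ((1 / l, 0, 0, 0) : R4) = (1 / l) • ((1, 0, 0, 0) : R4) := by simp
      rw [h3, map_smul, hA, smul_smul]
      field_simp
      simp
    rw [h2, A.symm_apply_apply]
  -- continuity of the derivative
  have hcontd : ContinuousOn (derivWithin (gam e' A c) (Icc (1 - δ) 1)) (Icc (1 - δ) 1) :=
    hγ.continuousOn_derivWithin hud le_rfl
  set η : ℝ := min (1 / (2 * l)) (κ / (2 * l)) with hη
  have hη0 : 0 < η := by positivity
  have hev := Metric.continuousWithinAt_iff.1 (hcontd 1 h1mem) η hη0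
  obtain ⟨ε, hε, hball⟩ := hev
  set δ' := min (ε / 2) δ with hδ'
  have hδ'0 : 0 < δ' := by positivity
  have hδ'1 : δ' ≤ δ := min_le_right _ _
  have hδ'2 : δ' ≤ ε / 2 := min_le_left _ _
  have hsub : Icc (1 - δ') (1:ℝ) ⊆ Icc (1 - δ) 1 := Icc_subset_Icc (by linarith only [hδ'1]) le_rfl
  refine ⟨δ', hδ'0, by linarith only [hδ1, hδ'1], fun t ht => hsrc t (hsub ht), hγ.continuousOn.mono hsub, ?_⟩
  intro t ht t' ht' htt'
  -- mean value inequality
  have hbound : ∀ x ∈ Icc (1 - δ') (1:ℝ),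
      ‖derivWithin (gam e' A c) (Icc (1 - δ) 1) x - A.symm (endVel e' c)‖ ≤ η := by
    intro x hx
    have h2 := hball (hsub hx) (by
      rw [Real.dist_eq, abs_lt]; constructor <;> linarith only [hδ'0, hδ'2, hx.1, hx.2])
    rw [hd1.derivWithin (hud 1 h1mem), dist_eq_norm] at h2
    exact h2.le
  have hmv : ‖(gam e' A c t' - t' • A.symm (endVel e' c)) -
      (gam e' A c t - t • A.symm (endVel e' c))‖ ≤ η * ‖t' - t‖ := by
    have hder : ∀ x ∈ Icc (1 - δ') (1:ℝ), HasDerivWithinAt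
        (fun x => gam e' A c x - x • A.symm (endVel e' c))
        (derivWithin (gam e' A c) (Icc (1 - δ) 1) x - A.symm (endVel e' c))
        (Icc (1 - δ') 1) x := by
      intro x hx
      have h3 : HasDerivWithinAt (gam e' A c)
          (derivWithin (gam e' A c) (Icc (1 - δ) 1) x) (Icc (1 - δ) 1) x :=
        ((hγ.differentiableOn (by simp)) x (hsub hx)).hasDerivWithinAt
      have h4 := (h3.mono hsub).sub
        (((hasDerivAt_id x).smul_const (A.symm (endVel e' c))).hasDerivWithinAt)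
      rw [one_smul] at h4
      exact h4
    exact (convex_Icc (1 - δ') (1:ℝ)).norm_image_sub_le_of_norm_hasDerivWithin_le hder hbound
      ht ht'
  have hpos : 0 < t' - t := by linarith only [htt']
  rw [Real.norm_of_nonneg hpos.le, hval] at hmv
  set d := gam e' A c t' - gam e' A c t with hd
  have heq : (gam e' A c t' - t' • ((1 / l, 0, 0, 0) : R4)) -
      (gam e' A c t - t • ((1 / l, 0, 0, 0) : R4)) = d - (t' - t) • ((1 / l, 0, 0, 0) : R4) := by
    rw [hd, sub_smul]; abel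
  rw [heq] at hmv
  have hfst : |d.1 - (t' - t) * (1 / l)| ≤ η * (t' - t) := by
    have := (norm_fst_le (d - (t' - t) • ((1 / l, 0, 0, 0) : R4))).trans hmv
    simpa only [one_div, ge_iff_le, Prod.smul_mk, smul_eq_mul, mul_zero, Prod.fst_sub, Real.norm_eq_abs] using this
  have hsnd : ‖d.2‖ ≤ η * (t' - t) := by
    have := (norm_snd_le (d - (t' - t) • ((1 / l, 0, 0, 0) : R4))).trans hmv
    have h2 : (d - (t' - t) • ((1 / l, 0, 0, 0) : R4)).2 = d.2 := by
      ext <;> simp only [one_div, Prod.smul_mk, smul_eq_mul, mul_zero, Prod.snd_sub, Prod.fst_sub, sub_zero]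
    rwa [h2] at this
  have hη1 : η ≤ 1 / (2 * l) := min_le_left _ _
  have hη2 : η ≤ κ / (2 * l) := min_le_right _ _
  have hl' : 1 / l = 2 * (1 / (2 * l)) := by field_simp
  have hd1pos : (t' - t) * (1 / (2 * l)) ≤ d.1 := by
    have h2 := (abs_le.1 hfst).1
    have h3 : η * (t' - t) ≤ 1 / (2 * l) * (t' - t) := by gcongr
    rw [hl'] at h2
    linarith only [h2, h3]
  refine ⟨lt_of_lt_of_le (by positivity) hd1pos, ?_⟩
  calc ‖d.2‖ ≤ η * (t' - t) := hsnd
    _ ≤ κ / (2 * l) * (t' - t) := by gcongr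
    _ = κ * ((t' - t) * (1 / (2 * l))) := by ring
    _ ≤ κ * d.1 := by gcongr

end

section

variable {M N : Spc} [Nonempty M.pt] {e : M.Chart} {e' : N.Chart}
  {ι : M.pt → N.pt} {h : IsOpenEmbedding ι} {Reg Reg' : (R4 → ℝ) → Set R4 → Prop}
  {C : ℕ → R4 → ℝ} {Om : Set R4}

lemma g_X_continuousOn {pp : ENNReal} (hg' : IsSpacetime (IsC0W1 pp) N) (e' : N.Chart) (a : R4) :
    ContinuousOn (fun y => N.g e' y a (N.X e' y)) (tgt e') := by
  have h1 : ContinuousOn (fun y => ∑ i, ∑ j, crd i a * crd j (N.X e' y) *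
      N.g e' y (bas i) (bas j)) (tgt e') := by
    refine continuousOn_finsetSum _ fun i _ => continuousOn_finsetSum _ fun j _ => ?_
    exact (continuousOn_const.mul ((crd j).continuous.comp_continuousOn
      (hg'.continuous e'))).mul (hg'.regular e' _ _).1
  refine h1.congr fun y hy => ?_
  exact bilin_expand (hg'.bilin e' hy) a (N.X e' y)

/-- future directed timelike vectors of N have positive v component. -/
lemma beta_pos (hg : IsSpacetime Reg M) (hg' : IsSpacetime Reg' N)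
    (hI : IsIsom ι)
    (hC : ∀ x ∈ Om, ∀ a b, M.g e x a b = form C x a b)
    (hom : ∀ x ∈ Om, 0 < C 3 x)
    (hu : ∀ x ∈ Om, 0 < cv (M.X e x))
    {y : R4} (hy : y ∈ (theta e e' ι h).target) (hyO : (theta e e' ι h).symm y ∈ Om)
    {a : R4} (ha : N.g e' y a a < 0) (hfut : N.g e' y a (N.X e' y) < 0) :
    0 < cv (fderiv ℝ (theta e e' ι h).symm y a) := by
  set x := (theta e e' ι h).symm y with hx
  set t : R4 := fderiv ℝ (theta e e' ι h).symm y a with ht
  have hxs := (theta e e' ι h).map_target hy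
  have hxe := (mem_theta_source.1 hxs).1
  have hye := (mem_theta_target.1 hy).1
  have hdx : fderiv ℝ (theta e e' ι h) x t = a := theta_fderiv_symm hg hg' hI hy a
  have hΘx : theta e e' ι h x = y := (theta e e' ι h).right_inv hy
  have h1' : M.g e x t t < 0 := by
    rw [theta_pull (h := h) (e' := e') hI hxs, hdx, hΘx]; exact ha
  have h2' : N.g e' y (fderiv ℝ (theta e e' ι h) x (M.X e x)) (N.X e' y) < 0 := by
    have := theta_orient (h := h) (e' := e') hI hxs
    rw [hΘx] at this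
    exact this
  have h3 : N.g e' y (fderiv ℝ (theta e e' ι h) x (M.X e x))
      (fderiv ℝ (theta e e' ι h) x (M.X e x)) < 0 := by
    have := theta_pull (h := h) (e' := e') hI hxs (M.X e x) (M.X e x)
    rw [hΘx] at this
    rw [← this]
    exact hg.timelike e x hxe
  have h4 : N.g e' y a (fderiv ℝ (theta e e' ι h) x (M.X e x)) < 0 :=
    hg'.same_cone e' hye (hg'.timelike e' y hye) ha hfut h3.le h2'
  have h5 : M.g e x t (M.X e x) < 0 := by
    rw [theta_pull (h := h) (e' := e') hI hxs, hdx, hΘx]; exact h4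
  -- a null vector of positive u component
  set n : R4 := (1, 0, C 6 x, C 7 x) with hn
  have hf : ∀ b, form C x n b = - (C 3 x * cv b) := by
    intro b
    simp only [form, ang, h1, c1, hn, cv, mul_zero, sub_zero, cu, mul_one, sub_self, zero_mul, h2, c2, add_zero, one_mul, zero_sub]
  have hf' : ∀ b, form C x b n = - (C 3 x * cv b) := by
    intro b
    simp only [form, ang, h1, c1, cv, cu, hn, mul_zero, sub_zero, mul_one, sub_self, h2, c2, add_zero, zero_add, zero_sub]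
  have h6 : M.g e x t n < 0 := by
    refine hg.same_cone e hxe (hg.timelike e x hxe) h1' h5 ?_ ?_
    · rw [hC x hyO, hf]
      simp [cv, hn]
    · rw [hC x hyO, hf]
      have h7 := hu x hyO
      have h8 := hom x hyO
      have : 0 < C 3 x * cv (M.X e x) := mul_pos h8 h7
      linarith
  rw [hC x hyO, hf'] at h6
  have h8 := hom x hyO
  have h9 : 0 < C 3 x * cv t := by linarith only [h6]
  exact (pos_iff_pos_of_mul_pos h9).1 h8

end

end Vale.Agent.P354p
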