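import Mathlib
import Vale.Agent.P354p.Curve
import Vale.Agent.P354p.BoxPt
import Vale.Agent.P354.SMain

set_option linter.unusedSectionVars false
set_option maxSynthPendingDepth 3

open scoped Manifold ContDiff
open MeasureTheory Set Topology

namespace Vale.Agent.P354p

open Vale.Agent.P354 (P4 norm_P4_le MB MB_convex CBd LipPair norm_sub_le_of_deriv)

lemma Sp_mem_MB {z0 x : R4} {r : ℝ} : Sp x ∈ MB (Sp z0) r ↔ x ∈ nullBox z0 r := by
  unfold MB nullBox
  simp only [mem_ofPred_eq]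
  rw [← map_sub, norm_Sp]
  exact Iff.rfl

lemma Sp_symm_mem {z0 y : R4} {r : ℝ} : y ∈ MB (Sp z0) r ↔ Sp.symm y ∈ nullBox z0 r := by
  rw [← Sp_mem_MB, ContinuousLinearEquiv.apply_symm_apply]

lemma Sp_image_nullBox (z0 : R4) (r : ℝ) : Sp '' nullBox z0 r = MB (Sp z0) r := by
  ext y
  constructor
  · rintro ⟨x, hx, rfl⟩; exact Sp_mem_MB.2 hx
  · intro hy
    exact ⟨Sp.symm y, Sp_symm_mem.1 hy, ContinuousLinearEquiv.apply_symm_apply _ _⟩

lemma nullBox_isOpen (z0 : R4) (r : ℝ) : IsOpen (nullBox z0 r) := by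
  have : nullBox z0 r = {x | ‖x - z0‖ < r} ∩ {x | x.2.1 < 0} := rfl
  rw [this]
  exact (isOpen_lt (by fun_prop) continuous_const).inter
    (isOpen_lt (by fun_prop) continuous_const)

lemma cornerBox_isOpen (z0 : R4) (r : ℝ) : IsOpen (cornerBox z0 r) := by
  have : cornerBox z0 r = nullBox z0 r ∩ {x | x.1 < 0} := rfl
  rw [this]
  exact (nullBox_isOpen z0 r).inter (isOpen_lt (by fun_prop) continuous_const)

lemma MB_isOpen (p0 : R4) (r : ℝ) : IsOpen (MB p0 r) := by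
  have : MB p0 r = {x | ‖x - p0‖ < r} ∩ {x | x.2.1 < 0} := rfl
  rw [this]
  exact (isOpen_lt (by fun_prop) continuous_const).inter
    (isOpen_lt (by fun_prop) continuous_const)

lemma nullBox_mono {z0 : R4} {r r' : ℝ} (h : r' ≤ r) : nullBox z0 r' ⊆ nullBox z0 r :=
  fun _ hx => ⟨hx.1.trans_le h, hx.2⟩

section

variable {M : Spc} {e : M.Chart} {C : ℕ → R4 → ℝ} {D D' : Set R4} {r r' K : ℝ} {k n : ℝ → ℝ}

namespace IsDNBox

lemma bounded (h : IsDNBox M e C D r K k n) {x : R4} (hx : x ∈ D) :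
    IsBounded C x K (k (cv x)) (n (cu x)) := (h.box x hx).2.2

lemma diff (h : IsDNBox M e C D r K k n) (hD : IsOpen D) {x : R4} (hx : x ∈ D) (i : ℕ) :
    DifferentiableAt ℝ (C i) x :=
  (ContDiffOn.differentiableOn (h.smooth i) (by simp)).differentiableAt (hD.mem_nhds hx)

lemma mono (h : IsDNBox M e C D r K k n) (hD : D' ⊆ D) (hr0 : 0 < r') (hr : r' ≤ r) :
    IsDNBox M e C D' r' K k n where
  r_pos := hr0
  subset := hD.trans h.subset
  smooth := fun i => ContDiffOn.mono (h.smooth i) hD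
  box := fun x hx => h.box x (hD hx)
  integrable := fun f hf => ⟨(h.integrable f hf).1, lt_of_le_of_lt (eLpNorm_mono_measure _
    (Measure.restrict_mono (Ioo_subset_Ioo_left (by linarith)) le_rfl)) (h.integrable f hf).2⟩

lemma intg (h : IsDNBox M e C D r K k n) (f : ℝ → ℝ) (hf : f = k ∨ f = n) :
    Measurable f ∧ IntegrableOn f (Ioo (-r) 0) :=
  ⟨(h.integrable f hf).1,
    memLp_one_iff_integrable.1 ⟨(h.integrable f hf).1.aestronglyMeasurable, (h.integrable f hf).2⟩⟩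

end IsDNBox

end

lemma base_mem_nullBox {z0 : R4} {r : ℝ} (hz0 : cv z0 = 0) (hr : 0 < r) :
    z0 - (r / 2) • bas 1 ∈ nullBox z0 r := by
  constructor
  · rw [sub_sub_cancel_left, norm_neg, norm_smul, Real.norm_eq_abs, abs_of_pos (by positivity)]
    have : ‖(bas 1 : R4)‖ ≤ 1 := norm_P4_le.2 (by simp [bas])
    linarith [mul_le_mul_of_nonneg_left this (half_pos hr).le]
  · have h1 : cv (z0 - (r / 2) • bas 1) = cv z0 - r / 2 := by simp [cv, bas]
    rw [h1, hz0]; linarith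

/-- The hypotheses at a front, without the lower bounds. -/
structure FrontBox (M : Spc) (e : M.Chart) (C : ℕ → R4 → ℝ) (z0 : R4) (r K : ℝ)
    (k : ℝ → ℝ) : Prop where
  dn : IsDNBox M e C (nullBox z0 r) r K k (fun _ => K)
  base : cv z0 = 0
  h67 : ∀ x ∈ nullBox z0 r, C 6 x = 0 ∧ C 7 x = 0

namespace FrontBox

variable {M : Spc} {e : M.Chart} {C : ℕ → R4 → ℝ} {z0 : R4} {r K : ℝ} {k : ℝ → ℝ}

lemma mono (h : FrontBox M e C z0 r K k) {z' : R4} {r' : ℝ} (hz' : cv z' = 0)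
    (hD : nullBox z' r' ⊆ nullBox z0 r) (hr0 : 0 < r') (hr : r' ≤ r) :
    FrontBox M e C z' r' K k where
  dn := h.dn.mono hD hr0 hr
  base := hz'
  h67 := fun x hx => h.h67 x (hD hx)

lemma K_one (h : FrontBox M e C z0 r K k) : 1 ≤ K :=
  (h.dn.bounded (base_mem_nullBox h.base h.dn.r_pos)).K_one

lemma bounded (h : FrontBox M e C z0 r K k) {x : R4} (hx : x ∈ nullBox z0 r) :
    IsBounded C x K (k (cv x)) K := h.dn.bounded hx

lemma diff (h : FrontBox M e C z0 r K k) {x : R4} (hx : x ∈ nullBox z0 r) (i : ℕ) :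
    DifferentiableAt ℝ (C i) x := h.dn.diff (nullBox_isOpen z0 r) hx i

lemma zero67 (h : FrontBox M e C z0 r K k) {x : R4} (hx : x ∈ nullBox z0 r) {i : ℕ}
    (hi : i = 4 ∨ i = 5) : deriv (C (i + 2)) x dv = 0 := by
  have h2 : ∀ y ∈ nullBox z0 r, C (i + 2) y = 0 := by
    rcases hi with rfl | rfl
    · exact fun y hy => (h.h67 y hy).1
    · exact fun y hy => (h.h67 y hy).2
  have h3 : C (i + 2) =ᶠ[𝓝 x] fun _ => 0 := by
    filter_upwards [(nullBox_isOpen z0 r).mem_nhds hx] with y hy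
    exact h2 y hy
  rw [deriv_eq (h.diff hx _), h3.fderiv_eq]
  simp

/-- derivatives of the coefficients of index at most 5 along v = const -/
lemma deriv_v0 (h : FrontBox M e C z0 r K k) {x : R4} (hx : x ∈ nullBox z0 r) {i : ℕ}
    (hi : i < 6) {w : R4} (hw : cv w = 0) : |deriv (C i) x w| ≤ 3 * K * ‖w‖ := by
  have hB := h.bounded hx
  have hK := hB.K_one
  have hu : |deriv (C i) x du| ≤ K := by
    by_cases h4 : i < 4
    · exact (hB.deriv_vu i h4).2
    · have h5 : i = 4 ∨ i = 5 := by omega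
      have h6 := hB.torsion i h5
      rwa [h.zero67 hx h5, sub_zero] at h6
  have hd := h.diff hx i
  have hwd : w = cu w • du + sph (c1 w) (c2 w) := by
    have : w.2.1 = 0 := hw
    ext <;> simp [du, sph, cu, c1, c2, this]
  have hn := norm_P4_le.1 (le_refl ‖w‖)
  have h1 : |deriv (C i) x (sph (c1 w) (c2 w))| ≤ K * ‖w‖ :=
    hB.deriv_sph (by omega) hn.2.2.1 hn.2.2.2
  rw [hwd, deriv_add hd, deriv_smul hd]
  rw [← hwd]
  have h2 : |cu w * deriv (C i) x du| ≤ ‖w‖ * K := by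
    rw [abs_mul]
    exact mul_le_mul hn.1 hu (abs_nonneg _) (norm_nonneg _)
  have h3 := abs_add_le (cu w * deriv (C i) x du) (deriv (C i) x (sph (c1 w) (c2 w)))
  have h4 : 0 ≤ K * ‖w‖ := by positivity
  linarith

lemma cbd (h : FrontBox M e C z0 r K k) {y : R4} (hy : y ∈ MB (Sp z0) r) :
    CBd (toCoef C) (3 * K) y := by
  have hx := Sp_symm_mem.1 hy
  have hB := h.bounded hx
  have hK := hB.K_one
  have h1 := hB.cbd (K' := 3 * K) (by linarith)
  rw [ContinuousLinearEquiv.apply_symm_apply] at h1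
  exact ⟨h1.one_le, h1.om_lo, h1.om_hi, h1.g_lo, h1.g11_hi, h1.g12_hi, h1.g22_hi, h1.s1_hi,
    h1.s2_hi⟩

/-- Lipschitz bound of the coefficients along v = const. -/
lemma lip_aux (h : FrontBox M e C z0 r K k) {i : ℕ} (hi : i < 6) {x y : R4}
    (hx : x ∈ MB (Sp z0) r) (hy : y ∈ MB (Sp z0) r) (hv : x.2.1 = y.2.1) :
    |C i (Sp.symm x) - C i (Sp.symm y)| ≤ 3 * K * ‖x - y‖ := by
  set a := Sp.symm y with ha
  set w := Sp.symm x - Sp.symm y with hw
  have hw1 : cv w = 0 := by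
    have : cv w = x.2.1 - y.2.1 := rfl
    rw [this, hv, sub_self]
  have hnorm : ‖w‖ = ‖x - y‖ := by
    rw [hw, ← map_sub, ← norm_Sp, ContinuousLinearEquiv.apply_symm_apply]
  have hseg : ∀ τ ∈ Icc (0:ℝ) 1, a + τ • w ∈ nullBox z0 r := by
    intro τ hτ
    have h1 := MB_convex hy hx hτ
    rw [Sp_symm_mem] at h1
    have : Sp.symm (y + τ • (x - y)) = a + τ • w := by
      rw [map_add, map_smul, map_sub]
    rwa [this] at h1
  have hd : ∀ τ ∈ Icc (0:ℝ) 1, HasDerivAt (fun τ : ℝ => C i (a + τ • w))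
      (fderiv ℝ (C i) (a + τ • w) w) τ := by
    intro τ hτ
    have h1 := (h.diff (hseg τ hτ) i).hasFDerivAt
    have h2 : HasDerivAt (fun τ : ℝ => a + τ • w) w τ := by
      simpa using ((hasDerivAt_id τ).smul_const w).const_add a
    exact h1.comp_hasDerivAt τ h2
  have hg : ∀ τ ∈ Icc (0:ℝ) 1, HasDerivAt (fun τ : ℝ => (3 * K * ‖x - y‖) * τ)
      (3 * K * ‖x - y‖) τ := by
    intro τ _
    simpa using (hasDerivAt_id τ).const_mul (3 * K * ‖x - y‖)
  have key := norm_sub_le_of_deriv zero_le_one hd hg (fun τ hτ => by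
    have hb := h.deriv_v0 (hseg τ hτ) hi hw1
    rw [deriv_eq (h.diff (hseg τ hτ) i), hnorm] at hb
    rw [Real.norm_eq_abs]
    exact hb)
  simp only [one_smul, zero_smul, add_zero, mul_one, mul_zero, sub_zero] at key
  have e1 : a + w = Sp.symm x := by rw [ha, hw]; abel
  rw [e1, Real.norm_eq_abs] at key
  exact key

lemma lip (h : FrontBox M e C z0 r K k) {x y : R4}
    (hx : x ∈ MB (Sp z0) r) (hy : y ∈ MB (Sp z0) r) (hv : x.2.1 = y.2.1) :
    LipPair (toCoef C) (3 * K) x y :=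
  ⟨h.lip_aux (by norm_num) hx hy hv, h.lip_aux (by norm_num) hx hy hv,
    h.lip_aux (by norm_num) hx hy hv, h.lip_aux (by norm_num) hx hy hv,
    h.lip_aux (by norm_num) hx hy hv, h.lip_aux (by norm_num) hx hy hv⟩

end FrontBox

end Vale.Agent.P354p
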