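import Mathlib
import Vale.Agent.P354p.BoxLem
import Vale.Agent.P354.GramP

set_option linter.unusedSectionVars false
set_option maxSynthPendingDepth 3

open scoped Manifold ContDiff
open MeasureTheory Set Topology Filter

namespace Vale.Agent.P354p

open Vale.Agent.P354 (P4 P3 norm_P4_le NearM Gram Gram_continuous Gram_mink Tv norm_Tv cone mem_cone
  cone_zero SHyp SCurve Coef Iso MB)

section

variable {N : Spc} {e' : N.Chart}

lemma exists_R0 {pp : ENNReal} (hg' : IsSpacetime (IsC0W1 pp) N) {y0 : R4}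
    (hy0 : y0 ∈ tgt e') (A : R4 ≃L[ℝ] R4)
    (hA : ∀ a b, N.g e' y0 (A a) (A b) = P354.mink a b)
    (hT : N.g e' y0 (A Tv) (N.X e' y0) < 0) :
    ∃ R0 > 0, (∀ z ∈ Metric.closedBall (0 : R4) R0, yv y0 A z ∈ tgt e') ∧
      ∀ z ∈ Metric.ball (0 : R4) R0, NearM (Gf (comp e') y0 A z) ∧
        N.g e' (yv y0 A z) (A Tv) (N.X e' (yv y0 A z)) < 0 ∧
        (Gram (Gf (comp e') y0 A z)).det ∈ Ioo (-2 : ℝ) (-(1 / 2)) := by
  have hyv0 : yv y0 A 0 = y0 := by simp [yv]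
  have hopen : IsOpen (yv y0 A ⁻¹' tgt e') :=
    (N.toE e').open_target.preimage (yv_continuous y0 A)
  have h0mem : (0 : R4) ∈ yv y0 A ⁻¹' tgt e' := by
    show yv y0 A 0 ∈ tgt e'
    rw [hyv0]; exact hy0
  have ev1 : ∀ᶠ z in 𝓝 (0 : R4), yv y0 A z ∈ tgt e' := hopen.mem_nhds h0mem
  have hcont : ContinuousAt (Gf (comp e') y0 A) 0 :=
    (Gf_continuousOn (c := comp e') (fun i j => (hg'.regular e' (bas i) (bas j)).1) y0 A).continuousAt
      (hopen.mem_nhds h0mem)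
  have hG0 : ∀ a b, Gf (comp e') y0 A 0 a b = P354.mink a b := by
    intro a b
    rw [Gf_apply (by rw [hyv0]; exact hg'.bilin e' hy0), hyv0]; exact hA a b
  have ev2 : ∀ᶠ z in 𝓝 (0 : R4), NearM (Gf (comp e') y0 A z) := by
    have h1 : ∀ᶠ z in 𝓝 (0 : R4), Gf (comp e') y0 A z ∈
        Metric.ball (Gf (comp e') y0 A 0) (1 / 100) :=
      hcont.eventually (Metric.ball_mem_nhds _ (by norm_num))
    filter_upwards [h1] with z hz a b
    rw [mem_ball_iff_norm] at hz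
    have h2 : Gf (comp e') y0 A z a b - P354.mink a b =
        (Gf (comp e') y0 A z - Gf (comp e') y0 A 0) a b := by
      rw [← hG0]; rfl
    rw [h2, ← Real.norm_eq_abs]
    refine (ContinuousLinearMap.le_opNorm₂ _ a b).trans ?_
    gcongr
  have ev3 : ∀ᶠ z in 𝓝 (0 : R4), N.g e' (yv y0 A z) (A Tv) (N.X e' (yv y0 A z)) < 0 := by
    have h1 : ContinuousOn (fun z => N.g e' (yv y0 A z) (A Tv) (N.X e' (yv y0 A z)))
        (yv y0 A ⁻¹' tgt e') :=
      (g_X_continuousOn hg' e' (A Tv)).comp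
        (yv_continuous y0 A).continuousOn (fun z hz => hz)
    have h2 := h1.continuousAt (hopen.mem_nhds h0mem)
    refine h2.eventually (gt_mem_nhds ?_)
    beta_reduce
    rw [hyv0]; exact hT
  have ev4 : ∀ᶠ z in 𝓝 (0 : R4), (Gram (Gf (comp e') y0 A z)).det ∈ Ioo (-2 : ℝ) (-(1 / 2)) := by
    have h1 : ContinuousAt (fun z => (Gram (Gf (comp e') y0 A z)).det) 0 :=
      ContinuousAt.comp (g := fun B => (Gram B).det) Gram_continuous.continuousAt hcont
    refine h1.eventually (isOpen_Ioo.mem_nhds ?_)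
    beta_reduce
    rw [Gram_mink hG0]; constructor <;> norm_num
  obtain ⟨ε, hε, hball⟩ := Metric.eventually_nhds_iff_ball.1 (ev1.and (ev2.and (ev3.and ev4)))
  refine ⟨ε / 2, by positivity, fun z hz => ?_, fun z hz => ?_⟩
  · exact (hball z (Metric.closedBall_subset_ball (by linarith) hz)).1
  · exact (hball z (Metric.ball_subset_ball (by linarith only [hε]) hz)).2

end

lemma Iso_mono {K : Coef} {G : P4 → P4 →L[ℝ] P4 →L[ℝ] ℝ} {Psi : P4 → P4} {V W : Set P4}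
    (h : Iso K G Psi V) (hW : IsOpen W) (hWV : W ⊆ V) : Iso K G Psi W where
  isOpen := hW
  smooth := h.smooth.mono hWV
  diffG := fun z hz => h.diffG z (hWV hz)
  diffK := fun z hz => h.diffK z (hWV hz)
  iso := fun z hz => h.iso z (hWV hz)

section

variable {M N : Spc} [Nonempty M.pt] {e : M.Chart} {e' : N.Chart} {pp : ENNReal}
  {ι : M.pt → N.pt} {h : IsOpenEmbedding ι} {C : ℕ → R4 → ℝ} {z0 : R4} {r K : ℝ} {k : ℝ → ℝ}
  {y0 : R4} {A : R4 ≃L[ℝ] R4} {R0 : ℝ} {Om : Set R4}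

/-- relative closedness of preimages of compact sets -/
lemma closed_pre (hι : Continuous ι) {Om : Set R4} (hOm : Om ⊆ tgt e)
    (hR : ∀ z ∈ Metric.closedBall (0 : R4) R0, yv y0 A z ∈ tgt e')
    {Kc : Set R4} (hKc : IsCompact Kc) (hKO : ∀ y ∈ Kc, Sp.symm y ∈ Om) :
    ∃ F, IsClosed F ∧ (Vset e e' ι h Om y0 A ∩ Metric.ball 0 R0) ∩ PsiF e e' ι h y0 A ⁻¹' Kc =
      Metric.ball 0 R0 ∩ F := by
  set Kc' : Set R4 := Sp.symm '' Kc with hKc'
  have hKcomp : IsCompact Kc' := hKc.image Sp.symm.continuous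
  have hKO' : Kc' ⊆ Om := by
    rintro x ⟨y, hy, rfl⟩; exact hKO y hy
  have hQcomp : IsCompact ((fun x => ι (inv e x)) '' Kc') := by
    refine hKcomp.image_of_continuousOn ?_
    exact hι.comp_continuousOn ((M.toE e).continuousOn_symm.mono (hKO'.trans hOm))
  have hcont : ContinuousOn (fun z => inv e' (yv y0 A z)) (Metric.closedBall (0 : R4) R0) :=
    (N.toE e').continuousOn_symm.comp (yv_continuous y0 A).continuousOn hR
  refine ⟨Metric.closedBall (0 : R4) R0 ∩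
    (fun z => inv e' (yv y0 A z)) ⁻¹' ((fun x => ι (inv e x)) '' Kc'),
    hcont.preimage_isClosed_of_isClosed Metric.isClosed_closedBall hQcomp.isClosed, ?_⟩
  ext z
  constructor
  · rintro ⟨⟨hz1, hz2⟩, hz3⟩
    refine ⟨hz2, Metric.ball_subset_closedBall hz2, ?_⟩
    refine ⟨(theta e e' ι h).symm (yv y0 A z), ⟨_, hz3, ?_⟩, ?_⟩
    · simp only [PsiF, ContinuousLinearEquiv.symm_apply_apply]
    · have hxs := (theta e e' ι h).map_target hz1.1
      have h1 := (theta e e' ι h).right_inv hz1.1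
      rw [theta_apply] at h1
      have hxs' := mem_theta_source.1 hxs
      have h2 : inv e' (co e' (ι (inv e ((theta e e' ι h).symm (yv y0 A z))))) =
        ι (inv e ((theta e e' ι h).symm (yv y0 A z))) := inv_co hxs'.2
      show ι (inv e ((theta e e' ι h).symm (yv y0 A z))) = inv e' (yv y0 A z)
      rw [← h1, h2, h1]
  · rintro ⟨hz1, hz2, hz3⟩
    obtain ⟨x, ⟨y, hy, hyx⟩, hx⟩ := hz3
    have hyt := hR z hz2
    have hxO : x ∈ Om := hKO' ⟨y, hy, hyx⟩
    have hp : On e (inv e x) := inv_mem (hOm hxO)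
    have hx' : ι (inv e x) = inv e' (yv y0 A z) := hx
    have ht : yv y0 A z ∈ (theta e e' ι h).target := mem_theta_target.2 ⟨hyt, _, hp, hx'⟩
    have hs : (theta e e' ι h).symm (yv y0 A z) = x := by
      rw [theta_symm_apply hp hyt hx']
      exact co_inv (hOm hxO)
    refine ⟨⟨⟨ht, by rw [hs]; exact hxO⟩, hz1⟩, ?_⟩
    show Sp ((theta e e' ι h).symm (yv y0 A z)) ∈ Kc
    rw [hs, ← hyx, ContinuousLinearEquiv.apply_symm_apply]
    exact hy

/-- inverse of Psi -/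
noncomputable def PhiF (e : M.Chart) (e' : N.Chart) (ι : M.pt → N.pt) (h : IsOpenEmbedding ι)
    (y0 : R4) (A : R4 ≃L[ℝ] R4) (y : R4) : R4 :=
  A.symm (theta e e' ι h (Sp.symm y) - y0)

lemma Phi_inv {Om : Set R4} {z : R4} (hz : z ∈ Vset e e' ι h Om y0 A) :
    PhiF e e' ι h y0 A (PsiF e e' ι h y0 A z) = z := by
  unfold PhiF PsiF
  rw [ContinuousLinearEquiv.symm_apply_apply, (theta e e' ι h).right_inv hz.1]
  simp [yv]

lemma Phi_contDiffOn (hI : IsIsom ι) {Om : Set R4} :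
    ContDiffOn ℝ ∞ (PhiF e e' ι h y0 A) (PsiF e e' ι h y0 A '' Vset e e' ι h Om y0 A) := by
  have h1 := theta_contDiffOn (h := h) (e := e) (e' := e') hI
  unfold PhiF
  refine A.symm.contDiff.comp_contDiffOn (ContDiffOn.sub ?_ contDiffOn_const)
  refine h1.comp Sp.symm.contDiff.contDiffOn ?_
  rintro _ ⟨z, hz, rfl⟩
  show Sp.symm (PsiF e e' ι h y0 A z) ∈ _
  unfold PsiF
  rw [ContinuousLinearEquiv.symm_apply_apply]
  exact (theta e e' ι h).map_target hz.1

/-- Psi is an open map on V -/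
lemma Psi_image_isOpen {W : Set R4} (hW : IsOpen W)
    (hWV : W ⊆ Vset e e' ι h Om y0 A) :
    IsOpen (PsiF e e' ι h y0 A '' W) := by
  have h1 : PsiF e e' ι h y0 A '' W =
      Sp '' ((theta e e' ι h).symm '' (yv y0 A '' W)) := by
    rw [image_image, image_image]; rfl
  rw [h1]
  have hyo : IsOpen (yv y0 A '' W) := by
    have : yv y0 A = (fun x => y0 + x) ∘ A := rfl
    rw [this, image_comp]
    exact (isOpenMap_add_left y0) _ (A.toHomeomorph.isOpenMap _ hW)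
  have hyt : yv y0 A '' W ⊆ (theta e e' ι h).target := by
    rintro _ ⟨z, hz, rfl⟩; exact (hWV hz).1
  have h2 : IsOpen ((theta e e' ι h).symm '' (yv y0 A '' W)) :=
    (theta e e' ι h).symm.isOpen_image_of_subset_source hyo hyt
  exact Sp.toHomeomorph.isOpenMap _ h2

/-- the exotic domain -/
noncomputable abbrev VV (e : M.Chart) (e' : N.Chart)
    (ι : M.pt → N.pt) (h : IsOpenEmbedding ι) (Om : Set R4) (y0 : R4) (A : R4 ≃L[ℝ] R4)
    (R0 : ℝ) : Set R4 := Vset e e' ι h Om y0 A ∩ Metric.ball 0 R0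

lemma VV_isOpen (hOm : IsOpen Om) : IsOpen (VV e e' ι h Om y0 A R0) :=
  (Vset_isOpen hOm y0 A).inter Metric.isOpen_ball

lemma IsoW_mono {K : P354w.Coef} {G : P4 → P4 →L[ℝ] P4 →L[ℝ] ℝ} {Psi : P4 → P4} {V W : Set P4}
    (h : P354w.Iso K G Psi V) (hW : IsOpen W) (hWV : W ⊆ V) : P354w.Iso K G Psi W where
  isOpen := hW
  smooth := h.smooth.mono hWV
  diffG := fun z hz => h.diffG z (hWV hz)
  diffK := fun z hz => h.diffK z (hWV hz)
  iso := fun z hz => h.iso z (hWV hz)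

lemma Psi_injOn : InjOn (PsiF e e' ι h y0 A) (VV e e' ι h Om y0 A R0) := by
  intro z hz w hw hzw
  rw [← Phi_inv hz.1, ← Phi_inv hw.1, hzw]

/-- vertical vectors have positive v component -/
lemma Psi_beta (hM : IsSpacetime IsSmooth M)
    (hg' : IsSpacetime (IsC0W1 pp) N) (hI : IsIsom ι)
    (hC : ∀ x ∈ Om, ∀ a b, M.g e x a b = form C x a b)
    (hom : ∀ x ∈ Om, 0 < C 3 x) (hu : ∀ x ∈ Om, 0 < cv (M.X e x))
    (hnear : ∀ z ∈ Metric.ball (0 : R4) R0, NearM (Gf (comp e') y0 A z))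
    (hfut : ∀ z ∈ Metric.ball (0 : R4) R0,
      N.g e' (yv y0 A z) (A Tv) (N.X e' (yv y0 A z)) < 0) {z : R4}
    (hz : z ∈ VV e e' ι h Om y0 A R0) : 0 < (fderiv ℝ (PsiF e e' ι h y0 A) z Tv).2.1 := by
  have h1 := (Psi_hasFDerivAt (h := h) hM hg' hI y0 A hz.1.1).fderiv
  rw [h1]
  have hTc : Tv ∈ cone (1 / 4) := by simp only [one_div, Tv, mem_cone, Prod.norm_mk, norm_zero, max_self, mul_one, inv_nonneg, Nat.ofNat_nonneg]
  have hneg := (hnear z hz.2).timelike_of_cone hTc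
  rw [Gf_apply (hg'.bilin e' (target_sub hz.1.1))] at hneg
  have hneg' : N.g e' (yv y0 A z) (A Tv) (A Tv) < 0 := by
    have : (Tv : P4).1 = 1 := rfl
    rw [this] at hneg
    linarith only [hneg]
  exact beta_pos (h := h) hM hg' hI hC hom hu hz.1.1 hz.1.2 hneg' (hfut z hz.2)

lemma mkSHyp (hM : IsSpacetime IsSmooth M) (hB : FrontBox M e C z0 r K k)
    (hg' : IsSpacetime (IsC0W1 pp) N) (hI : IsIsom ι)
    (hR0 : 0 < R0)
    (hR : ∀ z ∈ Metric.closedBall (0 : R4) R0, yv y0 A z ∈ tgt e')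
    (hnear : ∀ z ∈ Metric.ball (0 : R4) R0, NearM (Gf (comp e') y0 A z))
    (hfut : ∀ z ∈ Metric.ball (0 : R4) R0,
      N.g e' (yv y0 A z) (A Tv) (N.X e' (yv y0 A z)) < 0) :
    SHyp (toCoef C) (Gf (comp e') y0 A) (PsiF e e' ι h y0 A) (PhiF e e' ι h y0 A)
      (VV e e' ι h (nullBox z0 r) y0 A R0) R0 r (3 * K) (Sp z0) := by
  have hopen : IsOpen (VV e e' ι h (nullBox z0 r) y0 A R0) := VV_isOpen (nullBox_isOpen z0 r)
  have hK := hB.K_one
  refine
    { iso := ?_, R0_pos := hR0, ρ_pos := hB.dn.r_pos, p0v := hB.base, V_sub := inter_subset_right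
      near := hnear, maps := ?_, beta := ?_, cl := ?_, one_le := by linarith only [hK]
      bd := fun x hx => hB.cbd hx, lip := fun x hx y hy hv => hB.lip hx hy hv, inv := ?_,
      opn := ?_, phi := ?_ }
  · exact Iso_mono (Psi_Iso hM hg' hI (nullBox_isOpen z0 r) (fun x hx => (hB.dn.box x hx).1)
      hB.h67 (fun x hx i => hB.diff hx i) y0 A) hopen inter_subset_left
  · intro z hz
    exact Sp_mem_MB.2 hz.1.2
  · intro z hz
    exact Psi_beta hM hg' hI (fun x hx => (hB.dn.box x hx).1)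
      (fun x hx => (hB.bounded hx).om_pos) (fun x hx => (hB.dn.box x hx).2.1) hnear hfut hz
  · intro Kc hKc hKM
    exact closed_pre (h := h) h.continuous hB.dn.subset hR hKc
      (fun y hy => Sp_symm_mem.1 (hKM hy))
  · intro z hz
    exact Phi_inv hz.1
  · exact Psi_image_isOpen hopen inter_subset_left
  · exact ((Phi_contDiffOn hI).mono (image_mono inter_subset_left)).of_le
      (by norm_cast)

variable {c : ℝ → N.pt}

lemma mkSCurve (hp : On e' (c 1)) (hc : IsFutureCurve N 0 (Icc 0 1) c) {lam : ℝ}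
    (hl : 0 < lam) (hA : A (1, 0, 0, 0) = lam • endVel e' c) (hR0 : 0 < R0)
    {a : ℝ → M.pt} (ha : ∀ t ∈ Ico (0:ℝ) 1, ι (a t) = c t)
    (hain : EndsAt a e Om z0) {η1 : ℝ} (hη1 : 0 < η1) :
    ∃ (γ : ℝ → R4) (s0 : ℝ), SCurve (PsiF e e' ι h (co e' (c 1)) A)
      (VV e e' ι h Om (co e' (c 1)) A R0) (Sp z0) γ s0 η1 := by
  obtain ⟨hain, hat⟩ := hain
  obtain ⟨δ, hδ0, hδ1, hsrc, hcont, hcone⟩ := gam_cone hp hc hl hA (κ := 1 / 8) (by norm_num)
  set γ : ℝ → R4 := fun s => gam e' A c (max (1 - δ) (min s 1)) with hγ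
  have hγeq : ∀ s ∈ Icc (1 - δ) 1, γ s = gam e' A c s := by
    intro s hs
    simp only [hγ]
    rw [min_eq_left hs.2, max_eq_right hs.1]
  have hγc : Continuous γ := by
    refine hcont.comp_continuous (by fun_prop) ?_
    intro s
    exact ⟨le_max_left _ _, max_le (by linarith) (min_le_right _ _)⟩
  have hγ1 : γ 1 = 0 := by
    rw [hγeq 1 ⟨by linarith, le_rfl⟩, gam_one]
  -- eventual properties
  have hlt : Tendsto γ (𝓝[<] 1) (𝓝 0) := by
    have := hγc.tendsto 1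
    rw [hγ1] at this
    exact this.mono_left nhdsWithin_le_nhds
  have hIco : ∀ᶠ t in 𝓝[<] (1:ℝ), t ∈ Ico (max 0 (1 - δ)) 1 :=
    Ico_mem_nhdsLT (max_lt (by norm_num) (by linarith))
  have hVeq : ∀ t ∈ Ico (max 0 (1 - δ)) (1:ℝ), On e (a t) → co e (a t) ∈ Om →
      γ t ∈ Vset e e' ι h Om (co e' (c 1)) A ∧
      PsiF e e' ι h (co e' (c 1)) A (γ t) = Sp (co e (a t)) := by
    intro t ht h1 h2
    have ht0 : 0 ≤ t := (le_max_left _ _).trans ht.1
    have ht1 : 1 - δ ≤ t := (le_max_right _ _).trans ht.1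
    rw [hγeq t ⟨ht1, ht.2.le⟩]
    have h3 : inv e' (co e' (c t)) = c t := inv_co (hsrc t ⟨ht1, ht.2.le⟩)
    have h4 : co e' (c t) ∈ tgt e' := co_mem (hsrc t ⟨ht1, ht.2.le⟩)
    have h5 : ι (a t) = inv e' (co e' (c t)) := by rw [h3]; exact ha t ⟨ht0, ht.2⟩
    have h6 := theta_symm_apply (h := h) h1 h4 h5
    refine ⟨⟨?_, ?_⟩, ?_⟩
    · rw [yv_gam]; exact mem_theta_target.2 ⟨h4, _, h1, h5⟩
    · rw [yv_gam, h6]; exact h2
    · unfold PsiF; rw [yv_gam, h6]
  have htend : Tendsto (fun s => PsiF e e' ι h (co e' (c 1)) A (γ s)) (𝓝[<] 1) (𝓝 (Sp z0)) := by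
    have h1 : Tendsto (fun t => Sp (co e (a t))) (𝓝[<] 1) (𝓝 (Sp z0)) :=
      (Sp.continuous.tendsto z0).comp hat
    refine h1.congr' ?_
    filter_upwards [hIco, hain] with t ht h2
    exact (hVeq t ht h2.1 h2.2).2.symm
  have hev : ∀ᶠ t in 𝓝[<] (1:ℝ), t ∈ Ico (max 0 (1 - δ)) 1 ∧
      (On e (a t) ∧ co e (a t) ∈ Om) ∧ γ t ∈ Metric.ball (0 : R4) R0 ∧
      PsiF e e' ι h (co e' (c 1)) A (γ t) ∈ Metric.ball (Sp z0) η1 :=
    hIco.and (hain.and ((hlt.eventually (Metric.ball_mem_nhds _ hR0)).and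
      (htend.eventually (Metric.ball_mem_nhds _ hη1))))
  obtain ⟨s0, hs0, hs0'⟩ := mem_nhdsLT_iff_exists_Ico_subset.1 hev
  refine ⟨γ, s0, ?_⟩
  have hs0lt : s0 < 1 := hs0
  have hbase := (hs0' ⟨le_rfl, hs0lt⟩).1
  have hs0δ : 1 - δ ≤ s0 := (le_max_right _ _).trans hbase.1
  refine
    { s0_lt := hs0lt, cont := hγc, one := hγ1, mem := ?_, cone := ?_, neg := ?_, good := ?_,
      tend := htend }
  · intro s hs
    obtain ⟨h1, h2, h3, -⟩ := hs0' hs
    exact ⟨(hVeq s h1 h2.1 h2.2).1, h3⟩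
  · intro s hs s' hs' hss
    rcases eq_or_lt_of_le hss with h1 | h1
    · rw [h1, sub_self]; exact cone_zero _
    · have e1 : s ∈ Icc (1 - δ) 1 := ⟨hs0δ.trans hs.1, hs.2⟩
      have e2 : s' ∈ Icc (1 - δ) 1 := ⟨hs0δ.trans hs'.1, hs'.2⟩
      rw [hγeq s e1, hγeq s' e2]
      exact (hcone s e1 s' e2 h1).2
  · intro s hs
    have e1 : s ∈ Icc (1 - δ) 1 := ⟨hs0δ.trans hs.1, hs.2.le⟩
    have h1 := (hcone s e1 1 ⟨by linarith only [hδ0], le_rfl⟩ hs.2).1
    rw [hγeq s e1]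
    rw [gam_one, zero_sub] at h1
    have : (-gam e' A c s).1 = -(gam e' A c s).1 := rfl
    rw [this] at h1
    linarith only [h1]
  · intro s hs
    obtain ⟨-, -, -, h4⟩ := hs0' hs
    rw [mem_ball_iff_norm] at h4
    exact h4.le

/-- energy of the metric on the swept region -/
lemma energy_DDp (hp : 2 ≤ pp)
    (hM : IsSpacetime IsSmooth M)
    (hg' : IsSpacetime (IsC0W1 pp) N) (hI : IsIsom ι)
    (hR : ∀ z ∈ Metric.closedBall (0 : R4) R0, yv y0 A z ∈ tgt e') (hR0 : 0 < R0)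
    {D : Set R4} (hDo : IsOpen D) (hDV : D ⊆ VV e e' ι h Om y0 A R0)
    (hDR : ∀ z ∈ D, ‖z‖ ≤ R0 / 2) :
    MemLp (fderiv ℝ (fun z => (4:ℝ) • Gf (comp e') y0 A z)) pp (volume.restrict D) := by
  have hsm : ∀ i j, ContDiffOn ℝ ∞ (comp e' i j) (theta e e' ι h).target := fun i j =>
    comp_contDiffOn_target (h := h) (e := e) (e' := e') hM hg' hI (bas i) (bas j)
  have hWD : (theta e e' ι h).target ⊆ tgt e' := fun y hy => (mem_theta_target.1 hy).1
  have hKc : IsCompact (yv y0 A '' Metric.closedBall (0 : R4) (R0 / 2)) :=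
    (isCompact_closedBall _ _).image (yv_continuous y0 A)
  have hKD : yv y0 A '' Metric.closedBall (0 : R4) (R0 / 2) ⊆ tgt e' := by
    rintro _ ⟨z, hz, rfl⟩
    exact hR z (Metric.closedBall_subset_closedBall (by linarith only [hR0]) hz)
  have h1 := Gf_energy hp (c := comp e') (theta e e' ι h).open_target hWD
    (fun i j => hg'.regular e' (bas i) (bas j)) hsm hKc hKD y0 A
  have hsub : D ⊆ yv y0 A ⁻¹' (yv y0 A '' Metric.closedBall (0 : R4) (R0 / 2) ∩
      (theta e e' ι h).target) := by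
    intro z hz
    exact ⟨⟨z, by simpa only [Metric.mem_closedBall, dist_zero_right] using hDR z hz, rfl⟩, (hDV hz).1.1⟩
  have h2 : MemLp (fderiv ℝ (Gf (comp e') y0 A)) pp (volume.restrict D) :=
    h1.mono_measure (Measure.restrict_mono hsub le_rfl)
  have hdiff : ∀ z ∈ D, DifferentiableAt ℝ (Gf (comp e') y0 A) z := by
    intro z hz
    have h4 := Gf_contDiffOn hsm y0 A
    refine (h4.differentiableOn (by simp)).differentiableAt ?_
    exact ((theta e e' ι h).open_target.preimage (yv_continuous y0 A)).mem_nhds (hDV hz).1.1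
  refine (memLp_congr_ae ?_).mp (h2.const_smul (4:ℝ))
  rw [Filter.EventuallyEq, ae_restrict_iff' hDo.measurableSet]
  refine Filter.Eventually.of_forall fun z hz => ?_
  exact ((hdiff z hz).hasFDerivAt.const_smul (4:ℝ)).fderiv.symm

lemma energy_DD (hp : 2 ≤ pp)
    (hM : IsSpacetime IsSmooth M)
    (hg' : IsSpacetime (IsC0W1 pp) N) (hI : IsIsom ι)
    (hR : ∀ z ∈ Metric.closedBall (0 : R4) R0, yv y0 A z ∈ tgt e') (hR0 : 0 < R0)
    {D : Set R4} (hDo : IsOpen D) (hDV : D ⊆ VV e e' ι h Om y0 A R0)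
    (hDR : ∀ z ∈ D, ‖z‖ ≤ R0 / 2) :
    ∫⁻ z in D, ‖fderiv ℝ (fun z => (4:ℝ) • Gf (comp e') y0 A z) z‖ₑ ^ 2 ≠ ⊤ := by
  have h1 := energy_DDp (h := h) hp hM hg' hI hR hR0 hDo hDV hDR
  have hfin : IsFiniteMeasure (volume.restrict D) := ⟨by
    rw [Measure.restrict_apply MeasurableSet.univ, univ_inter]
    have hsub : D ⊆ Metric.closedBall (0 : R4) (R0 / 2) := fun z hz => by simpa only [Metric.mem_closedBall, dist_zero_right] using hDR z hz
    have := volume_haar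
    exact lt_of_le_of_lt (measure_mono hsub)
      (isCompact_closedBall (0 : R4) (R0 / 2)).measure_lt_top⟩
  have h2 := (h1.mono_exponent hp).2
  have h3 := (eLpNorm_lt_top_iff_lintegral_rpow_enorm_lt_top (by norm_num) (by norm_num)).1 h2
  have e : ∀ z, ‖fderiv ℝ (fun z => (4:ℝ) • Gf (comp e') y0 A z) z‖ₑ ^ 2 =
      ‖fderiv ℝ (fun z => (4:ℝ) • Gf (comp e') y0 A z) z‖ₑ ^ (2:ENNReal).toReal := by
    intro z
    rw [← ENNReal.rpow_two]
    rfl
  simp only [e]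
  exact h3.ne

end

end Vale.Agent.P354p
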