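import Mathlib
import Vale.Agent.P354p.Asm

set_option linter.unusedSectionVars false
set_option maxSynthPendingDepth 3

open scoped Manifold ContDiff
open MeasureTheory Set Topology Filter

namespace Vale.Agent.P354p

section

variable {M N : Spc} {e : M.Chart} {e' : N.Chart}
  {ι : M.pt → N.pt} {Reg Reg' : (R4 → ℝ) → Set R4 → Prop} {m : ℝ} {I : Set ℝ}

/-- the image of a curve, in charts -/
lemma curve_push (h : IsOpenEmbedding ι) (hI : IsIsom ι) {c : ℝ → M.pt} {t : ℝ}
    (hc : ContinuousWithinAt c I t) (he : On e (c t)) (he' : On e' (ι (c t)))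
    (hd : ContDiffWithinAt ℝ 1 (fun s => co e (c s)) I t)
    (hu : UniqueDiffWithinAt ℝ I t) :
    ContDiffWithinAt ℝ 1 (fun s => co e' (ι (c s))) I t ∧
      derivWithin (fun s => co e' (ι (c s))) I t =
        push ι e e' (co e (c t)) (derivWithin (fun s => co e (c s)) I t) := by
  have hne : Nonempty M.pt := ⟨c t⟩
  have hdom : co e (c t) ∈ dom ι e e' := ⟨co_mem he, by rw [inv_co he]; exact he'⟩
  have hdom' : co e (c t) ∈ (theta e e' ι h).source := by rw [theta_source]; exact hdom
  have hopen : IsOpen (dom ι e e') := by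
    rw [← theta_source (h := h)]; exact (theta e e' ι h).open_source
  have hr : ContDiffAt ℝ ∞ (rep ι e e') (co e (c t)) :=
    (hI.old e e').1.contDiffAt (hopen.mem_nhds hdom)
  have hev : (fun s => co e' (ι (c s))) =ᶠ[𝓝[I] t] (rep ι e e' ∘ fun s => co e (c s)) := by
    filter_upwards [hc.preimage_mem_nhdsWithin ((M.toE e).open_source.mem_nhds he)] with s hs
    have hs' : On e (c s) := hs
    simp only [Function.comp, rep]
    rw [inv_co hs']
  have heq : (fun s => co e' (ι (c s))) t = (rep ι e e' ∘ fun s => co e (c s)) t := by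
    simp only [Function.comp, rep]
    rw [inv_co he]
  have h1 : ContDiffWithinAt ℝ 1 (rep ι e e' ∘ fun s => co e (c s)) I t :=
    ContDiffAt.comp_contDiffWithinAt t (hr.of_le (by norm_cast)) hd
  refine ⟨h1.congr_of_eventuallyEq hev heq, ?_⟩
  rw [hev.derivWithin_eq heq]
  have h2 : HasDerivWithinAt (fun s => co e (c s)) (derivWithin (fun s => co e (c s)) I t) I t :=
    (hd.differentiableWithinAt (by simp)).hasDerivWithinAt
  have h3 : HasFDerivAt (rep ι e e') (fderiv ℝ (rep ι e e') (co e (c t))) (co e (c t)) :=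
    (hr.differentiableAt (by simp)).hasFDerivAt
  rw [(h3.comp_hasDerivWithinAt t h2).derivWithin hu, push_eq (h := h) hI hdom', theta_eq_rep]

lemma push_pull (hI : IsIsom ι) {y : R4} (hy : y ∈ dom ι e e') (a b : R4) :
    N.g e' (rep ι e e' y) (push ι e e' y a) (push ι e e' y b) = M.g e y a b :=
  (((hI.old e e').2 y hy).1 a b).symm

lemma rep_mem {y : R4} (hy : y ∈ dom ι e e') : rep ι e e' y ∈ tgt e' := co_mem hy.2

lemma rep_co {p : M.pt} (he : On e p) : rep ι e e' (co e p) = co e' (ι p) := by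
  unfold rep; rw [inv_co he]

/-- future directed vectors are pushed to future directed vectors -/
lemma push_future (hg : IsSpacetime Reg M) (hg' : IsSpacetime Reg' N)
    (hI : IsIsom ι) {y : R4} (hy : y ∈ dom ι e e') {w : R4} (hw : M.g e y w w < 0)
    (hwX : M.g e y w (M.X e y) < 0) :
    N.g e' (rep ι e e' y) (push ι e e' y w) (N.X e' (rep ι e e' y)) < 0 := by
  have hy' := rep_mem hy
  have h1 := push_pull (e := e) (e' := e') hI hy w w
  have h2 := push_pull (e := e) (e' := e') hI hy w (M.X e y)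
  have h3 := push_pull (e := e) (e' := e') hI hy (M.X e y) (M.X e y)
  have h4 := ((hI.old e e').2 y hy).2
  refine hg'.same_cone e' hy' (t := push ι e e' y (M.X e y)) ?_ ?_ ?_ ?_ ?_
  · rw [h3]; exact hg.timelike e y hy.1
  · rw [h1]; exact hw
  · rw [h2]; exact hwX
  · exact (hg'.timelike e' _ hy').le
  · rw [hg'.symm e' hy']; exact h4

/-- and conversely -/
lemma push_future_conv (hg : IsSpacetime Reg M) (hg' : IsSpacetime Reg' N)
    (hI : IsIsom ι) {y : R4} (hy : y ∈ dom ι e e') {w : R4} (hw : M.g e y w w < 0)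
    (hwX : N.g e' (rep ι e e' y) (push ι e e' y w) (N.X e' (rep ι e e' y)) < 0) :
    M.g e y w (M.X e y) < 0 := by
  have hy' := rep_mem hy
  have h1 := push_pull (e := e) (e' := e') hI hy w w
  have h2 := push_pull (e := e) (e' := e') hI hy w (M.X e y)
  have h3 := push_pull (e := e) (e' := e') hI hy (M.X e y) (M.X e y)
  have h4 := ((hI.old e e').2 y hy).2
  rw [← h2]
  refine hg'.same_cone e' hy' (t := N.X e' (rep ι e e' y)) ?_ ?_ hwX ?_ h4
  · exact hg'.timelike e' _ hy'
  · rw [h1]; exact hw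
  · rw [h3]; exact (hg.timelike e y hy.1).le

/-- The image of a future curve is a future curve. -/
lemma IsFutureCurve.push_map (h : IsOpenEmbedding ι) (hg : IsSpacetime Reg M)
    (hg' : IsSpacetime Reg' N) (hI : IsIsom ι) (hu : UniqueDiffOn ℝ I)
    {c : ℝ → M.pt} (hc : IsFutureCurve M m I c) : IsFutureCurve N m I (fun t => ι (c t)) := by
  refine ⟨h.continuous.comp_continuousOn hc.1, fun t ht e' he' => ?_⟩
  obtain ⟨e, he⟩ := M.cover (c t)
  replace he : On e (c t) := he
  obtain ⟨h1, h2⟩ := hc.2 t ht e he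
  obtain ⟨h3, h4, h5⟩ := h2 _ _ rfl rfl
  obtain ⟨k1, k2⟩ := curve_push (e := e) (e' := e') h hI (hc.1 t ht) he he' h1 (hu t ht)
  have hdom : co e (c t) ∈ dom ι e e' := ⟨co_mem he, by rw [inv_co he]; exact he'⟩
  refine ⟨k1, fun y w hy hw => ?_⟩
  subst hw
  subst hy
  rw [k2, ← rep_co (e' := e') (ι := ι) he]
  refine ⟨?_, ?_, push_future hg hg' hI hdom h3 h5⟩
  · rw [push_pull hI hdom]; exact h3
  · rw [push_pull hI hdom]; exact h4

/-- A curve whose image is a future curve is a future curve. -/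
lemma IsFutureCurve.pull_map (h : IsOpenEmbedding ι) (hg : IsSpacetime Reg M)
    (hg' : IsSpacetime Reg' N) (hI : IsIsom ι) (hu : UniqueDiffOn ℝ I)
    {c : ℝ → M.pt} (hc : IsFutureCurve N m I (fun t => ι (c t))) : IsFutureCurve M m I c := by
  have hcont : ContinuousOn c I := by
    rw [h.isInducing.continuousOn_iff]
    exact hc.1
  refine ⟨hcont, fun t ht e he => ?_⟩
  have hne : Nonempty M.pt := ⟨c t⟩
  obtain ⟨e', he'⟩ := N.cover (ι (c t))
  replace he' : On e' (ι (c t)) := he'
  obtain ⟨h1, h2⟩ := hc.2 t ht e' he'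
  obtain ⟨h3, h4, h5⟩ := h2 _ _ rfl rfl
  have hdom : co e (c t) ∈ dom ι e e' := ⟨co_mem he, by rw [inv_co he]; exact he'⟩
  have hrep : rep ι e e' (co e (c t)) = co e' (ι (c t)) := rep_co he
  -- the curve in the chart e
  have hy : co e' (ι (c t)) ∈ (theta e e' ι h).target :=
    mem_theta_target.2 ⟨co_mem he', c t, he, (inv_co he').symm⟩
  have hs := theta_symm_contDiffOn (h := h) (e := e) (e' := e') hg hg' hI
  have hsat : ContDiffAt ℝ ∞ (theta e e' ι h).symm (co e' (ι (c t))) :=
    hs.contDiffAt ((theta e e' ι h).open_target.mem_nhds hy)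
  have hev : (fun s => co e (c s)) =ᶠ[𝓝[I] t]
      ((theta e e' ι h).symm ∘ fun s => co e' (ι (c s))) := by
    filter_upwards [(hcont t ht).preimage_mem_nhdsWithin ((M.toE e).open_source.mem_nhds he),
      (hc.1 t ht).preimage_mem_nhdsWithin ((N.toE e').open_source.mem_nhds he')] with s hs1 hs2
    have hs1' : On e (c s) := hs1
    have hs2' : On e' (ι (c s)) := hs2
    simp only [Function.comp]
    rw [theta_symm_apply hs1' (co_mem hs2') (inv_co hs2').symm]
  have heq : (fun s => co e (c s)) t = ((theta e e' ι h).symm ∘ fun s => co e' (ι (c s))) t := by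
    simp only [Function.comp]
    rw [theta_symm_apply he (co_mem he') (inv_co he').symm]
  have hd : ContDiffWithinAt ℝ 1 (fun s => co e (c s)) I t := by
    have : ContDiffWithinAt ℝ 1 ((theta e e' ι h).symm ∘ fun s => co e' (ι (c s))) I t :=
      ContDiffAt.comp_contDiffWithinAt t (hsat.of_le (by norm_cast)) h1
    exact this.congr_of_eventuallyEq hev heq
  obtain ⟨k1, k2⟩ := curve_push (e := e) (e' := e') h hI (hcont t ht) he he' hd (hu t ht)
  refine ⟨hd, fun y w hy hw => ?_⟩
  subst hw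
  subst hy
  rw [k2, ← hrep] at h3 h4 h5
  rw [push_pull hI hdom] at h3 h4
  exact ⟨h3, h4, push_future_conv hg hg' hI hdom h3 h5⟩

end

section

variable {M : Spc} {Reg : (R4 → ℝ) → Set R4 → Prop} {m : ℝ} {I J : Set ℝ}

/-- It suffices to check the conditions on a future curve in one chart at each point. -/
lemma isFutureCurve_of_charts (hg : IsSpacetime Reg M) {c : ℝ → M.pt}
    (hc : ContinuousOn c I) (hu : UniqueDiffOn ℝ I)
    (h : ∀ t ∈ I, ∃ e : M.Chart, On e (c t) ∧
      ContDiffWithinAt ℝ 1 (fun s => co e (c s)) I t ∧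
      ∀ y w, y = co e (c t) → w = derivWithin (fun s => co e (c s)) I t →
        M.g e y w w < 0 ∧ M.g e y w w ≤ -m ∧ M.g e y w (M.X e y) < 0) :
    IsFutureCurve M m I c := by
  refine ⟨hc, fun t ht e' he' => ?_⟩
  obtain ⟨e, he, h1, h2⟩ := h t ht
  obtain ⟨h3, h4, h5⟩ := h2 _ _ rfl rfl
  have hI : IsIsom (M := M) (N := M) id := hg.tensor
  obtain ⟨k1, k2⟩ := curve_push (e := e) (e' := e') (ι := id) IsOpenEmbedding.id hI (hc t ht) he
    he' h1 (hu t ht)
  have hdom : co e (c t) ∈ dom id e e' := ⟨co_mem he, by rw [inv_co he]; exact he'⟩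
  have hrep : rep id e e' (co e (c t)) = co e' (c t) := rep_co (ι := id) he
  refine ⟨k1, fun y w hy hw => ?_⟩
  have hw' : w = push id e e' (co e (c t)) (derivWithin (fun s => co e (c s)) I t) := by
    rw [hw]; exact k2
  subst hy
  rw [hw', ← hrep]
  refine ⟨?_, ?_, push_future hg hg hI hdom h3 h5⟩
  · rw [push_pull hI hdom]; exact h3
  · rw [push_pull hI hdom]; exact h4

lemma IsFutureCurve.mono {c : ℝ → M.pt} (hc : IsFutureCurve M m I c) (hJ : J ⊆ I)
    (hu : UniqueDiffOn ℝ J) : IsFutureCurve M m J c := by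
  refine ⟨hc.1.mono hJ, fun t ht e he => ?_⟩
  obtain ⟨h1, h2⟩ := hc.2 t (hJ ht) e he
  refine ⟨h1.mono hJ, fun y w hy hw => h2 y w hy ?_⟩
  rw [hw]
  exact ((h1.differentiableWithinAt (by simp)).hasDerivWithinAt.mono hJ).derivWithin (hu t ht)

/-- being a future curve depends only on the values on the interval -/
lemma IsFutureCurve.congr {c c' : ℝ → M.pt} (hc : IsFutureCurve M m I c)
    (h : ∀ t ∈ I, c' t = c t) : IsFutureCurve M m I c' := by
  refine ⟨hc.1.congr h, fun t ht e he => ?_⟩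
  rw [h t ht] at he
  obtain ⟨h1, h2⟩ := hc.2 t ht e he
  have hEq : ∀ s ∈ I, co e (c' s) = co e (c s) := fun s hs => by rw [h s hs]
  refine ⟨h1.congr hEq (hEq t ht), fun y w hy hw => ?_⟩
  rw [derivWithin_congr hEq (hEq t ht)] at hw
  rw [h t ht] at hy
  exact h2 y w hy hw

end

section

variable {M N : Spc} {ι : M.pt → N.pt}

/-- Future curves in N contained in M except for the end point give future rays. -/
lemma ray_of_curve {pp : ENNReal} (hM : IsSpacetime IsSmooth M) (hN : IsSpacetime (IsC0W1 pp) N)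
    (h : IsOpenEmbedding ι) (hI : IsIsom ι)
    {a : ℝ → M.pt} {c : ℝ → N.pt} (hc : IsFutureCurve N 0 (Icc 0 1) c)
    (ha : ∀ t ∈ Ico (0:ℝ) 1, ι (a t) = c t) : IsFutureCurve M 0 (Ico 0 1) a := by
  have hu : UniqueDiffOn ℝ (Ico (0:ℝ) 1) := uniqueDiffOn_Ico 0 1
  refine IsFutureCurve.pull_map h hM hN hI hu ?_
  exact (hc.mono Ico_subset_Icc_self hu).congr ha

end

end Vale.Agent.P354p
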