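import Mathlib
import Vale.Agent.P354p.QCurve

set_option linter.unusedSectionVars false
set_option maxSynthPendingDepth 3

open scoped Manifold ContDiff
open MeasureTheory Set Topology Filter

namespace Vale.Agent.P354p

open Vale.Agent.P354 (P4 NearM Tv norm_Tv cone mem_cone mink_self Dia Dia_sub norm_P4_le)

lemma norm_sub_le_within {E : Type*} [NormedAddCommGroup E] [NormedSpace ℝ E] {f f' : ℝ → E}
    {g g' : ℝ → ℝ} (hf : ∀ τ ∈ Icc (0:ℝ) 1, HasDerivWithinAt f (f' τ) (Icc 0 1) τ)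
    (hg : ∀ τ ∈ Icc (0:ℝ) 1, HasDerivWithinAt g (g' τ) (Icc 0 1) τ)
    (h : ∀ τ ∈ Icc (0:ℝ) 1, ‖f' τ‖ ≤ g' τ) {a b : ℝ} (ha : 0 ≤ a) (hab : a ≤ b) (hb : b ≤ 1) :
    ‖f b - f a‖ ≤ g b - g a := by
  have hsub : Icc a b ⊆ Icc (0:ℝ) 1 := Icc_subset_Icc ha hb
  have h1 : ∀ τ ∈ Icc a b, HasDerivWithinAt (fun τ => f τ - f a) (f' τ) (Icc 0 1) τ :=
    fun τ hτ => (hf τ (hsub hτ)).sub_const (f a)
  have h2 : ∀ τ ∈ Icc a b, HasDerivWithinAt (fun τ => g τ - g a) (g' τ) (Icc 0 1) τ :=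
    fun τ hτ => (hg τ (hsub hτ)).sub_const (g a)
  have hm : ∀ τ ∈ Ico a b, Icc (0:ℝ) 1 ∈ 𝓝[Ici τ] τ := fun τ hτ =>
    mem_of_superset (Icc_mem_nhdsGE hτ.2) (Icc_subset_Icc (ha.trans hτ.1) hb)
  exact image_norm_le_of_norm_deriv_right_le_deriv_boundary'
    (f := fun τ => f τ - f a) (f' := f') (B := fun τ => g τ - g a) (B' := g') (a := a) (b := b)
    (fun τ hτ => (h1 τ hτ).continuousWithinAt.mono hsub)
    (fun τ hτ => (h1 τ ⟨hτ.1, hτ.2.le⟩).mono_of_mem_nhdsWithin (hm τ hτ)) (by simp only [sub_self, norm_zero, Std.le_refl])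
    (fun τ hτ => (h2 τ hτ).continuousWithinAt.mono hsub)
    (fun τ hτ => (h2 τ ⟨hτ.1, hτ.2.le⟩).mono_of_mem_nhdsWithin (hm τ hτ))
    (fun τ hτ => h τ (hsub ⟨hτ.1, hτ.2.le⟩)) ⟨hab, le_rfl⟩

section

variable {N : Spc} {e' : N.Chart}

/-- future vectors in exotic coordinates -/
lemma exotic_future {pp : ENNReal} (hg' : IsSpacetime (IsC0W1 pp) N) {y0 : R4} {A : R4 ≃L[ℝ] R4} {z : R4}
    (hz : yv y0 A z ∈ tgt e') (hN : NearM (Gf (comp e') y0 A z))
    (hT : N.g e' (yv y0 A z) (A Tv) (N.X e' (yv y0 A z)) < 0) {w : R4}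
    (hw : N.g e' (yv y0 A z) w w < 0) (hwX : N.g e' (yv y0 A z) w (N.X e' (yv y0 A z)) < 0) :
    0 < (A.symm w).1 ∧ ‖A.symm w‖ ≤ 2 * (A.symm w).1 ∧
      -N.g e' (yv y0 A z) w w ≤ 2 * (A.symm w).1 ^ 2 := by
  set a := A.symm w with ha
  have hAa : A a = w := A.apply_symm_apply w
  have hB := hg'.bilin e' hz
  have h1 : Gf (comp e') y0 A z a a = N.g e' (yv y0 A z) w w := by
    rw [Gf_apply hB, hAa]
  have hTT : Gf (comp e') y0 A z Tv Tv ≤ 0 := by
    have hTc : Tv ∈ cone (1 / 4) := by simp only [one_div, Tv, mem_cone, Prod.norm_mk, norm_zero, max_self, mul_one, inv_nonneg, Nat.ofNat_nonneg]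
    have := hN.timelike_of_cone hTc
    have h2 : (Tv : P4).1 = 1 := rfl
    rw [h2] at this
    linarith only [this]
  have h2 : N.g e' (yv y0 A z) w (A Tv) < 0 := by
    refine hg'.same_cone e' hz (hg'.timelike e' _ hz) hw hwX ?_ hT
    rw [Gf_apply hB] at hTT
    exact hTT
  have h3 : Gf (comp e') y0 A z Tv a < 0 := by
    rw [Gf_apply hB, hAa, hg'.symm e' hz]; exact h2
  have h0 : Gf (comp e') y0 A z a a < 0 := by rw [h1]; exact hw
  have h4 := hN.pos_of_T_neg h0.le h3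
  have h5 := hN.norm_le_of_causal h0.le
  rw [abs_of_pos h4] at h5
  refine ⟨h4, h5, ?_⟩
  rw [← h1]
  have h7 := (abs_le.1 (hN a a)).1
  rw [mink_self] at h7
  have h8 : ‖a‖ * ‖a‖ ≤ (2 * a.1) * (2 * a.1) := mul_le_mul h5 h5 (norm_nonneg _) (by linarith only [h4])
  linarith only [hw, h1, h7, h8, sq_nonneg a.2.1, sq_nonneg a.2.2.1, sq_nonneg a.2.2.2]

end

/-- A future curve with an end point in N is not far. -/
theorem not_isFar {pp : ENNReal} {M N : Spc} {ι : M.pt → N.pt} (hM : IsSpacetime IsSmooth M)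
    (hg' : IsSpacetime (IsC0W1 pp) N) (hemb : IsOpenEmbedding ι) (hI : IsIsom ι) {c : ℝ → N.pt}
    (hc : IsFutureCurve N 0 (Icc 0 1) c) {a : ℝ → M.pt} (ha : ∀ t ∈ Ico (0:ℝ) 1, ι (a t) = c t) :
    ¬ IsFar M a := by
  intro hinf
  obtain ⟨e', hp⟩ := N.cover (c 1)
  replace hp : On e' (c 1) := hp
  have hy0 : co e' (c 1) ∈ tgt e' := co_mem hp
  obtain ⟨A, hA, lam, hl, hAT⟩ := exists_A hg' hy0 (endVel_timelike hp hc)
  have hTneg : N.g e' (co e' (c 1)) (A Tv) (N.X e' (co e' (c 1))) < 0 := by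
    have h1 : A Tv = lam • endVel e' c := hAT
    rw [h1, (hg'.bilin e' hy0).smul_left]
    exact mul_neg_of_pos_of_neg hl (endVel_future hp hc)
  obtain ⟨R0, hR0, hR, hnear⟩ := exists_R0 hg' hy0 A hA hTneg
  set y0 := co e' (c 1) with hy0def
  -- coordinates
  set Z : N.pt → R4 := fun p => A.symm (co e' p - y0) with hZ
  have hyZ : ∀ p, yv y0 A (Z p) = co e' p := by
    intro p; simp only [yv, hZ, map_sub, ContinuousLinearEquiv.apply_symm_apply, add_sub_cancel]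
  have hsrcO : IsOpen (N.toE e').source := (N.toE e').open_source
  have hcoc : ContinuousOn (co e') (N.toE e').source := (N.toE e').continuousOn
  have hZc : ContinuousOn Z (N.toE e').source :=
    A.symm.continuous.comp_continuousOn (hcoc.sub continuousOn_const)
  set B : Set N.pt := (N.toE e').source ∩ Z ⁻¹' Metric.ball 0 R0 with hB
  have hBo : IsOpen B := hZc.isOpen_inter_preimage hsrcO Metric.isOpen_ball
  set Kc : Set N.pt := (fun z => inv e' (yv y0 A z)) '' Metric.closedBall 0 (7 / 8 * R0) with hKc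
  have hKB : ∀ p ∈ Kc, p ∈ B := by
    rintro _ ⟨z, hz, rfl⟩
    have hz' : z ∈ Metric.closedBall (0 : R4) R0 :=
      Metric.closedBall_subset_closedBall (by linarith only [hR0]) hz
    have ht := hR z hz'
    refine ⟨inv_mem ht, ?_⟩
    have : Z (inv e' (yv y0 A z)) = z := by
      simp only [hZ]; rw [co_inv ht]; simp [yv]
    rw [mem_preimage, this]
    exact Metric.closedBall_subset_ball (by linarith only [hR0]) hz
  have hKcl : IsClosed Kc := by
    refine IsCompact.isClosed ?_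
    refine (isCompact_closedBall (0 : R4) (7 / 8 * R0)).image_of_continuousOn ?_
    refine (N.toE e').continuousOn_symm.comp (yv_continuous y0 A).continuousOn ?_
    intro z hz
    exact hR z (Metric.closedBall_subset_closedBall (by linarith only [hR0]) hz)
  have hBK : ∀ p ∈ B, ‖Z p‖ ≤ 7 / 8 * R0 → p ∈ Kc := by
    intro p hp1 hp2
    refine ⟨Z p, by simpa only [Metric.mem_closedBall, dist_zero_right] using hp2, ?_⟩
    have hp1' : On e' p := hp1.1
    simp only []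
    rw [hyZ, inv_co hp1']
  -- the time b
  have hZ1 : Z (c 1) = 0 := by simp [hZ, hy0def]
  have hcw : ContinuousWithinAt c (Icc 0 1) 1 := hc.1 1 ⟨zero_le_one, le_rfl⟩
  have hsrc : ∀ᶠ t in 𝓝[Icc 0 1] (1:ℝ), On e' (c t) :=
    hcw.preimage_mem_nhdsWithin (hsrcO.mem_nhds hp)
  have hZcw : ContinuousWithinAt (fun t => Z (c t)) (Icc 0 1) 1 :=
    ContinuousAt.comp_continuousWithinAt (g := Z)
      (hZc.continuousAt (hsrcO.mem_nhds hp)) hcw
  have hball : ∀ᶠ t in 𝓝[Icc 0 1] (1:ℝ), Z (c t) ∈ Metric.ball (0 : R4) (R0 / 8) := by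
    refine hZcw.eventually (Metric.isOpen_ball.mem_nhds ?_)
    beta_reduce
    rw [hZ1]; simpa only [Metric.mem_ball, dist_self, Nat.ofNat_pos, div_pos_iff_of_pos_right, gt_iff_lt] using hR0
  obtain ⟨ε, hε, hεb⟩ := Metric.mem_nhdsWithin_iff.1 (hsrc.and hball)
  set b : ℝ := max 0 (1 - ε) with hb
  have hb1 : b < 1 := max_lt zero_lt_one (by linarith only [hε])
  have hgood : ∀ t, b < t → t ≤ 1 → On e' (c t) ∧ ‖Z (c t)‖ ≤ R0 / 8 := by
    intro t h1 h2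
    have h3 : 0 < t := (le_max_left _ _).trans_lt h1
    have h4 : 1 - ε < t := (le_max_right _ _).trans_lt h1
    have h5 := hεb (show t ∈ Metric.ball 1 ε ∩ Icc 0 1 from
      ⟨by rw [Metric.mem_ball, Real.dist_eq, abs_lt]; constructor <;> linarith, h3.le, h2⟩)
    exact ⟨h5.1, by simpa using (mem_ball_zero_iff.1 h5.2).le⟩
  obtain ⟨s, hs, hinf⟩ := hinf b hb1
  obtain ⟨t, ht, H0, hHc0, hH00, hHl0, hfast0⟩ := hinf (R0 ^ 2)
  have hs0 : 0 < s := (le_max_left _ _).trans_lt hs.1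
  have hgs := hgood s hs.1 hs.2.le
  have hgt := hgood t (hs.1.trans ht.1) ht.2.le
  -- the deformation in N
  set H : ℝ → ℝ → N.pt := fun l τ => ι (H0 (l, τ)) with hHdef
  have hu : UniqueDiffOn ℝ (Icc (0:ℝ) 1) := uniqueDiffOn_Icc zero_lt_one
  have hHc : ContinuousOn (fun p : ℝ × ℝ => H p.1 p.2) (Icc 0 1 ×ˢ Icc 0 1) :=
    hemb.continuous.comp_continuousOn hHc0
  have hH0 : ∀ τ ∈ Icc (0:ℝ) 1, H 0 τ = c (s + τ * (t - s)) := by
    intro τ hτ
    simp only [hHdef]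
    rw [hH00]
    have e1 := mul_nonneg hτ.1 (by linarith only [ht.1] : 0 ≤ t - s)
    have e2 := mul_le_mul_of_nonneg_right hτ.2 (by linarith only [ht.1] : 0 ≤ t - s)
    rw [mul_comm (t - s) τ]
    exact ha _ ⟨by linarith only [hs0, e1], by linarith only [e2, ht.2]⟩
  have hHl : ∀ l ∈ Icc (0:ℝ) 1, IsFutureCurve N 0 (Icc 0 1) (H l) ∧ H l 0 = c s ∧
      H l 1 = c t := by
    intro l hl
    obtain ⟨k1, k2, k3⟩ := hHl0 l hl
    refine ⟨k1.push_map hemb hM hg' hI hu, ?_, ?_⟩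
    · simp only [hHdef]; rw [k2]; exact ha s ⟨hs0.le, hs.2⟩
    · simp only [hHdef]; rw [k3]; exact ha t ⟨by linarith only [hs0, ht.1], ht.2⟩
  have hfast : IsFutureCurve N (R0 ^ 2) (Icc 0 1) (H 1) := hfast0.push_map hemb hM hg' hI hu
  -- estimates for curves in B
  have key : ∀ l ∈ Icc (0:ℝ) 1, (∀ τ ∈ Icc (0:ℝ) 1, H l τ ∈ B) →
      (∀ τ ∈ Icc (0:ℝ) 1, HasDerivWithinAt (fun τ => Z (H l τ))
        (A.symm (derivWithin (fun τ => co e' (H l τ)) (Icc 0 1) τ)) (Icc 0 1) τ) ∧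
      (∀ τ ∈ Icc (0:ℝ) 1,
        0 < (A.symm (derivWithin (fun τ => co e' (H l τ)) (Icc 0 1) τ)).1 ∧
        ‖A.symm (derivWithin (fun τ => co e' (H l τ)) (Icc 0 1) τ)‖ ≤
          2 * (A.symm (derivWithin (fun τ => co e' (H l τ)) (Icc 0 1) τ)).1 ∧
        -N.g e' (co e' (H l τ)) (derivWithin (fun τ => co e' (H l τ)) (Icc 0 1) τ)
          (derivWithin (fun τ => co e' (H l τ)) (Icc 0 1) τ) ≤
          2 * (A.symm (derivWithin (fun τ => co e' (H l τ)) (Icc 0 1) τ)).1 ^ 2) := by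
    intro l hl hBl
    constructor
    · intro τ hτ
      have h1 := ((hHl l hl).1.2 τ hτ e' (hBl τ hτ).1).1
      have h2 := (h1.differentiableWithinAt (by simp)).hasDerivWithinAt
      have h3 := (h2.sub_const y0)
      exact A.symm.hasFDerivAt.comp_hasDerivWithinAt τ h3
    · intro τ hτ
      have hon : On e' (H l τ) := (hBl τ hτ).1
      obtain ⟨h1, -, h2⟩ := ((hHl l hl).1.2 τ hτ e' hon).2 _ _ rfl rfl
      have h3 := hnear (Z (H l τ)) (hBl τ hτ).2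
      have h4 : yv y0 A (Z (H l τ)) ∈ tgt e' := by rw [hyZ]; exact co_mem hon
      have h5 := exotic_future hg' h4 h3.1 h3.2.1
        (w := derivWithin (fun τ => co e' (H l τ)) (Icc 0 1) τ)
        (by rw [hyZ]; exact h1) (by rw [hyZ]; exact h2)
      rw [hyZ] at h5
      exact h5
  have hdia : ∀ l ∈ Icc (0:ℝ) 1, (∀ τ ∈ Icc (0:ℝ) 1, H l τ ∈ B) →
      ∀ τ ∈ Icc (0:ℝ) 1, H l τ ∈ Kc := by
    intro l hl hBl τ hτ
    obtain ⟨k1, k2⟩ := key l hl hBl
    have e0 : Z (H l 0) = Z (c s) := by rw [(hHl l hl).2.1]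
    have e1 : Z (H l 1) = Z (c t) := by rw [(hHl l hl).2.2]
    have hd1 : ∀ τ ∈ Icc (0:ℝ) 1, HasDerivWithinAt (fun τ => (Z (H l τ)).2)
        (A.symm (derivWithin (fun τ => co e' (H l τ)) (Icc 0 1) τ)).2 (Icc 0 1) τ :=
      fun τ hτ => (k1 τ hτ).snd
    have hd2 : ∀ τ ∈ Icc (0:ℝ) 1, HasDerivWithinAt (fun τ => 2 * (Z (H l τ)).1)
        (2 * (A.symm (derivWithin (fun τ => co e' (H l τ)) (Icc 0 1) τ)).1) (Icc 0 1) τ :=
      fun τ hτ => by
        have h0 : HasDerivWithinAt (fun τ => (Z (H l τ)).1)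
          (A.symm (derivWithin (fun τ => co e' (H l τ)) (Icc 0 1) τ)).1 (Icc 0 1) τ :=
          (k1 τ hτ).fst
        exact h0.const_mul 2
    have hle : ∀ τ ∈ Icc (0:ℝ) 1,
        ‖(A.symm (derivWithin (fun τ => co e' (H l τ)) (Icc 0 1) τ)).2‖ ≤
        2 * (A.symm (derivWithin (fun τ => co e' (H l τ)) (Icc 0 1) τ)).1 :=
      fun τ hτ => (norm_snd_le _).trans (k2 τ hτ).2.1
    have m1 := norm_sub_le_within hd1 hd2 hle le_rfl hτ.1 hτ.2
    have m2 := norm_sub_le_within hd1 hd2 hle hτ.1 hτ.2 le_rfl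
    have hD : Z (H l τ) ∈ Dia (Z (c s)) (Z (c t)) := by
      constructor
      · rw [← e0]; linarith only [m1]
      · rw [← e1]; linarith only [m2]
    have h5 := Dia_sub hR0 hgs.2 hgt.2 hD
    exact hBK _ (hBl τ hτ) (by simpa only [Metric.mem_closedBall, dist_zero_right] using h5)
  -- continuity argument
  set pr : ℝ → ℝ := fun x => max 0 (min x 1) with hpr
  have hprm : ∀ x, pr x ∈ Icc (0:ℝ) 1 := fun x =>
    ⟨le_max_left _ _, max_le zero_le_one (min_le_right _ _)⟩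
  have hpre : ∀ x ∈ Icc (0:ℝ) 1, pr x = x := by
    intro x hx
    simp only [hpr]
    rw [min_eq_left hx.2, max_eq_right hx.1]
  have hprc : Continuous pr := by fun_prop
  have hH'c : Continuous (fun p : ℝ × ℝ => H (pr p.1) (pr p.2)) := by
    have : (fun p : ℝ × ℝ => H (pr p.1) (pr p.2)) =
        (fun p : ℝ × ℝ => H p.1 p.2) ∘ (fun p : ℝ × ℝ => (pr p.1, pr p.2)) := rfl
    rw [this]
    exact hHc.comp_continuous (by fun_prop) (fun p => ⟨hprm _, hprm _⟩)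
  set S : Set ℝ := {l | ∀ τ ∈ Icc (0:ℝ) 1, H (pr l) (pr τ) ∈ B} with hS
  have hset : S ∩ Icc 0 1 = Icc (0:ℝ) 1 ∩ ⋂ τ ∈ Icc (0:ℝ) 1,
      (fun l : ℝ => H (pr l) (pr τ)) ⁻¹' Kc := by
    ext l
    simp only [mem_inter_iff, mem_iInter, mem_preimage]
    constructor
    · rintro ⟨h, hl⟩
      refine ⟨hl, fun τ hτ => ?_⟩
      have h1 : ∀ τ ∈ Icc (0:ℝ) 1, H l τ ∈ B := by
        intro τ hτ
        have := h τ hτ
        rwa [hpre l hl, hpre τ hτ] at this
      rw [hpre l hl, hpre τ hτ]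
      exact hdia l hl h1 τ hτ
    · rintro ⟨hl, h⟩
      exact ⟨fun τ hτ => hKB _ (h τ hτ), hl⟩
  have hclosed : IsClosed (S ∩ Icc 0 1) := by
    rw [hset]
    refine isClosed_Icc.inter (isClosed_biInter fun τ _ => ?_)
    exact hKcl.preimage (hH'c.comp (by fun_prop : Continuous fun l : ℝ => (l, τ)))
  have hall : Icc (0:ℝ) 1 ⊆ S := by
    refine hclosed.Icc_subset_of_forall_mem_nhdsWithin ?_ ?_
    · intro τ hτ
      rw [hpre 0 ⟨le_rfl, zero_le_one⟩, hpre τ hτ, hH0 τ hτ]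
      have h1 : s ≤ s + τ * (t - s) := by
        have := mul_nonneg hτ.1 (by linarith only [ht.1] : 0 ≤ t - s)
        linarith only [this]
      have h2 : s + τ * (t - s) ≤ t := by
        have := mul_le_mul_of_nonneg_right hτ.2 (by linarith only [ht.1] : 0 ≤ t - s)
        linarith only [this]
      have h3 := hgood (s + τ * (t - s)) (hs.1.trans_le h1) (h2.trans ht.2.le)
      refine ⟨h3.1, ?_⟩
      rw [mem_preimage, mem_ball_zero_iff]
      linarith only [hR0, h3.2]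
    · rintro l ⟨h1, hl⟩
      refine mem_nhdsWithin_of_mem_nhds ?_
      exact isCompact_Icc.eventually_forall_of_forall_eventually (x₀ := l)
        (K := Icc (0:ℝ) 1) (P := fun l τ => H (pr l) (pr τ) ∈ B) (by
          intro τ hτ
          exact hH'c.continuousAt.eventually (hBo.mem_nhds (h1 τ hτ)))
  have hB1 : ∀ τ ∈ Icc (0:ℝ) 1, H 1 τ ∈ B := by
    intro τ hτ
    have := hall ⟨zero_le_one, le_rfl⟩ τ hτ
    rwa [hpre 1 ⟨zero_le_one, le_rfl⟩, hpre τ hτ] at this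
  -- the long curve
  have h1mem : (1:ℝ) ∈ Icc (0:ℝ) 1 := ⟨zero_le_one, le_rfl⟩
  obtain ⟨k1, k2⟩ := key 1 h1mem hB1
  have hd1 : ∀ τ ∈ Icc (0:ℝ) 1, HasDerivWithinAt (fun τ => τ * (R0 / 2)) (R0 / 2) (Icc 0 1) τ := by
    intro τ _
    simpa only [id_eq, one_mul] using ((hasDerivAt_id τ).mul_const (R0 / 2)).hasDerivWithinAt
  have hd2 : ∀ τ ∈ Icc (0:ℝ) 1, HasDerivWithinAt (fun τ => (Z (H 1 τ)).1)
        (A.symm (derivWithin (fun τ => co e' (H 1 τ)) (Icc 0 1) τ)).1 (Icc 0 1) τ :=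
      fun τ hτ => (k1 τ hτ).fst
  have m1 := norm_sub_le_within hd1 hd2 (fun τ hτ => by
    obtain ⟨j1, j2, j3⟩ := k2 τ hτ
    have j4 := ((hfast.2 τ hτ e' (hB1 τ hτ).1).2 _ _ rfl rfl).2.1
    rw [Real.norm_eq_abs, abs_of_pos (by positivity)]
    apply le_of_sq_le_sq _ j1.le
    have : (R0 / 2) ^ 2 = R0 ^ 2 / 4 := by ring
    rw [this]
    nlinarith only [j3, j4]) le_rfl zero_le_one le_rfl
  rw [(hHl 1 h1mem).2.1, (hHl 1 h1mem).2.2] at m1
  have m2 : |1 * (R0 / 2) - 0 * (R0 / 2)| = R0 / 2 := by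
    rw [one_mul, zero_mul, sub_zero, abs_of_pos (by positivity)]
  rw [Real.norm_eq_abs, m2] at m1
  have n1 := (norm_fst_le (Z (c s))).trans hgs.2
  have n2 := (norm_fst_le (Z (c t))).trans hgt.2
  rw [Real.norm_eq_abs] at n1 n2
  linarith only [hR0, m1, (abs_le.1 n1).1, (abs_le.1 n2).2]

end Vale.Agent.P354p
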