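import Vale.Agent.P354p.Weak

open scoped ContDiff
open MeasureTheory Set Filter Topology

namespace Vale.Agent.P354p.Ex

variable {a e : ℝ}

/-- dominating function -/
noncomputable def Hb (a : ℝ) (w x : E4) : ℝ := LLe a 0 x.1 * |w.1| + LLe a 0 x.2.1 * |w.2.1|

lemma Hb_nonneg (w x : E4) : 0 ≤ Hb a w x := by
  have h1 := LLe_nonneg (a := a) le_rfl x.1
  have h2 := LLe_nonneg (a := a) le_rfl x.2.1
  unfold Hb
  positivity

lemma Hw_le (he0 : 0 ≤ e) (w x : E4) : |Hw a e w x| ≤ Hb a w x := by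
  have h1 := LLe_nonneg (a := a) he0 x.1
  have h2 := LLe_nonneg (a := a) he0 x.2.1
  have h3 := LLe_le (a := a) he0 x.1
  have h4 := LLe_le (a := a) he0 x.2.1
  unfold Hw Hb
  refine (abs_add_le _ _).trans ?_
  rw [abs_mul, abs_mul, abs_of_nonneg h1, abs_of_nonneg h2]
  gcongr

lemma Hw_meas (w : E4) : Measurable (Hw a e w) := by
  unfold Hw
  have h1 : Measurable fun x : E4 => LLe a e x.1 := LLe_meas.comp measurable_fst
  have h2 : Measurable fun x : E4 => LLe a e x.2.1 :=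
    LLe_meas.comp (measurable_fst.comp measurable_snd)
  exact (h1.mul_const _).add (h2.mul_const _)

lemma Hb_meas (w : E4) : Measurable (Hb a w) := by
  unfold Hb
  have h1 : Measurable fun x : E4 => LLe a 0 x.1 := LLe_meas.comp measurable_fst
  have h2 : Measurable fun x : E4 => LLe a 0 x.2.1 :=
    LLe_meas.comp (measurable_fst.comp measurable_snd)
  exact (h1.mul_const _).add (h2.mul_const _)

/-- the dominating function is in `L^r` on balls -/
lemma Hb_Lr (ha0 : 0 ≤ a) {r : ℝ} (hr : 1 ≤ r) (har : a * r < 1) (w : E4) (R : ℝ) :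
    ∫⁻ x in Metric.closedBall (0:E4) R, ‖Hb a w x‖ₑ ^ r ≠ ⊤ := by
  obtain ⟨h1, h2⟩ := lint_ball (F := fun t => ‖LLe a 0 t‖ₑ ^ r) (LLe_meas.enorm.pow_const r)
    (LLe_Lr hr har ha0) R
  have hle : ∀ x : E4, ‖Hb a w x‖ₑ ^ r ≤ 2 ^ (r - 1) * (‖LLe a 0 x.1‖ₑ ^ r * ‖w.1‖ₑ ^ r +
      ‖LLe a 0 x.2.1‖ₑ ^ r * ‖w.2.1‖ₑ ^ r) := by
    intro x
    have h3 : ‖Hb a w x‖ₑ ≤ ‖LLe a 0 x.1‖ₑ * ‖w.1‖ₑ + ‖LLe a 0 x.2.1‖ₑ * ‖w.2.1‖ₑ := by
      unfold Hb
      refine (enorm_add_le _ _).trans ?_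
      have he : ∀ y : ℝ, ‖|y|‖ₑ = ‖y‖ₑ := fun y => enorm_eq_iff_norm_eq.2 (norm_abs_eq_norm y)
      rw [enorm_mul, enorm_mul, he, he]
    calc ‖Hb a w x‖ₑ ^ r ≤ (‖LLe a 0 x.1‖ₑ * ‖w.1‖ₑ + ‖LLe a 0 x.2.1‖ₑ * ‖w.2.1‖ₑ) ^ r := by
          gcongr
      _ ≤ 2 ^ (r - 1) * ((‖LLe a 0 x.1‖ₑ * ‖w.1‖ₑ) ^ r + (‖LLe a 0 x.2.1‖ₑ * ‖w.2.1‖ₑ) ^ r) :=
          ENNReal.rpow_add_le_mul_rpow_add_rpow _ _ hr
      _ = _ := by
          rw [ENNReal.mul_rpow_of_nonneg _ _ (by linarith),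
            ENNReal.mul_rpow_of_nonneg _ _ (by linarith)]
  refine ne_top_of_le_ne_top ?_ (lintegral_mono hle)
  have hr0 : (0:ℝ) ≤ r := by linarith
  rw [lintegral_const_mul' _ _ (ENNReal.rpow_ne_top_of_nonneg (by linarith) (by norm_num)),
    lintegral_add_left]
  · refine ENNReal.mul_ne_top (ENNReal.rpow_ne_top_of_nonneg (by linarith) (by norm_num))
      (ENNReal.add_ne_top.mpr ⟨?_, ?_⟩)
    · rw [lintegral_mul_const' _ _ (ENNReal.rpow_ne_top_of_nonneg hr0 enorm_ne_top)]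
      exact ENNReal.mul_ne_top h1 (ENNReal.rpow_ne_top_of_nonneg hr0 enorm_ne_top)
    · rw [lintegral_mul_const' _ _ (ENNReal.rpow_ne_top_of_nonneg hr0 enorm_ne_top)]
      exact ENNReal.mul_ne_top h2 (ENNReal.rpow_ne_top_of_nonneg hr0 enorm_ne_top)
  · have h4 : Measurable fun x : E4 => LLe a 0 x.1 := LLe_meas.comp measurable_fst
    exact (h4.enorm.pow_const r).mul_const _

lemma Hb_int (ha0 : 0 ≤ a) (ha : a ≤ 1 / 2) (w : E4) (R : ℝ) :
    IntegrableOn (Hb a w) (Metric.closedBall (0:E4) R) := by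
  refine ⟨(Hb_meas w).aestronglyMeasurable, ?_⟩
  have h1 := Hb_Lr ha0 le_rfl (by linarith only [ha] : a * 1 < 1) w R
  simp only [ENNReal.rpow_one] at h1
  exact lt_top_iff_ne_top.2 h1

lemma Gf_cont (ha : a ≤ 1 / 2) : Continuous (Gf a e) := by
  have h1 := (hh_cont ha).comp (cl_cont (e := e))
  have k1 : Continuous fun x : E4 => -x.1 := by fun_prop
  have k2 : Continuous fun x : E4 => -x.2.1 := by fun_prop
  unfold Gf
  exact (continuous_const.sub (h1.comp k1)).sub (h1.comp k2)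

lemma Gf_bd (ha0 : 0 ≤ a) (ha : a ≤ 1 / 2) (he0 : 0 ≤ e) (he1 : e ≤ 1) (x : E4) :
    2 ≤ Gf a e x ∧ Gf a e x ≤ 22 := by
  have h1 := cl_mem (s := -x.1) he1
  have h2 := cl_mem (s := -x.2.1) he1
  obtain ⟨k1, k2⟩ := hh_bd ha0 ha (he0.trans h1.1) h1.2
  obtain ⟨k3, k4⟩ := hh_bd ha0 ha (he0.trans h2.1) h2.2
  unfold Gf
  constructor <;> linarith only [k2, k4, k1, k3]

/-- **The weak derivative of the coefficient.** -/
theorem weak (ha0 : 0 ≤ a) (ha : a ≤ 1 / 2) (w : E4) {φ : E4 → ℝ} (hφ : ContDiff ℝ ∞ φ)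
    (hc : HasCompactSupport φ) :
    ∫ x, Gf a 0 x * lineDeriv ℝ φ x w = - ∫ x, Hw a 0 w x * φ x := by
  have hhaar := haar4
  obtain ⟨Cφ, hφl⟩ := ContDiff.lipschitzWith_of_hasCompactSupport (𝕂 := ℝ) hc hφ (by simp)
  set ε : ℕ → ℝ := fun n => 1 / ((n : ℝ) + 2) with hε
  have hε0 : ∀ n, 0 < ε n := fun n => by rw [hε]; positivity
  have hε1 : ∀ n, ε n < 1 := fun n => by
    rw [hε]
    simp only []
    rw [div_lt_one (by positivity)]
    have : (0:ℝ) ≤ n := Nat.cast_nonneg n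
    linarith only []
  have hεt : Tendsto ε atTop (𝓝 0) := by
    have h1 : Tendsto (fun n : ℕ => 1 / ((n : ℝ) + 1)) atTop (𝓝 0) :=
      tendsto_one_div_add_atTop_nhds_zero_nat
    have h2 := (tendsto_add_atTop_iff_nat 1).2 h1
    refine h2.congr fun n => ?_
    rw [hε]
    push_cast
    congr 1
    ring
  have hdiff : ∀ x, DifferentiableAt ℝ φ x := fun x => (hφ.differentiable (by simp)).differentiableAt
  have hld : ∀ x v, lineDeriv ℝ φ x v = fderiv ℝ φ x v := fun x v => (hdiff x).lineDeriv_eq_fderiv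
  -- the identity for the approximations
  have key : ∀ n, ∫ x, Hw a (ε n) w x * φ x = ∫ x, lineDeriv ℝ φ x (-w) * Gf a (ε n) x := by
    intro n
    obtain ⟨C, hC⟩ := Gf_lip ha0 ha (hε0 n) (hε1 n).le
    rw [← LipschitzWith.integral_lineDeriv_mul_eq (μ := volume) hC hφl hc w]
    apply integral_congr_ae
    filter_upwards [ae_ne (-1), ae_ne (-(ε n))] with x h1 h2
    rw [(lineDeriv_Gf ha (hε0 n).le (hε1 n) w h1.1 h2.1 h1.2 h2.2).lineDeriv]
  -- the ball
  obtain ⟨R, hR⟩ := hc.isCompact.isBounded.subset_closedBall (0:E4)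
  obtain ⟨B, hB⟩ := hc.exists_bound_of_continuous hφ.continuous
  have hφ0 : ∀ x, x ∉ Metric.closedBall (0:E4) R → φ x = 0 := by
    intro x hx
    by_contra h
    exact hx (hR (subset_tsupport φ h))
  have lim1 : Tendsto (fun n => ∫ x, Hw a (ε n) w x * φ x) atTop
      (𝓝 (∫ x, Hw a 0 w x * φ x)) := by
    refine tendsto_integral_of_dominated_convergence
      ((Metric.closedBall (0:E4) R).indicator (fun x => B * Hb a w x)) ?_ ?_ ?_ ?_
    · intro n
      exact ((Hw_meas w).mul hφ.continuous.measurable).aestronglyMeasurable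
    · rw [integrable_indicator_iff Metric.isClosed_closedBall.measurableSet]
      exact (Hb_int ha0 ha w R).const_mul B
    · intro n
      refine Eventually.of_forall fun x => ?_
      by_cases hx : x ∈ Metric.closedBall (0:E4) R
      · rw [indicator_of_mem hx, norm_mul, Real.norm_eq_abs, mul_comm B]
        exact mul_le_mul (Hw_le (hε0 n).le w x) (hB x) (norm_nonneg _) (Hb_nonneg w x)
      · rw [indicator_of_notMem hx, hφ0 x hx, mul_zero, norm_zero]
    · refine Eventually.of_forall fun x => ?_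
      have h1 : ∀ t : ℝ, Tendsto (fun n => LLe a (ε n) t) atTop (𝓝 (LLe a 0 t)) := by
        intro t
        refine tendsto_const_nhds.congr' ?_
        by_cases ht : -1 < t ∧ t < 0
        · filter_upwards [hεt.eventually (gt_mem_nhds (show 0 < -t by linarith only [ht.2]))] with n hn
          unfold LLe
          rw [if_pos ⟨ht.1, by linarith only [ht.2]⟩, if_pos ⟨ht.1, by linarith only [hn]⟩]
        · refine Eventually.of_forall fun n => ?_
          show LLe a 0 t = LLe a (ε n) t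
          have k1 : ¬ (-1 < t ∧ t < -(0:ℝ)) := by rw [neg_zero]; exact ht
          have k2 : ¬ (-1 < t ∧ t < -(ε n)) := fun h3 => ht ⟨h3.1, by linarith only [h3.2, hε0 n]⟩
          unfold LLe
          rw [if_neg k1, if_neg k2]
      have h2 : Tendsto (fun n => Hw a (ε n) w x) atTop (𝓝 (Hw a 0 w x)) := by
        unfold Hw
        exact ((h1 x.1).mul_const _).add ((h1 x.2.1).mul_const _)
      exact h2.mul_const _
  have hfd : Continuous (fun x => fderiv ℝ φ x (-w)) :=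
    (hφ.continuous_fderiv (by simp)).clm_apply continuous_const
  have hfc : HasCompactSupport (fun x => fderiv ℝ φ x (-w)) := by
    refine hc.mono' ?_
    intro x hx
    by_contra h
    apply hx
    have h0 : φ =ᶠ[𝓝 x] fun _ => 0 := notMem_tsupport_iff_eventuallyEq.1 h
    show fderiv ℝ φ x (-w) = 0
    rw [h0.fderiv_eq]
    simp only [fderiv_fun_const, Pi.zero_apply, zero_apply]
  have lim2 : Tendsto (fun n => ∫ x, lineDeriv ℝ φ x (-w) * Gf a (ε n) x) atTop
      (𝓝 (∫ x, lineDeriv ℝ φ x (-w) * Gf a 0 x)) := by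
    simp only [hld]
    refine tendsto_integral_of_dominated_convergence (fun x => |fderiv ℝ φ x (-w)| * 22) ?_ ?_ ?_ ?_
    · intro n
      exact (hfd.mul (Gf_cont ha)).measurable.aestronglyMeasurable
    · exact ((hfd.integrable_of_hasCompactSupport hfc).abs).mul_const _
    · intro n
      refine Eventually.of_forall fun x => ?_
      obtain ⟨h1, h2⟩ := Gf_bd ha0 ha (hε0 n).le (hε1 n).le x
      rw [norm_mul, Real.norm_eq_abs, Real.norm_eq_abs, abs_of_nonneg (by linarith only [h1] : 0 ≤ Gf a (ε n) x)]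
      gcongr
    · refine Eventually.of_forall fun x => ?_
      have h1 : ∀ t : ℝ, Tendsto (fun n => hh a (cl (ε n) t)) atTop (𝓝 (hh a (cl 0 t))) := by
        intro t
        refine ((hh_cont ha).tendsto _).comp ?_
        have h2 : Continuous fun e : ℝ => cl e t := by unfold cl; fun_prop
        exact (h2.tendsto 0).comp hεt
      have h2 : Tendsto (fun n => Gf a (ε n) x) atTop (𝓝 (Gf a 0 x)) := by
        unfold Gf
        exact ((h1 (-x.1)).const_sub 22).sub (h1 (-x.2.1))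
      exact h2.const_mul _
  have heq := tendsto_nhds_unique (lim1.congr key) lim2
  rw [heq, ← integral_neg]
  congr 1
  funext x
  rw [hld, hld, map_neg]
  ring

end Vale.Agent.P354p.Ex
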