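import Mathlib
import Vale.Agent.P354p.Isom
import Vale.Agent.P354p.Weak2

set_option linter.unusedSectionVars false

open scoped ContDiff
open MeasureTheory Set Filter Topology

namespace Vale.Agent.P354p.Ex

/-- the exponent of the example -/
class Prm where
  a : ℝ
  a0 : 0 ≤ a
  a1 : a ≤ 1 / 2

/-- the region -1 < u, v < 0 -/
def D0 : Set R4 := {x | -1 < cu x ∧ cu x < 0 ∧ -1 < cv x ∧ cv x < 0}

abbrev P0 : Type := {x : R4 // x ∈ D0}

/-- exchange of u and v -/
def sw (b : Bool) (x : R4) : R4 := if b then x else (x.2.1, x.1, x.2.2)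

lemma sw_sw (b : Bool) (x : R4) : sw b (sw b x) = x := by
  cases b <;> rfl

lemma sw_mem {b : Bool} {x : R4} : sw b x ∈ D0 ↔ x ∈ D0 := by
  cases b
  · simp only [sw, D0, cu, cv, mem_ofPred_eq]
    constructor <;> (rintro ⟨h1, h2, h3, h4⟩; exact ⟨h3, h4, h1, h2⟩)
  · rfl

/-- sw as a continuous linear map -/
noncomputable def swL (b : Bool) : R4 →L[ℝ] R4 :=
  LinearMap.toContinuousLinearMap
    { toFun := sw b
      map_add' := fun x y => by cases b <;> simp [sw]
      map_smul' := fun t x => by cases b <;> simp [sw] }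

lemma swL_apply (b : Bool) (x : R4) : swL b x = sw b x := rfl

lemma continuous_sw (b : Bool) : Continuous (sw b) := (swL b).continuous

lemma isOpen_D0 : IsOpen D0 := by
  have h1 : Continuous cu := by unfold cu; fun_prop
  have h2 : Continuous cv := by unfold cv; fun_prop
  exact (isOpen_lt continuous_const h1).inter ((isOpen_lt h1 continuous_const).inter
    ((isOpen_lt continuous_const h2).inter (isOpen_lt h2 continuous_const)))

noncomputable def p0 : P0 := ⟨(-1 / 2, -1 / 2, 0, 0), by simp only [D0, cu, cv, mem_ofPred_eq]; norm_num⟩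

open Classical in
/-- the point with given coordinates -/
noncomputable def mk (x : R4) : P0 := if h : x ∈ D0 then ⟨x, h⟩ else p0

lemma mk_val {x : R4} (h : x ∈ D0) : (mk x).1 = x := by
  rw [mk, dif_pos h]

lemma mk_self (p : P0) : mk p.1 = p := Subtype.ext (mk_val p.2)

lemma continuousOn_mk : ContinuousOn mk D0 := by
  rw [continuousOn_iff_continuous_restrict]
  have : D0.domRestrict mk = fun x : D0 => (x : P0) := by
    funext x
    exact mk_self x
  rw [this]
  exact continuous_id

/-- the two charts -/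
noncomputable def ch (b : Bool) : OpenPartialHomeomorph P0 R4 where
  toFun p := sw b p.1
  invFun y := mk (sw b y)
  source := univ
  target := D0
  map_source' p _ := sw_mem.2 p.2
  map_target' _ _ := mem_univ _
  left_inv' p _ := by
    show mk (sw b (sw b p.1)) = p
    rw [sw_sw, mk_self]
  right_inv' y hy := by
    show sw b (mk (sw b y)).1 = y
    rw [mk_val (sw_mem.2 hy), sw_sw]
  open_source := isOpen_univ
  open_target := isOpen_D0
  continuousOn_toFun := ((continuous_sw b).comp continuous_subtype_val).continuousOn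
  continuousOn_invFun := continuousOn_mk.comp (continuous_sw b).continuousOn
    (fun _ hy => sw_mem.2 hy)

variable [Prm]

/-- the area function -/
noncomputable def GG (x : R4) : ℝ := Gf Prm.a 0 x

/-- the coefficients -/
noncomputable def CC : ℕ → R4 → ℝ
  | 0 => GG
  | 2 => GG
  | 3 => fun _ => 1
  | _ => fun _ => 0

/-- the example -/
@[reducible] noncomputable def M0 : Spc where
  pt := P0
  Chart := Bool
  toE := ch
  cover p := ⟨true, mem_univ p⟩
  g := fun _ => form CC
  X := fun _ _ => (1, 1, 0, 0)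

lemma form_eq (x a b : R4) : form CC x a b =
    GG x * (c1 a * c1 b) + GG x * (c2 a * c2 b) - (cu a * cv b + cv a * cu b) := by
  simp only [form, ang, h1, h2, CC]
  ring

lemma GG_sw (b : Bool) (x : R4) : GG (sw b x) = GG x := by
  cases b
  · simp only [GG, Gf, sw]
    simp only [Bool.false_eq_true, if_false]
    ring
  · rfl

lemma form_sw (b : Bool) (x a a' : R4) : form CC (sw b x) (sw b a) (sw b a') =
    form CC x a a' := by
  rw [form_eq, form_eq, GG_sw]
  cases b
  · simp only [sw, cu, cv, c1, c2]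
    simp only [Bool.false_eq_true, if_false]
    ring
  · rfl

lemma GG_ge {x : R4} (_ : x ∈ D0) : 2 ≤ GG x :=
  (Gf_bd Prm.a0 Prm.a1 le_rfl zero_le_one x).1

lemma GG_le (x : R4) : GG x ≤ 22 :=
  (Gf_bd Prm.a0 Prm.a1 le_rfl zero_le_one x).2

lemma hh_smooth {s : ℝ} (hs : 0 < s) : ContDiffAt ℝ ∞ (hh Prm.a) s := by
  have h1 : ContDiffAt ℝ ∞ (fun s : ℝ => s ^ (1 - Prm.a)) s :=
    Real.contDiffAt_rpow_const_of_ne hs.ne'
  have h2 : ContDiffAt ℝ ∞ (fun s : ℝ => Real.log (s ^ (1 - Prm.a))) s :=
    h1.log (Real.rpow_pos_of_pos hs _).ne'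
  exact (contDiffAt_const.mul h1).sub (contDiffAt_const.mul (h1.mul h2))

lemma cl_eq {s : ℝ} (h0 : 0 < s) (h1 : s < 1) : cl 0 s = s := by
  rw [cl, min_eq_left h1.le, max_eq_right h0.le]

lemma GG_smooth : ContDiffOn ℝ ∞ GG D0 := by
  intro x hx
  apply ContDiffAt.contDiffWithinAt
  have hu : ContDiffAt ℝ ∞ (fun x : R4 => -cu x) x := by
    unfold cu; fun_prop
  have hv : ContDiffAt ℝ ∞ (fun x : R4 => -cv x) x := by
    unfold cv; fun_prop
  have h1 := ContDiffAt.comp x (hh_smooth (s := -cu x) (by linarith [hx.2.1])) hu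
  have h2 := ContDiffAt.comp x (hh_smooth (s := -cv x) (by linarith [hx.2.2.2])) hv
  have h3 : ContDiffAt ℝ ∞ (fun x : R4 => 22 - hh Prm.a (-cu x) - hh Prm.a (-cv x)) x :=
    (contDiffAt_const.sub h1).sub h2
  refine h3.congr_of_eventuallyEq ?_
  filter_upwards [isOpen_D0.mem_nhds hx] with y hy
  show 22 - hh Prm.a (cl 0 (-y.1)) - hh Prm.a (cl 0 (-y.2.1)) = _
  rw [cl_eq (show 0 < -y.1 by have := hy.2.1; unfold cu at this; linarith)
    (show -y.1 < 1 by have := hy.1; unfold cu at this; linarith),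
    cl_eq (show 0 < -y.2.1 by have := hy.2.2.2; unfold cv at this; linarith)
    (show -y.2.1 < 1 by have := hy.2.2.1; unfold cv at this; linarith)]
  rfl

lemma CC_smooth (i : ℕ) : ContDiffOn ℝ ∞ (CC i) D0 := by
  match i with
  | 0 => exact GG_smooth
  | 1 => exact contDiffOn_const
  | 2 => exact GG_smooth
  | 3 => exact contDiffOn_const
  | (n + 4) => exact contDiffOn_const

lemma rep_eq {e e' : M0.Chart} {y : R4} (hy : y ∈ D0) :
    rep (M := M0) (N := M0) id e e' y = sw e' (sw e y) := by
  show sw e' (mk (sw e y)).1 = sw e' (sw e y)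
  rw [mk_val (sw_mem.2 hy)]

lemma dom_eq (e e' : M0.Chart) : dom (M := M0) (N := M0) id e e' = D0 := by
  ext y
  constructor
  · intro h; exact h.1
  · intro h; exact ⟨h, mem_univ _⟩

lemma push_eq {e e' : M0.Chart} {y : R4} (hy : y ∈ D0) (a : R4) :
    push (M := M0) (N := M0) id e e' y a = sw e' (sw e a) := by
  have h1 : HasFDerivAt (fun y => sw e' (sw e y)) ((swL e').comp (swL e)) y :=
    ((swL e').comp (swL e)).hasFDerivAt
  have h2 : HasFDerivAt (rep (M := M0) (N := M0) id e e') ((swL e').comp (swL e)) y := by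
    refine h1.congr_of_eventuallyEq ?_
    filter_upwards [isOpen_D0.mem_nhds hy] with z hz
    exact rep_eq hz
  exact (h2.hasLineDerivAt a).lineDeriv

lemma sw_X (e : Bool) : sw e (1, 1, 0, 0) = (1, 1, 0, 0) := by
  cases e <;> rfl

lemma form_XX (y : R4) : form CC y (1, 1, 0, 0) (1, 1, 0, 0) = -2 := by
  rw [form_eq]
  simp only [cu, cv, c1, c2]
  norm_num

lemma spacetime : IsSpacetime IsSmooth M0 where
  tensor := by
    apply IsIsom.mk'
    intro e e'
    rw [dom_eq]
    refine ⟨?_, ?_⟩
    · have h1 : ContDiffOn ℝ ∞ (fun y => (swL e').comp (swL e) y) D0 :=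
        ((swL e').comp (swL e)).contDiff.contDiffOn
      exact h1.congr (fun y hy => rep_eq hy)
    · intro y hy
      rw [rep_eq hy]
      refine ⟨fun a b => ?_, ?_⟩
      · rw [push_eq hy, push_eq hy]
        show form CC y a b = form CC (sw e' (sw e y)) (sw e' (sw e a)) (sw e' (sw e b))
        rw [form_sw, form_sw]
      · rw [push_eq hy]
        show form CC (sw e' (sw e y)) (sw e' (sw e (1, 1, 0, 0))) (1, 1, 0, 0) < 0
        rw [sw_X, sw_X, form_XX]
        norm_num
  signature := by
    intro e y hy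
    have hG : 2 ≤ GG y := GG_ge hy
    have hs : √(GG y) * √(GG y) = GG y := Real.mul_self_sqrt (by linarith)
    have hs0 : 0 < √(GG y) := Real.sqrt_pos.mpr (by linarith only [hG])
    refine ⟨fun a => (cu a + cv a / 2, cu a - cv a / 2, √(GG y) * c1 a, √(GG y) * c2 a),
      ⟨?_, ?_⟩, ?_, ?_⟩
    · intro a b
      ext <;> simp only [cu, Prod.fst_add, cv, Prod.snd_add, c1, c2, Prod.mk_add_mk] <;> ring
    · intro t a
      ext <;> simp only [cu, Prod.smul_fst, smul_eq_mul, cv, Prod.smul_snd, c1, c2, Prod.smul_mk] <;> ring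
    · intro a b hab
      simp only [Prod.mk.injEq, cu, cv, c1, c2] at hab
      obtain ⟨h1, h2, h3, h4⟩ := hab
      have k1 : a.1 = b.1 := by linarith only [h1, h2]
      have k2 : a.2.1 = b.2.1 := by linarith only [h1, h2]
      have k3 : a.2.2.1 = b.2.2.1 := mul_left_cancel₀ hs0.ne' h3
      have k4 : a.2.2.2 = b.2.2.2 := mul_left_cancel₀ hs0.ne' h4
      ext <;> assumption
    · intro a b
      show form CC y a b = _
      rw [form_eq]
      simp only [mink, cu, cv, c1, c2]
      linear_combination (-(a.2.2.1 * b.2.2.1) - a.2.2.2 * b.2.2.2) * hs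
  timelike := by
    intro e y hy
    show form CC y (1, 1, 0, 0) (1, 1, 0, 0) < 0
    rw [form_XX]; norm_num
  continuous := fun e => continuousOn_const
  regular := by
    intro e a b
    show ContDiffOn ℝ ∞ (fun y => form CC y a b) D0
    have h1 : ContDiffOn ℝ ∞ (fun y => GG y * (c1 a * c1 b) + GG y * (c2 a * c2 b) -
        (cu a * cv b + cv a * cu b)) D0 :=
      ((GG_smooth.mul contDiffOn_const).add (GG_smooth.mul contDiffOn_const)).sub
        contDiffOn_const
    exact h1.congr (fun y _ => form_eq y a b)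

end Vale.Agent.P354p.Ex
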