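import Mathlib
import Vale.Agent.P354p.Ex1

set_option linter.unusedSectionVars false

open scoped ContDiff
open MeasureTheory Set Filter Topology

namespace Vale.Agent.P354p.Ex

variable [Prm]

/-- the weight -/
noncomputable def kk (v : ℝ) : ℝ := LLe Prm.a 0 v

lemma kk_nonneg (v : ℝ) : 0 ≤ kk v := LLe_nonneg le_rfl v

lemma kk_meas : Measurable kk := LLe_meas

lemma kk_eq {v : ℝ} (h1 : -1 < v) (h2 : v < 0) : kk v = ll Prm.a (-v) := by
  unfold kk LLe
  rw [if_pos ⟨h1, by linarith only [h2]⟩]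

lemma kk_anti {s t : ℝ} (h1 : -1 < s) (h2 : s ≤ t) (h3 : t < 0) : kk s ≤ kk t := by
  rw [kk_eq h1 (by linarith only [h2, h3]), kk_eq (by linarith only [h1, h2]) h3]
  exact ll_anti Prm.a0 (by linarith only [h3]) (by linarith only [h2]) (by linarith)

lemma kk_int {r : ℝ} (_ : 0 < r) : IntegrableOn kk (Ioo (-r) 0) := by
  have h1 := LLe_Lr le_rfl (by linarith only [Prm.a1] : Prm.a * 1 < 1) Prm.a0
  simp only [ENNReal.rpow_one] at h1
  have h2 : Integrable kk := ⟨kk_meas.aestronglyMeasurable, lt_top_iff_ne_top.2 h1⟩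
  exact h2.integrableOn

lemma kk_not {pp : ENNReal} (hp : 2 ≤ pp) (hpp : Prm.a = pp.toReal⁻¹) {b : ℝ} (hb : b < 0) :
    ¬ InLp pp kk b := by
  intro h
  set b' : ℝ := min (-b) 1 with hb'
  have hb'0 : 0 < b' := lt_min (by linarith only [hb]) one_pos
  have hb'1 : b' ≤ 1 := min_le_right _ _
  have hb'2 : b ≤ -b' := by
    have := min_le_left (-b) 1
    linarith only [this]
  by_cases ht : pp = ⊤
  · have ha : Prm.a = 0 := by rw [hpp, ht]; simp
    rw [InLp, ht, eLpNorm_exponent_top] at h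
    have hae := ae_le_eLpNormEssSup (f := kk) (μ := volume.restrict (Ioo b 0))
    set c := eLpNormEssSup kk (volume.restrict (Ioo b 0)) with hc
    obtain ⟨d, hd0, hdb, hd1, hd⟩ := ll_unbdd (c := c.toReal) hb'0
    have hpos : volume (Ioo (-d) 0) ≠ 0 := by
      rw [Real.volume_Ioo]
      simpa only [sub_neg_eq_add, zero_add, ne_eq, ENNReal.ofReal_eq_zero, not_le] using hd0
    apply hpos
    rw [ae_restrict_iff' measurableSet_Ioo] at hae
    refine measure_mono_null ?_ (ae_iff.1 hae)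
    intro v hv
    have h1 : -1 < v := by linarith only [hb'1, hdb, hv.1]
    simp only [mem_ofPred_eq]
    intro hcon
    have h2 := hcon ⟨by linarith only [hb'2, hdb, hv.1], hv.2⟩
    have h3 := hd (-v) (by linarith only [hv.2]) (by linarith only [hv.1])
    rw [← ha, ← kk_eq h1 hv.2] at h3
    rw [Real.enorm_eq_ofReal (kk_nonneg v), ENNReal.ofReal_le_iff_le_toReal h.ne] at h2
    linarith only [h2, h3]
  · have hr : 2 ≤ pp.toReal := by
      have := ENNReal.toReal_mono ht hp
      simpa only [ge_iff_le, ENNReal.toReal_ofNat] using this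
    have har : Prm.a * pp.toReal = 1 := by
      rw [hpp, inv_mul_cancel₀ (by linarith only [hr])]
    have h1 := (eLpNorm_lt_top_iff_lintegral_rpow_enorm_lt_top (by
      intro h0; rw [h0] at hp; norm_num at hp) ht).1 h
    have h2 := ll_top (a := Prm.a) (r := pp.toReal) (by linarith only [hr]) har hb'0 hb'1
    have hmp : MeasurePreserving (fun t : ℝ => -t) volume volume := Measure.measurePreserving_neg _
    have h3 := hmp.setLIntegral_comp_preimage_emb (MeasurableEquiv.neg ℝ).measurableEmbedding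
      (fun s => ‖ll Prm.a s‖ₑ ^ pp.toReal) (Ioo 0 b')
    have e2 : (fun t : ℝ => -t) ⁻¹' Ioo 0 b' = Ioo (-b') 0 := by
      ext t
      simp only [mem_preimage, mem_Ioo]
      constructor <;> (rintro ⟨h3, h4⟩; constructor <;> linarith only [h4, h3])
    rw [e2, h2] at h3
    have h4 : ∫⁻ v in Ioo (-b') 0, ‖ll Prm.a (-v)‖ₑ ^ pp.toReal ≤
        ∫⁻ v in Ioo b 0, ‖kk v‖ₑ ^ pp.toReal := by
      refine le_trans (le_of_eq ?_) (lintegral_mono_set (Ioo_subset_Ioo_left hb'2))
      apply setLIntegral_congr_fun measurableSet_Ioo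
      intro v hv
      show ‖ll Prm.a (-v)‖ₑ ^ pp.toReal = ‖kk v‖ₑ ^ pp.toReal
      rw [kk_eq (by linarith only [hb'1, hv.1]) hv.2]
    rw [h3] at h4
    exact absurd h1 (not_lt.2 h4)

lemma deriv_GG_dv {x : R4} (h : cv x ≠ -1) (h' : cv x ≠ 0) : deriv GG x dv = kk (cv x) := by
  have h1 : HasDerivAt (fun t : ℝ => GG (x + t • dv)) (kk (cv x)) 0 := by
    have e : (fun t : ℝ => GG (x + t • dv)) = fun t =>
        (22 - hh Prm.a (cl 0 (-x.1))) - hh Prm.a (cl 0 (-(x.2.1 + t * 1))) := by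
      funext t
      simp only [GG, Gf, dv, Prod.smul_mk, smul_eq_mul, mul_zero, mul_one, Prod.fst_add, add_zero, Prod.snd_add, neg_add_rev]
    rw [e]
    have h2 := (cl_deriv (a := Prm.a) Prm.a1 le_rfl zero_lt_one (c := 1) (t := x.2.1) h
      (by rw [neg_zero]; exact h')).const_sub (22 - hh Prm.a (cl 0 (-x.1)))
    rw [neg_neg, mul_one] at h2
    exact h2
  exact HasLineDerivAt.lineDeriv h1

lemma deriv_GG_du {x : R4} (h : cu x ≠ -1) (h' : cu x ≠ 0) : deriv GG x du = kk (cu x) := by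
  have h1 : HasDerivAt (fun t : ℝ => GG (x + t • du)) (kk (cu x)) 0 := by
    have e : (fun t : ℝ => GG (x + t • du)) = fun t =>
        22 - hh Prm.a (cl 0 (-(x.1 + t * 1))) - hh Prm.a (cl 0 (-x.2.1)) := by
      funext t
      simp only [GG, Gf, du, Prod.smul_mk, smul_eq_mul, mul_one, mul_zero, Prod.fst_add, neg_add_rev, Prod.snd_add, add_zero]
    rw [e]
    have h2 := ((cl_deriv (a := Prm.a) Prm.a1 le_rfl zero_lt_one (c := 1) (t := x.1) h
      (by rw [neg_zero]; exact h')).const_sub 22).sub_const (hh Prm.a (cl 0 (-x.2.1)))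
    rw [neg_neg, mul_one] at h2
    exact h2
  exact HasLineDerivAt.lineDeriv h1

lemma deriv_GG_sph (x : R4) {a : R4} (h1 : cu a = 0) (h2 : cv a = 0) : deriv GG x a = 0 := by
  have h3 : HasDerivAt (fun t : ℝ => GG (x + t • a)) 0 0 := by
    have e : (fun t : ℝ => GG (x + t • a)) = fun _ => GG x := by
      funext t
      have e1 : (x + t • a).1 = x.1 := by
        have : (x + t • a).1 = x.1 + t * cu a := rfl
        rw [this, h1]; ring
      have e2 : (x + t • a).2.1 = x.2.1 := by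
        have : (x + t • a).2.1 = x.2.1 + t * cv a := rfl
        rw [this, h2]; ring
      simp only [GG, Gf, e1, e2]
    rw [e]
    exact hasDerivAt_const _ _
  exact HasLineDerivAt.lineDeriv h3

/-- derivatives of the v derivative tangent to v = const -/
lemma deriv_GG_dv_tan {x : R4} (h : cv x ≠ -1) (h' : cv x ≠ 0) {a : R4} (h2 : cv a = 0) :
    deriv (fun y => deriv GG y dv) x a = 0 := by
  have h3 : HasDerivAt (fun t : ℝ => deriv GG (x + t • a) dv) 0 0 := by
    have e : (fun t : ℝ => deriv GG (x + t • a) dv) = fun _ => kk (cv x) := by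
      funext t
      have e2 : cv (x + t • a) = cv x := by
        have : cv (x + t • a) = cv x + t * cv a := rfl
        rw [this, h2]; ring
      rw [deriv_GG_dv (by rw [e2]; exact h) (by rw [e2]; exact h'), e2]
    rw [e]
    exact hasDerivAt_const _ _
  exact HasLineDerivAt.lineDeriv h3

lemma deriv_const' (c : ℝ) (x a : R4) : deriv (fun _ => c) x a = 0 := by
  exact HasLineDerivAt.lineDeriv (hasDerivAt_const (0:ℝ) c)

lemma bounded_of {x : R4} (hx : x ∈ D0) {K n : ℝ} (hK : 22 ≤ K) (hn : kk (cu x) ≤ n) :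
    IsBounded CC x K (kk (cv x)) n := by
  have hG := GG_ge hx
  have hG4 := GG_le x
  have hk := kk_nonneg (cv x)
  have hk' := kk_nonneg (cu x)
  refine ⟨?_, ?_, ?_, ?_, ?_⟩
  · show 1 ≤ K * 1
    linarith only [hK]
  · intro p q
    show p ^ 2 + q ^ 2 ≤ K * (GG x * (p * p) + 0 * (p * q + q * p) + GG x * (q * q))
    have h1 : 1 ≤ K * GG x := by nlinarith only [hK, hG]
    linarith only [mul_nonneg (sub_nonneg.2 h1) (sq_nonneg p), mul_nonneg (sub_nonneg.2 h1) (sq_nonneg q)]
  · intro i hi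
    have hGb : |GG x| ≤ K := by rw [abs_le]; constructor <;> linarith only [hK, hG, hG4]
    have hGd : ∀ a, cu a = 0 → cv a = 0 → |deriv GG x a| ≤ K * ‖a‖ := by
      intro a h1 h2
      rw [deriv_GG_sph x h1 h2, abs_zero]
      positivity
    have hc : ∀ c : ℝ, ∀ a, cu a = 0 → cv a = 0 → |deriv (fun _ => c) x a| ≤ K * ‖a‖ := by
      intro c a _ _
      rw [deriv_const', abs_zero]
      positivity
    have h0 : |(0:ℝ)| ≤ K := by rw [abs_zero]; linarith only [hK]
    have h1 : |(1:ℝ)| ≤ K := by rw [abs_one]; linarith only [hK]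
    interval_cases i
    · exact ⟨hGb, hGd⟩
    · exact ⟨h0, hc 0⟩
    · exact ⟨hGb, hGd⟩
    · exact ⟨h1, hc 1⟩
    · exact ⟨h0, hc 0⟩
    · exact ⟨h0, hc 0⟩
    · exact ⟨h0, hc 0⟩
    · exact ⟨h0, hc 0⟩
  · rintro i (rfl | rfl)
    · show |deriv (fun _ => 0) x du - deriv (fun _ => 0) x dv| ≤ K
      rw [deriv_const', deriv_const', sub_zero, abs_zero]; linarith only [hK]
    · show |deriv (fun _ => 0) x du - deriv (fun _ => 0) x dv| ≤ K
      rw [deriv_const', deriv_const', sub_zero, abs_zero]; linarith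
  · intro i hi
    have h0 : |deriv GG x dv| ≤ kk (cv x) := by
      rw [deriv_GG_dv hx.2.2.1.ne' hx.2.2.2.ne, abs_of_nonneg hk]
    have h1 : |deriv GG x du| ≤ n := by
      rw [deriv_GG_du hx.1.ne' hx.2.1.ne, abs_of_nonneg hk']; exact hn
    have h2 : ∀ c : ℝ, |deriv (fun _ => c) x dv| ≤ kk (cv x) := by
      intro c
      rw [deriv_const', abs_zero]; exact hk
    have h3 : ∀ c : ℝ, |deriv (fun _ => c) x du| ≤ n := by
      intro c
      rw [deriv_const', abs_zero]; linarith only [hn, hk']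
    interval_cases i
    · exact ⟨h0, h1⟩
    · exact ⟨h2 0, h3 0⟩
    · exact ⟨h0, h1⟩
    · exact ⟨h2 1, h3 1⟩

lemma dnbox (e : M0.Chart) {D : Set R4} (hD : D ⊆ D0) {r K : ℝ} (hr : 0 < r) (hK : 22 ≤ K)
    {n : ℝ → ℝ} (hn : ∀ x ∈ D, kk (cu x) ≤ n (cu x))
    (hni : Measurable n ∧ InLp 1 n (-r)) :
    IsDNBox M0 e CC D r K kk n where
  r_pos := hr
  subset := hD
  smooth := fun i => (CC_smooth i).mono hD
  box := fun x hx => ⟨fun _ _ => rfl, by show (0:ℝ) < 1; norm_num1,
    bounded_of (hD hx) hK (hn x hx)⟩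
  integrable := by
    rintro f (rfl | rfl)
    · exact ⟨kk_meas, (memLp_one_iff_integrable.2 (kk_int hr)).2⟩
    · exact hni

lemma norm_R4_lt {x : R4} {r : ℝ} (h : ‖x‖ < r) : |cu x| < r ∧ |cv x| < r := by
  have h1 : ‖x‖ = max ‖x.1‖ ‖x.2‖ := rfl
  have h2 : ‖x.2‖ = max ‖x.2.1‖ ‖x.2.2‖ := rfl
  have h3 : ‖x.1‖ ≤ ‖x‖ := by rw [h1]; exact le_max_left _ _
  have h4 : ‖x.2.1‖ ≤ ‖x‖ := by
    rw [h1, h2]; exact (le_max_left _ _).trans (le_max_right _ _)
  exact ⟨lt_of_le_of_lt h3 h, lt_of_le_of_lt h4 h⟩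

/-- curves in the example which tend to a point of v = 0 -/
lemma front {pp : ENNReal} (hp : 2 ≤ pp) (hpp : Prm.a = pp.toReal⁻¹) (e : M0.Chart) {a : ℝ → M0.pt} {z : R4} (hz : cv z = 0) (h1 : -1 < cu z)
    (h2 : cu z < 0) (ht : Tendsto (fun t => co e (a t)) (𝓝[<] 1) (𝓝 z)) : EndsAtFront pp M0 a := by
  set r : ℝ := min (-cu z) (cu z + 1) / 2 with hr
  have hr0 : 0 < r := by
    rw [hr]
    have : 0 < min (-cu z) (cu z + 1) := lt_min (by linarith only [h2]) (by linarith only [h1])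
    linarith only [this]
  have hra : r ≤ -cu z / 2 := by
    rw [hr]
    have := min_le_left (-cu z) (cu z + 1)
    linarith only [this]
  have hrb : r ≤ (cu z + 1) / 2 := by
    rw [hr]
    have := min_le_right (-cu z) (cu z + 1)
    linarith only [this]
  have hr1 : r ≤ 1 / 2 := by linarith only [hra, hrb]
  have hsub : nullBox z r ⊆ D0 := by
    rintro x ⟨hx, hxv⟩
    obtain ⟨h3, h4⟩ := norm_R4_lt hx
    have e1 : cu (x - z) = cu x - cu z := rfl
    have e2 : cv (x - z) = cv x - cv z := rfl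
    rw [e1, abs_lt] at h3
    rw [e2, hz, sub_zero, abs_lt] at h4
    exact ⟨by linarith only [hrb, h3], by linarith only [hra, h3], by linarith only [hra, hrb, h4], hxv⟩
  set K : ℝ := 22 + kk (cu z / 2) with hK
  have hKk : ∀ x ∈ nullBox z r, kk (cu x) ≤ K := by
    rintro x ⟨hx, hxv⟩
    obtain ⟨h3, h4⟩ := norm_R4_lt hx
    have e1 : cu (x - z) = cu x - cu z := rfl
    rw [e1, abs_lt] at h3
    have h5 : cu x ≤ cu z / 2 := by linarith only [hra, h3]
    have h6 : kk (cu x) ≤ kk (cu z / 2) :=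
      kk_anti (hsub ⟨hx, hxv⟩).1 h5 (by linarith only [hr0, hra])
    linarith only [h6]
  refine ⟨e, CC, z, r, K, kk, fun _ => 0, ?_, hz, measurable_const, ?_,
    fun x hx => ⟨rfl, rfl, ?_, ?_⟩, ?_, ht⟩
  · refine dnbox e hsub hr0 (by have := kk_nonneg (cu z / 2); linarith only [this]) (fun x hx => hKk x hx)
      ⟨measurable_const, ?_⟩
    exact (memLp_one_iff_integrable.2 (by simp only [ne_eq, enorm_ne_top, not_false_eq_true, integrable_const_enorm])).2
  · show eLpNorm (fun _ => (0:ℝ)) (pp / 2) (volume.restrict (Ioo (-r) 0)) < ⊤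
    have : eLpNorm (fun _ : ℝ => (0:ℝ)) (pp / 2) (volume.restrict (Ioo (-r) 0)) = 0 :=
      eLpNorm_zero
    rw [this]
    exact ENNReal.zero_lt_top
  · intro b hb i hi
    have hrhs : 0 ≤ ((fun _ => (0:ℝ)) (cv x) + K * |deriv (CC 0) x dv|) * ‖b‖ := by
      have := kk_nonneg (cu z / 2)
      have : 0 ≤ K := by linarith only [this]
      positivity
    refine ⟨0, by norm_num, ?_⟩
    have hG : |deriv (fun y => deriv GG y dv) x b| ≤
        ((fun _ => (0:ℝ)) (cv x) + K * |deriv (CC 0) x dv|) * ‖b‖ := by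
      rw [deriv_GG_dv_tan (hsub hx).2.2.1.ne' hx.2.ne hb, abs_zero]
      exact hrhs
    have h0 : |deriv (fun y => deriv (fun _ => (0:ℝ)) y dv) x b| ≤
        ((fun _ => (0:ℝ)) (cv x) + K * |deriv (CC 0) x dv|) * ‖b‖ := by
      have e : (fun y => deriv (fun _ => (0:ℝ)) y dv) = fun _ => (0:ℝ) := by
        funext y
        exact deriv_const' 0 y dv
      rw [e, deriv_const', abs_zero]
      exact hrhs
    interval_cases i
    · exact hG
    · exact h0
    · exact hG
  · intro c hc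
    have hopen : IsOpen (nullBox x c) := by
      have h1 : Continuous fun y : R4 => ‖y - x‖ := by fun_prop
      have h2 : Continuous fun y : R4 => cv y := continuous_fst.comp continuous_snd
      exact (isOpen_lt h1 continuous_const).inter (isOpen_lt h2 continuous_const)
    have hmem : x ∈ nullBox x c := ⟨by rw [sub_self, norm_zero]; exact hc, hx.2⟩
    refine ((hopen.measure_pos volume ⟨x, hmem⟩).trans_le (measure_mono ?_)).ne'
    intro y hy
    refine ⟨hy, fun b hb => ⟨0, by norm_num, fun hin => kk_not hp hpp hb ?_⟩⟩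
    refine lt_of_le_of_lt (le_of_eq ?_) hin
    apply eLpNorm_congr_ae
    rw [Filter.EventuallyEq, ae_restrict_iff' measurableSet_Ioo]
    have hne : ∀ᵐ v : ℝ, v ≠ -1 := (Set.countable_singleton (-1:ℝ)).ae_notMem volume
    filter_upwards [hne] with v hv1 hv
    have e1 : cv (y + (v - cv y) • dv) = v := by
      have : cv (y + (v - cv y) • dv) = cv y + (v - cv y) * 1 := rfl
      rw [this]; ring
    show kk v = deriv GG (y + (v - cv y) • dv) dv
    rw [deriv_GG_dv (by rw [e1]; exact hv1) (by rw [e1]; exact hv.2.ne), e1]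
  · have h3 : ∀ᶠ t in 𝓝[<] (1:ℝ), co e (a t) ∈ Metric.ball z r :=
      ht.eventually (Metric.ball_mem_nhds _ hr0)
    filter_upwards [h3] with t ht'
    rw [mem_ball_iff_norm] at ht'
    have h4 : co e (a t) ∈ D0 := (ch e).map_source (mem_univ _)
    exact ⟨mem_univ _, ht', h4.2.2.2⟩

end Vale.Agent.P354p.Ex
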