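import Mathlib
import Vale.Agent.P354p.Ex2

set_option linter.unusedSectionVars false

open scoped ContDiff
open MeasureTheory Set Filter Topology

namespace Vale.Agent.P354p.Ex

lemma mono_lim {f f' : ℝ → ℝ} {B : ℝ} (hf : ∀ t ∈ Ioo (1/2:ℝ) 1, HasDerivAt f (f' t) t)
    (hnn : ∀ t ∈ Ioo (1/2:ℝ) 1, 0 ≤ f' t) (hB : ∀ t ∈ Ioo (1/2:ℝ) 1, f t ≤ B) :
    ∃ L, Tendsto f (𝓝[<] 1) (𝓝 L) ∧ ∀ t ∈ Ioo (1/2:ℝ) 1, f t ≤ L := by
  have hmono : MonotoneOn f (Ioo (1/2:ℝ) 1) := by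
    apply monotoneOn_of_deriv_nonneg (convex_Ioo _ _)
    · exact fun t ht => (hf t ht).continuousAt.continuousWithinAt
    · rw [interior_Ioo]
      exact fun t ht => (hf t ht).differentiableAt.differentiableWithinAt
    · rw [interior_Ioo]
      intro t ht
      rw [(hf t ht).deriv]
      exact hnn t ht
  have hbdd : BddAbove (f '' Ioo (1/2:ℝ) 1) := by
    refine ⟨B, ?_⟩
    rintro _ ⟨t, ht, rfl⟩
    exact hB t ht
  refine ⟨sSup (f '' Ioo (1/2:ℝ) 1), ?_, fun t ht => le_csSup hbdd (mem_image_of_mem f ht)⟩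
  exact MonotoneOn.tendsto_nhdsWithin_Ioo_left ⟨3/4, by norm_num, by norm_num⟩ hmono hbdd

/-- real number lemma for future timelike vectors -/
lemma cone_bd {G x y p q : ℝ} (hG : 2 ≤ G) (h1 : G * (p * p) + G * (q * q) - (x * y + y * x) < 0)
    (h2 : G * (p * 0) + G * (q * 0) - (x * 1 + y * 1) < 0) :
    0 < x ∧ 0 < y ∧ |p| ≤ x + y ∧ |q| ≤ x + y := by
  have hpp : 0 ≤ p * p := mul_self_nonneg p
  have hqq : 0 ≤ q * q := mul_self_nonneg q
  have h3 : 2 * (p * p) ≤ G * (p * p) := mul_le_mul_of_nonneg_right hG hpp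
  have h4 : 2 * (q * q) ≤ G * (q * q) := mul_le_mul_of_nonneg_right hG hqq
  have hxy : 0 < x * y := by linarith only [h1, hpp, hqq, h3, h4]
  have hs : 0 < x + y := by linarith only [h2]
  have hx : 0 < x := by
    by_contra hcon
    push Not at hcon
    have hy : 0 < y := by linarith only [h2, hcon]
    linarith only [hxy, mul_nonpos_of_nonpos_of_nonneg hcon hy.le]
  have hy : 0 < y := by
    by_contra hcon
    push Not at hcon
    linarith only [hxy, mul_nonpos_of_nonneg_of_nonpos hx.le hcon]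
  have h5 : x * y ≤ (x + y) ^ 2 := by linarith only [hxy, sq_nonneg x, sq_nonneg y]
  refine ⟨hx, hy, ?_, ?_⟩
  · apply abs_le_of_sq_le_sq _ hs.le
    linarith only [h1, hqq, h3, h4, h5]
  · apply abs_le_of_sq_le_sq _ hs.le
    linarith only [h1, hpp, h3, h4, h5]

variable [Prm]

/-- future curves in the example have limits in the closed region -/
lemma lim_exists {a : ℝ → M0.pt} (ha : IsFutureCurve M0 0 (Ico 0 1) a) :
    ∃ z : R4, Tendsto (fun t => (a t).1) (𝓝[<] 1) (𝓝 z) ∧ -1 < cu z ∧ cu z ≤ 0 ∧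
      -1 < cv z ∧ cv z ≤ 0 := by
  set b : ℝ → R4 := fun t => (a t).1 with hb
  have hbD : ∀ t, b t ∈ D0 := fun t => (a t).2
  have hd : ∀ t ∈ Ioo (1/2:ℝ) 1, HasDerivAt b (_root_.deriv b t) t ∧
      0 < cu (_root_.deriv b t) ∧ 0 < cv (_root_.deriv b t) ∧
      |c1 (_root_.deriv b t)| ≤ cu (_root_.deriv b t) + cv (_root_.deriv b t) ∧
      |c2 (_root_.deriv b t)| ≤ cu (_root_.deriv b t) + cv (_root_.deriv b t) := by
    intro t ht
    have htI : t ∈ Ico (0:ℝ) 1 := ⟨by linarith only [ht.1], ht.2⟩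
    have hnb : Ico (0:ℝ) 1 ∈ 𝓝 t := Ico_mem_nhds (by linarith only [ht.1]) ht.2
    obtain ⟨h1, h2⟩ := ha.2 t htI true (mem_univ _)
    have h3 : DifferentiableAt ℝ b t :=
      (h1.differentiableWithinAt (by norm_num)).differentiableAt hnb
    have h4 : derivWithin (fun s => co (M := M0) true (a s)) (Ico 0 1) t = _root_.deriv b t :=
      derivWithin_of_mem_nhds hnb
    obtain ⟨h5, -, h6⟩ := h2 _ _ rfl rfl
    rw [h4] at h5 h6
    have h7 : form CC (b t) (_root_.deriv b t) (_root_.deriv b t) < 0 := h5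
    have h8 : form CC (b t) (_root_.deriv b t) (1, 1, 0, 0) < 0 := h6
    rw [form_eq] at h7 h8
    exact ⟨h3.hasDerivAt, cone_bd (GG_ge (hbD t)) h7 h8⟩
  have du' : ∀ t ∈ Ioo (1/2:ℝ) 1, HasDerivAt (fun t => cu (b t)) (cu (_root_.deriv b t)) t :=
    fun t ht => (hd t ht).1.fst
  have dv' : ∀ t ∈ Ioo (1/2:ℝ) 1, HasDerivAt (fun t => cv (b t)) (cv (_root_.deriv b t)) t :=
    fun t ht => (hd t ht).1.snd.fst
  have d1' : ∀ t ∈ Ioo (1/2:ℝ) 1, HasDerivAt (fun t => c1 (b t)) (c1 (_root_.deriv b t)) t :=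
    fun t ht => (hd t ht).1.snd.snd.fst
  have d2' : ∀ t ∈ Ioo (1/2:ℝ) 1, HasDerivAt (fun t => c2 (b t)) (c2 (_root_.deriv b t)) t :=
    fun t ht => (hd t ht).1.snd.snd.snd
  obtain ⟨Lu, hLu, hLu'⟩ := mono_lim (B := 0) du' (fun t ht => (hd t ht).2.1.le)
    (fun t _ => (hbD t).2.1.le)
  obtain ⟨Lv, hLv, hLv'⟩ := mono_lim (B := 0) dv' (fun t ht => (hd t ht).2.2.1.le)
    (fun t _ => (hbD t).2.2.2.le)
  -- the angular coordinates
  have key : ∀ g g' : ℝ → ℝ, (∀ t ∈ Ioo (1/2:ℝ) 1, HasDerivAt g (g' t) t) →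
      (∀ t ∈ Ioo (1/2:ℝ) 1, |g' t| ≤ cu (_root_.deriv b t) + cv (_root_.deriv b t)) →
      ∃ L, Tendsto g (𝓝[<] 1) (𝓝 L) := by
    intro g g' hg hg'
    have hs : ∀ t ∈ Ioo (1/2:ℝ) 1, HasDerivAt (fun t => cu (b t) + cv (b t))
        (cu (_root_.deriv b t) + cv (_root_.deriv b t)) t :=
      fun t ht => (du' t ht).add (dv' t ht)
    have hneg : ∀ t ∈ Ioo (1/2:ℝ) 1, cu (b t) + cv (b t) ≤ 0 := fun t _ => by
      have := (hbD t).2.1
      have := (hbD t).2.2.2
      linarith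
    -- g is bounded above on (3/4, 1)
    have hm : MonotoneOn (fun t => (cu (b t) + cv (b t)) - g t) (Ioo (1/2:ℝ) 1) := by
      have hdd : ∀ t ∈ Ioo (1/2:ℝ) 1, HasDerivAt (fun t => (cu (b t) + cv (b t)) - g t)
          ((cu (_root_.deriv b t) + cv (_root_.deriv b t)) - g' t) t :=
        fun t ht => (hs t ht).sub (hg t ht)
      apply monotoneOn_of_deriv_nonneg (convex_Ioo _ _)
      · exact fun t ht => (hdd t ht).continuousAt.continuousWithinAt
      · rw [interior_Ioo]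
        exact fun t ht => (hdd t ht).differentiableAt.differentiableWithinAt
      · rw [interior_Ioo]
        intro t ht
        rw [(hdd t ht).deriv]
        have := (abs_le.1 (hg' t ht)).2
        linarith only [this]
    have hm2 : MonotoneOn (fun t => (cu (b t) + cv (b t)) + g t) (Ioo (1/2:ℝ) 1) := by
      have hdd : ∀ t ∈ Ioo (1/2:ℝ) 1, HasDerivAt (fun t => (cu (b t) + cv (b t)) + g t)
          ((cu (_root_.deriv b t) + cv (_root_.deriv b t)) + g' t) t :=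
        fun t ht => (hs t ht).add (hg t ht)
      apply monotoneOn_of_deriv_nonneg (convex_Ioo _ _)
      · exact fun t ht => (hdd t ht).continuousAt.continuousWithinAt
      · rw [interior_Ioo]
        exact fun t ht => (hdd t ht).differentiableAt.differentiableWithinAt
      · rw [interior_Ioo]
        intro t ht
        rw [(hdd t ht).deriv]
        have := (abs_le.1 (hg' t ht)).1
        linarith only [this]
    have h34 : (3/4:ℝ) ∈ Ioo (1/2:ℝ) 1 := ⟨by norm_num, by norm_num⟩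
    have hmono : MonotoneOn (fun t => (cu (b t) + cv (b t)) + g t) (Ioo (3/4:ℝ) 1) :=
      hm2.mono (Ioo_subset_Ioo_left (by norm_num))
    have hbdd : BddAbove ((fun t => (cu (b t) + cv (b t)) + g t) '' Ioo (3/4:ℝ) 1) := by
      refine ⟨-((cu (b (3/4)) + cv (b (3/4))) - g (3/4)), ?_⟩
      rintro _ ⟨t, ht, rfl⟩
      have h1 := hm h34 ⟨by linarith [ht.1], ht.2⟩ ht.1.le
      have h2 := hneg t ⟨by linarith only [ht.1], ht.2⟩
      simp only at h1 ⊢
      linarith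
    have hlim := MonotoneOn.tendsto_nhdsWithin_Ioo_left
      (⟨7/8, by norm_num, by norm_num⟩ : (Ioo (3/4:ℝ) 1).Nonempty) hmono hbdd
    refine ⟨_, ((hlim.sub (hLu.add hLv)).congr fun t => ?_)⟩
    ring
  obtain ⟨L1, hL1⟩ := key _ _ d1' (fun t ht => (hd t ht).2.2.2.1)
  obtain ⟨L2, hL2⟩ := key _ _ d2' (fun t ht => (hd t ht).2.2.2.2)
  have h34 : (3/4:ℝ) ∈ Ioo (1/2:ℝ) 1 := ⟨by norm_num, by norm_num⟩
  refine ⟨(Lu, Lv, L1, L2), ?_, ?_, ?_, ?_, ?_⟩
  · exact hLu.prodMk_nhds (hLv.prodMk_nhds (hL1.prodMk_nhds hL2))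
  · exact lt_of_lt_of_le (hbD (3/4)).1 (hLu' _ h34)
  · exact le_of_tendsto hLu (Eventually.of_forall fun t => (hbD t).2.1.le)
  · exact lt_of_lt_of_le (hbD (3/4)).2.2.1 (hLv' _ h34)
  · exact le_of_tendsto hLv (Eventually.of_forall fun t => (hbD t).2.2.2.le)

lemma front_sw {pp : ENNReal} (hp : 2 ≤ pp) (hpp : Prm.a = pp.toReal⁻¹)
    {a : ℝ → M0.pt} {z : R4} (ht : Tendsto (fun t => (a t).1) (𝓝[<] 1) (𝓝 z))
    (h0 : cu z * cv z = 0) (hlt : cu z + cv z < 0) (h1 : -1 < cu z) (h2 : -1 < cv z) :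
    EndsAtFront pp M0 a := by
  rcases mul_eq_zero.1 h0 with h | h
  · have h3 : Tendsto (fun t => co (M := M0) false (a t)) (𝓝[<] 1) (𝓝 (sw false z)) :=
      ((continuous_sw false).tendsto z).comp ht
    exact front hp hpp false (z := sw false z) h h2 (by
      show cv z < 0
      linarith only [hlt, h]) h3
  · have h3 : Tendsto (fun t => co (M := M0) true (a t)) (𝓝[<] 1) (𝓝 z) := ht
    exact front hp hpp true h h1 (by linarith only [hlt, h]) h3

lemma corner {pp : ENNReal} (hp : 2 ≤ pp) (hpp : Prm.a = pp.toReal⁻¹)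
    {a : ℝ → M0.pt} {z : R4} (ht : Tendsto (fun t => (a t).1) (𝓝[<] 1) (𝓝 z))
    (hu : cu z = 0) (hv : cv z = 0) : EndsAtCorner pp M0 a := by
  have hr : (0:ℝ) < 1 / 2 := by norm_num
  have hsub : cornerBox z (1 / 2) ⊆ D0 := by
    rintro x ⟨⟨hx, hxv⟩, hxu⟩
    obtain ⟨h3, h4⟩ := norm_R4_lt hx
    have e1 : cu (x - z) = cu x - cu z := rfl
    have e2 : cv (x - z) = cv x - cv z := rfl
    rw [e1, hu, sub_zero, abs_lt] at h3
    rw [e2, hv, sub_zero, abs_lt] at h4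
    exact ⟨by linarith only [h3], hxu, by linarith only [h4], hxv⟩
  refine ⟨true, CC, z, 1 / 2, 22, kk, dnbox true hsub hr (le_refl _) (fun x _ => le_refl _)
    ⟨kk_meas, (memLp_one_iff_integrable.2 (kk_int hr)).2⟩, hu, hv, ⟨?_, ht⟩, ?_⟩
  · have h3 : ∀ᶠ t in 𝓝[<] (1:ℝ), (a t).1 ∈ Metric.ball z (1/2) :=
      ht.eventually (Metric.ball_mem_nhds _ hr)
    filter_upwards [h3] with t ht'
    rw [mem_ball_iff_norm] at ht'
    exact ⟨mem_univ _, ⟨ht', (a t).2.2.2.2⟩, (a t).2.2.1⟩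
  · intro b _ y hy hyz h0 hlt
    obtain ⟨h3, h4⟩ := norm_R4_lt hyz
    have e1 : cu (y - z) = cu y - cu z := rfl
    have e2 : cv (y - z) = cv y - cv z := rfl
    rw [e1, hu, sub_zero, abs_lt] at h3
    rw [e2, hv, sub_zero, abs_lt] at h4
    exact front_sw hp hpp hy.2 h0 hlt (by linarith only [h3]) (by linarith only [h4])

/-- every future curve of the example has an end point or ends at a front or a corner -/
theorem ends {pp : ENNReal} (hp : 2 ≤ pp) (hpp : Prm.a = pp.toReal⁻¹)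
    {a : ℝ → M0.pt} (ha : IsFutureCurve M0 0 (Ico 0 1) a)
    (hno : ∀ p, ¬ Tendsto a (𝓝[<] 1) (𝓝 p)) : Ends pp M0 a := by
  obtain ⟨z, hz, h1, h2, h3, h4⟩ := lim_exists ha
  rcases lt_or_eq_of_le h2 with h2 | h2
  · rcases lt_or_eq_of_le h4 with h4 | h4
    · exfalso
      refine hno (⟨z, h1, h2, h3, h4⟩ : P0) ?_
      exact tendsto_subtype_rng.2 hz
    · exact Or.inl (front_sw hp hpp hz (by rw [h4, mul_zero]) (by linarith) h1 h3)
  · rcases lt_or_eq_of_le h4 with h4 | h4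
    · exact Or.inl (front_sw hp hpp hz (by rw [h2, zero_mul]) (by linarith) h1 h3)
    · exact Or.inr (Or.inl (corner hp hpp hz h2 h4))

/-- a curve which ends at a front -/
noncomputable def a0 (t : ℝ) : M0.pt := mk (-1 / 2 + t / 4, -1 / 2 + t / 2, 0, 0)

lemma a0_val {t : ℝ} (ht : t ∈ Ico (0:ℝ) 1) : (a0 t).1 = (-1 / 2 + t / 4, -1 / 2 + t / 2, 0, 0) := by
  apply mk_val
  simp only [D0, cu, cv, mem_ofPred_eq]
  obtain ⟨h1, h2⟩ := ht
  refine ⟨by linarith, by linarith only [h2], by linarith, by linarith only [h2]⟩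

lemma a0_curve : IsFutureCurve M0 0 (Ico 0 1) a0 := by
  refine ⟨?_, ?_⟩
  · show ContinuousOn (fun t => mk (-1 / 2 + t / 4, -1 / 2 + t / 2, 0, 0)) (Ico 0 1)
    refine continuousOn_mk.comp (by fun_prop) ?_
    intro t ht
    simp only [D0, cu, cv, mem_ofPred_eq]
    obtain ⟨h1, h2⟩ := ht
    refine ⟨by linarith only [h1], by linarith, by linarith, by linarith⟩
  · intro t ht e _
    have h1 : ∀ s ∈ Ico (0:ℝ) 1, co (M := M0) e (a0 s) =
        sw e (-1 / 2 + s / 4, -1 / 2 + s / 2, 0, 0) := by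
      intro s hs
      show sw e (a0 s).1 = _
      rw [a0_val hs]
    have h2 : HasDerivAt (fun s : ℝ => ((-1 / 2 + s / 4, -1 / 2 + s / 2, 0, 0) : R4))
        (1 / 4, 1 / 2, 0, 0) t := by
      have k1 : HasDerivAt (fun s : ℝ => -1 / 2 + s / 4) (1 / 4) t := by
        simpa only [one_div, hasDerivAt_const_add_iff, id_eq] using ((hasDerivAt_id t).div_const 4).const_add (-1 / 2)
      have k2 : HasDerivAt (fun s : ℝ => -1 / 2 + s / 2) (1 / 2) t := by
        simpa only [one_div, hasDerivAt_const_add_iff, id_eq] using ((hasDerivAt_id t).div_const 2).const_add (-1 / 2)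
      exact k1.prodMk (k2.prodMk ((hasDerivAt_const t (0:ℝ)).prodMk (hasDerivAt_const t (0:ℝ))))
    have h3 : HasDerivAt (fun s : ℝ => sw e (-1 / 2 + s / 4, -1 / 2 + s / 2, 0, 0))
        (sw e (1 / 4, 1 / 2, 0, 0)) t :=
      (swL e).hasFDerivAt.comp_hasDerivAt t h2
    refine ⟨?_, ?_⟩
    · have h4 : ContDiffWithinAt ℝ 1
          (fun s : ℝ => sw e (-1 / 2 + s / 4, -1 / 2 + s / 2, 0, 0)) (Ico 0 1) t := by
        have h5 : ContDiff ℝ 1 (fun s : ℝ => ((-1 / 2 + s / 4, -1 / 2 + s / 2, 0, 0) : R4)) := by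
          fun_prop
        exact ((swL e).contDiff.comp h5).contDiffAt.contDiffWithinAt
      exact h4.congr (fun s hs => h1 s hs) (h1 t ht)
    · rintro y w hy hw
      have h4 : derivWithin (fun s => co (M := M0) e (a0 s)) (Ico 0 1) t =
          sw e (1 / 4, 1 / 2, 0, 0) := by
        have h5 : HasDerivWithinAt (fun s => co (M := M0) e (a0 s)) (sw e (1 / 4, 1 / 2, 0, 0))
            (Ico 0 1) t := h3.hasDerivWithinAt.congr (fun s hs => h1 s hs) (h1 t ht)
        exact h5.derivWithin ((uniqueDiffOn_Ico 0 1) t ht)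
      rw [h4] at hw
      rw [hw]
      have h6 : form CC y (sw e (1 / 4, 1 / 2, 0, 0)) (sw e (1 / 4, 1 / 2, 0, 0)) = -1 / 4 := by
        rw [form_eq]
        cases e <;> simp only [c1, sw, Bool.false_eq_true, ↓reduceIte, one_div, mul_zero, c2, add_zero, cu, cv, zero_sub, neg_add_rev] <;> norm_num
      have h7 : form CC y (sw e (1 / 4, 1 / 2, 0, 0)) (1, 1, 0, 0) = -3 / 4 := by
        rw [form_eq]
        cases e <;> simp only [c1, sw, Bool.false_eq_true, ↓reduceIte, one_div, mul_zero, c2, add_zero, cu, cv, mul_one, zero_sub, neg_add_rev] <;> norm_num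
      show form CC y _ _ < 0 ∧ form CC y _ _ ≤ -0 ∧ form CC y _ (1, 1, 0, 0) < 0
      rw [h6, h7]
      norm_num

end Vale.Agent.P354p.Ex
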