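import Mathlib
import Vale.Agent.P354p.Ex3

set_option linter.unusedSectionVars false

open scoped ContDiff
open MeasureTheory Set Filter Topology

namespace Vale.Agent.P354p.Ex

/-- the larger region |u|, |v| < 1 -/
def D1 : Set R4 := {x | -1 < cu x ∧ cu x < 1 ∧ -1 < cv x ∧ cv x < 1}

abbrev P1 : Type := {x : R4 // x ∈ D1}

lemma D0_sub : D0 ⊆ D1 := by
  rintro x ⟨h1, h2, h3, h4⟩
  exact ⟨h1, by linarith only [h1, h2], h3, by linarith⟩

lemma isOpen_D1 : IsOpen D1 := by
  have h1 : Continuous cu := by unfold cu; fun_prop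
  have h2 : Continuous cv := by unfold cv; fun_prop
  exact (isOpen_lt continuous_const h1).inter ((isOpen_lt h1 continuous_const).inter
    ((isOpen_lt continuous_const h2).inter (isOpen_lt h2 continuous_const)))

noncomputable def p1 : P1 := ⟨(0, 0, 0, 0), by simp only [D1, cu, cv, mem_ofPred_eq]; norm_num⟩

open Classical in
/-- the point with given coordinates -/
noncomputable def mk1 (x : R4) : P1 := if h : x ∈ D1 then ⟨x, h⟩ else p1

lemma mk1_val {x : R4} (h : x ∈ D1) : (mk1 x).1 = x := by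
  rw [mk1, dif_pos h]

lemma mk1_self (p : P1) : mk1 p.1 = p := Subtype.ext (mk1_val p.2)

lemma continuousOn_mk1 : ContinuousOn mk1 D1 := by
  rw [continuousOn_iff_continuous_restrict]
  have : D1.domRestrict mk1 = fun x : D1 => (x : P1) := by
    funext x
    exact mk1_self x
  rw [this]
  exact continuous_id

/-- the chart -/
noncomputable def ch1 : OpenPartialHomeomorph P1 R4 where
  toFun p := p.1
  invFun y := mk1 y
  source := univ
  target := D1
  map_source' p _ := p.2
  map_target' _ _ := mem_univ _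
  left_inv' p _ := mk1_self p
  right_inv' y hy := mk1_val hy
  open_source := isOpen_univ
  open_target := isOpen_D1
  continuousOn_toFun := continuous_subtype_val.continuousOn
  continuousOn_invFun := continuousOn_mk1

variable [Prm]

/-- the extension -/
@[reducible] noncomputable def N0 : Spc where
  pt := P1
  Chart := Unit
  toE := fun _ => ch1
  cover p := ⟨(), mem_univ p⟩
  g := fun _ => form CC
  X := fun _ _ => (1, 1, 0, 0)

lemma GG_ge1 {x : R4} (_ : x ∈ D1) : 2 ≤ GG x :=
  (Gf_bd Prm.a0 Prm.a1 le_rfl zero_le_one x).1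

lemma GG_cont : Continuous GG := Gf_cont Prm.a1

/-- the regularity of the metric of the extension -/
lemma reg {q : ENNReal} {r : ℝ} (hr : 1 ≤ r) (hq : q ≤ ENNReal.ofReal r) (har : Prm.a * r < 1)
    (α β : ℝ) (D : Set R4) : IsC0W1 q (fun y => α * GG y + β) D := by
  have hhaar := haar4
  refine ⟨((continuous_const.mul GG_cont).add continuous_const).continuousOn, fun w => ?_⟩
  refine ⟨fun x => α * Hw Prm.a 0 w x, fun Q _ hQ => ?_, fun φ hφ hc _ => ?_⟩
  · obtain ⟨R, hR⟩ := hQ.isBounded.subset_closedBall (0:R4)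
    have hr0 : ENNReal.ofReal r ≠ 0 := by
      rw [Ne, ENNReal.ofReal_eq_zero, not_le]; linarith
    have h1 : MemLp (Hb Prm.a w) (ENNReal.ofReal r)
        (volume.restrict (Metric.closedBall (0:R4) R)) := by
      refine ⟨(Hb_meas w).aestronglyMeasurable, ?_⟩
      rw [eLpNorm_lt_top_iff_lintegral_rpow_enorm_lt_top hr0 ENNReal.ofReal_ne_top,
        ENNReal.toReal_ofReal (by linarith only [hr])]
      exact lt_top_iff_ne_top.2 (Hb_Lr Prm.a0 hr har w R)
    have h2 : MemLp (Hw Prm.a 0 w) (ENNReal.ofReal r)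
        (volume.restrict (Metric.closedBall (0:R4) R)) := by
      refine h1.mono (Hw_meas w).aestronglyMeasurable (Eventually.of_forall fun x => ?_)
      rw [Real.norm_eq_abs, Real.norm_eq_abs, abs_of_nonneg (Hb_nonneg w x)]
      exact Hw_le le_rfl w x
    have h3 := h2.mono_measure (Measure.restrict_mono hR le_rfl)
    have hfin : IsFiniteMeasure (volume.restrict Q) := ⟨by
      rw [Measure.restrict_apply MeasurableSet.univ, univ_inter]
      exact hQ.measure_lt_top⟩
    exact (h3.mono_exponent hq).const_mul α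
  · have hφ' : ContDiff ℝ ∞ φ := contDiffOn_univ.1 hφ
    have hW := weak Prm.a0 Prm.a1 w hφ' hc
    have hdiff : ∀ x, DifferentiableAt ℝ φ x :=
      fun x => (hφ'.differentiable (by simp)).differentiableAt
    have hld : ∀ x, lineDeriv ℝ φ x w = fderiv ℝ φ x w := fun x => (hdiff x).lineDeriv_eq_fderiv
    obtain ⟨Cφ, hφl⟩ := ContDiff.lipschitzWith_of_hasCompactSupport (𝕂 := ℝ) hc hφ' (by simp)
    have hfd : Continuous (fun x => fderiv ℝ φ x w) :=
      (hφ'.continuous_fderiv (by simp)).clm_apply continuous_const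
    have hfc : HasCompactSupport (fun x => fderiv ℝ φ x w) := by
      refine hc.mono' ?_
      intro x hx
      by_contra h
      apply hx
      have h0 : φ =ᶠ[𝓝 x] fun _ => 0 := notMem_tsupport_iff_eventuallyEq.1 h
      show fderiv ℝ φ x w = 0
      rw [h0.fderiv_eq]
      simp
    have h0 : ∫ x, lineDeriv ℝ φ x w = 0 := by
      have h1 := LipschitzWith.integral_lineDeriv_mul_eq (μ := (volume : Measure R4))
        (LipschitzWith.const (1:ℝ)) hφl hc (-w)
      have h2 : ∀ x : R4, lineDeriv ℝ (fun _ : R4 => (1:ℝ)) x (-w) = 0 := fun x =>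
        HasLineDerivAt.lineDeriv (hasDerivAt_const (0:ℝ) (1:ℝ))
      simp only [h2, zero_mul, integral_zero, neg_neg, mul_one] at h1
      exact h1.symm
    have hI1 : Integrable (fun x => Gf Prm.a 0 x * lineDeriv ℝ φ x w) := by
      simp only [hld]
      exact (GG_cont.mul hfd).integrable_of_hasCompactSupport hfc.mul_left
    have hI2 : Integrable (fun x => lineDeriv ℝ φ x w) := by
      simp only [hld]
      exact hfd.integrable_of_hasCompactSupport hfc
    have e1 : ∀ x, (α * GG x + β) * deriv φ x w =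
        α * (Gf Prm.a 0 x * lineDeriv ℝ φ x w) + β * lineDeriv ℝ φ x w := by
      intro x
      show (α * Gf Prm.a 0 x + β) * lineDeriv ℝ φ x w = _
      ring
    have e2 : ∀ x, α * Hw Prm.a 0 w x * φ x = α * (Hw Prm.a 0 w x * φ x) := fun x => by ring
    simp only [e1, e2]
    rw [integral_add (hI1.const_mul α) (hI2.const_mul β), integral_const_mul, integral_const_mul,
      integral_const_mul, h0, hW]
    ring

lemma rep1_eq {y : R4} (hy : y ∈ D1) : rep (M := N0) (N := N0) id () () y = y := mk1_val hy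

lemma dom1_eq : dom (M := N0) (N := N0) id () () = D1 := by
  ext y
  constructor
  · intro h; exact h.1
  · intro h; exact ⟨h, mem_univ _⟩

lemma push1_eq {y : R4} (hy : y ∈ D1) (a : R4) :
    push (M := N0) (N := N0) id () () y a = a := by
  have h2 : HasFDerivAt (rep (M := N0) (N := N0) id () ()) (ContinuousLinearMap.id ℝ R4) y := by
    refine (hasFDerivAt_id y).congr_of_eventuallyEq ?_
    filter_upwards [isOpen_D1.mem_nhds hy] with z hz
    exact rep1_eq hz
  exact (h2.hasLineDerivAt a).lineDeriv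

lemma spacetime1 {q : ENNReal} {r : ℝ} (hr : 1 ≤ r) (hq : q ≤ ENNReal.ofReal r)
    (har : Prm.a * r < 1) : IsSpacetime (IsC0W1 q) N0 where
  tensor := by
    apply IsIsom.mk'
    rintro ⟨⟩ ⟨⟩
    rw [dom1_eq]
    refine ⟨?_, ?_⟩
    · have h1 : ContDiffOn ℝ ∞ (fun y : R4 => y) D1 := contDiffOn_id
      exact h1.congr (fun y hy => rep1_eq hy)
    · intro y hy
      rw [rep1_eq hy]
      refine ⟨fun a b => ?_, ?_⟩
      · rw [push1_eq hy, push1_eq hy]
      · rw [push1_eq hy]
        show form CC y (1, 1, 0, 0) (1, 1, 0, 0) < 0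
        rw [form_XX]
        norm_num
  signature := by
    intro e y hy
    have hG : 2 ≤ GG y := GG_ge1 hy
    have hs : √(GG y) * √(GG y) = GG y := Real.mul_self_sqrt (by linarith)
    have hs0 : 0 < √(GG y) := Real.sqrt_pos.mpr (by linarith)
    refine ⟨fun a => (cu a + cv a / 2, cu a - cv a / 2, √(GG y) * c1 a, √(GG y) * c2 a),
      ⟨?_, ?_⟩, ?_, ?_⟩
    · intro a b
      ext <;> simp only [cu, Prod.fst_add, cv, Prod.snd_add, c1, c2, Prod.mk_add_mk] <;> ring
    · intro t a
      ext <;> simp only [cu, Prod.smul_fst, smul_eq_mul, cv, Prod.smul_snd, c1, c2, Prod.smul_mk] <;> ring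
    · intro a b hab
      simp only [Prod.mk.injEq, cu, cv, c1, c2] at hab
      obtain ⟨h1, h2, h3, h4⟩ := hab
      have k1 : a.1 = b.1 := by linarith only [h1, h2]
      have k2 : a.2.1 = b.2.1 := by linarith only [h1, h2]
      have k3 : a.2.2.1 = b.2.2.1 := mul_left_cancel₀ hs0.ne' h3
      have k4 : a.2.2.2 = b.2.2.2 := mul_left_cancel₀ hs0.ne' h4
      ext <;> assumption
    · intro a b
      show form CC y a b = _
      rw [form_eq]
      simp only [mink, cu, cv, c1, c2]
      linear_combination (-(a.2.2.1 * b.2.2.1) - a.2.2.2 * b.2.2.2) * hs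
  timelike := by
    intro e y hy
    show form CC y (1, 1, 0, 0) (1, 1, 0, 0) < 0
    rw [form_XX]; norm_num
  continuous := fun e => continuousOn_const
  regular := by
    intro e a b
    show IsC0W1 q (fun y => form CC y a b) D1
    have h1 := reg hr hq har (c1 a * c1 b + c2 a * c2 b) (-(cu a * cv b + cv a * cu b)) D1
    have h2 : (fun y => form CC y a b) = fun y => (c1 a * c1 b + c2 a * c2 b) * GG y +
        -(cu a * cv b + cv a * cu b) := by
      funext y
      rw [form_eq]
      ring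
    rw [h2]
    exact h1

/-- the inclusion -/
def io (p : M0.pt) : N0.pt := ⟨p.1, D0_sub p.2⟩

lemma io_emb : IsOpenEmbedding io := by
  have h1 : IsOpenEmbedding (Subtype.val : P1 → R4) := isOpen_D1.isOpenEmbedding_subtypeVal
  have h2 : IsOpenEmbedding (Subtype.val ∘ io : P0 → R4) := isOpen_D0.isOpenEmbedding_subtypeVal
  exact IsOpenEmbedding.of_comp io h1 h2

lemma rep2_eq {e : M0.Chart} {y : R4} (hy : y ∈ D0) :
    rep (M := M0) (N := N0) io e () y = sw e y := by
  show (mk (sw e y)).1 = sw e y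
  exact mk_val (sw_mem.2 hy)

lemma dom2_eq (e : M0.Chart) : dom (M := M0) (N := N0) io e () = D0 := by
  ext y
  constructor
  · intro h; exact h.1
  · intro h; exact ⟨h, mem_univ _⟩

lemma push2_eq {e : M0.Chart} {y : R4} (hy : y ∈ D0) (a : R4) :
    push (M := M0) (N := N0) io e () y a = sw e a := by
  have h1 : HasFDerivAt (fun y => sw e y) (swL e) y := (swL e).hasFDerivAt
  have h2 : HasFDerivAt (rep (M := M0) (N := N0) io e ()) (swL e) y := by
    refine h1.congr_of_eventuallyEq ?_
    filter_upwards [isOpen_D0.mem_nhds hy] with z hz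
    exact rep2_eq hz
  exact (h2.hasLineDerivAt a).lineDeriv

lemma io_isom : IsIsom (M := M0) (N := N0) io := by
  apply IsIsom.mk'
  rintro e ⟨⟩
  rw [dom2_eq]
  refine ⟨?_, ?_⟩
  · have h1 : ContDiffOn ℝ ∞ (fun y => swL e y) D0 := (swL e).contDiff.contDiffOn
    exact h1.congr (fun y hy => rep2_eq hy)
  · intro y hy
    rw [rep2_eq hy]
    refine ⟨fun a b => ?_, ?_⟩
    · rw [push2_eq hy, push2_eq hy]
      show form CC y a b = form CC (sw e y) (sw e a) (sw e b)
      rw [form_sw]
    · rw [push2_eq hy]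
      show form CC (sw e y) (sw e (1, 1, 0, 0)) (1, 1, 0, 0) < 0
      rw [sw_X, form_XX]
      norm_num

/-- the curve -/
noncomputable def c0 (t : ℝ) : N0.pt := mk1 (-1 / 2 + t / 4, -1 / 2 + t / 2, 0, 0)

lemma line_mem1 {t : ℝ} (ht : t ∈ Icc (0:ℝ) 1) :
    ((-1 / 2 + t / 4, -1 / 2 + t / 2, 0, 0) : R4) ∈ D1 := by
  simp only [D1, cu, cv, mem_ofPred_eq]
  obtain ⟨h1, h2⟩ := ht
  refine ⟨by linarith only [h1], by linarith, by linarith, by linarith⟩

lemma c0_val {t : ℝ} (ht : t ∈ Icc (0:ℝ) 1) :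
    (c0 t).1 = (-1 / 2 + t / 4, -1 / 2 + t / 2, 0, 0) := mk1_val (line_mem1 ht)

lemma c0_cont : ContinuousOn c0 (Icc 0 1) := by
  show ContinuousOn (fun t => mk1 (-1 / 2 + t / 4, -1 / 2 + t / 2, 0, 0)) (Icc 0 1)
  exact continuousOn_mk1.comp (by fun_prop) (fun t ht => line_mem1 ht)

lemma c0_curve : IsFutureCurve N0 0 (Icc 0 1) c0 := by
  refine ⟨c0_cont, ?_⟩
  rintro t ht ⟨⟩ _
  have h1 : ∀ s ∈ Icc (0:ℝ) 1, co (M := N0) () (c0 s) =
      (-1 / 2 + s / 4, -1 / 2 + s / 2, 0, 0) := fun s hs => c0_val hs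
  have h2 : HasDerivAt (fun s : ℝ => ((-1 / 2 + s / 4, -1 / 2 + s / 2, 0, 0) : R4))
      (1 / 4, 1 / 2, 0, 0) t := by
    have k1 : HasDerivAt (fun s : ℝ => -1 / 2 + s / 4) (1 / 4) t := by
      simpa only [one_div, hasDerivAt_const_add_iff, id_eq] using ((hasDerivAt_id t).div_const 4).const_add (-1 / 2)
    have k2 : HasDerivAt (fun s : ℝ => -1 / 2 + s / 2) (1 / 2) t := by
      simpa only [one_div, hasDerivAt_const_add_iff, id_eq] using ((hasDerivAt_id t).div_const 2).const_add (-1 / 2)
    exact k1.prodMk (k2.prodMk ((hasDerivAt_const t (0:ℝ)).prodMk (hasDerivAt_const t (0:ℝ))))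
  refine ⟨?_, ?_⟩
  · have h5 : ContDiff ℝ 1 (fun s : ℝ => ((-1 / 2 + s / 4, -1 / 2 + s / 2, 0, 0) : R4)) := by
      fun_prop
    exact h5.contDiffAt.contDiffWithinAt.congr (fun s hs => h1 s hs) (h1 t ht)
  · rintro y w hy hw
    have h4 : derivWithin (fun s => co (M := N0) () (c0 s)) (Icc 0 1) t =
        (1 / 4, 1 / 2, 0, 0) := by
      have h5 : HasDerivWithinAt (fun s => co (M := N0) () (c0 s)) (1 / 4, 1 / 2, 0, 0)
          (Icc 0 1) t := h2.hasDerivWithinAt.congr (fun s hs => h1 s hs) (h1 t ht)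
      exact h5.derivWithin ((uniqueDiffOn_Icc zero_lt_one) t ht)
    rw [h4] at hw
    rw [hw]
    have h6 : form CC y (1 / 4, 1 / 2, 0, 0) (1 / 4, 1 / 2, 0, 0) = -1 / 4 := by
      rw [form_eq]
      simp only [c1, mul_zero, c2, add_zero, cu, one_div, cv, zero_sub, neg_add_rev]
      norm_num
    have h7 : form CC y (1 / 4, 1 / 2, 0, 0) (1, 1, 0, 0) = -3 / 4 := by
      rw [form_eq]
      simp only [c1, mul_zero, c2, add_zero, cu, one_div, cv, mul_one, zero_sub, neg_add_rev]
      norm_num
    show form CC y _ _ < 0 ∧ form CC y _ _ ≤ -0 ∧ form CC y _ (1, 1, 0, 0) < 0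
    rw [h6, h7]
    norm_num

lemma c0_mem {t : ℝ} (ht : t ∈ Ico (0:ℝ) 1) : c0 t ∈ range io := by
  refine ⟨a0 t, ?_⟩
  apply Subtype.ext
  rw [c0_val ⟨ht.1, ht.2.le⟩]
  exact a0_val ht

lemma notMem_range {p : N0.pt} (h : cv p.1 = 0) : p ∉ range io := by
  rintro ⟨q, rfl⟩
  have := q.2.2.2.2
  have h2 : cv (io q).1 = cv q.1 := rfl
  linarith

/-- the example has a future extension -/
theorem extension {q : ENNReal} {r : ℝ} (hr : 1 ≤ r) (hq : q ≤ ENNReal.ofReal r)
    (har : Prm.a * r < 1) : IsFutureExtension (IsC0W1 q) M0 N0 io c0 where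
  spacetime := spacetime1 hr hq har
  embedding := io_emb
  isometry := io_isom
  proper := by
    intro h
    have : p1 ∈ range io := by rw [h]; exact mem_univ _
    exact notMem_range rfl this
  curve := c0_curve
  curve_mem := fun t ht => c0_mem ht
  curve_end := by
    rw [io_emb.isOpen_range.frontier_eq]
    refine ⟨?_, ?_⟩
    · have h1 : Tendsto c0 (𝓝[<] 1) (𝓝 (c0 1)) := by
        have h3 : ContinuousWithinAt c0 (Icc 0 1) 1 := c0_cont 1 (by constructor <;> norm_num)
        refine h3.mono_left ?_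
        rw [← nhdsWithin_Ico_eq_nhdsLT (zero_lt_one (α := ℝ))]
        exact nhdsWithin_mono _ Ico_subset_Icc_self
      refine mem_closure_of_tendsto h1 ?_
      filter_upwards [Ico_mem_nhdsLT (zero_lt_one (α := ℝ))] with t ht
      exact c0_mem ht
    · apply notMem_range
      rw [c0_val (by constructor <;> norm_num)]
      simp only [cv]
      norm_num

omit [Prm] in
/-- **Sharpness.** -/
theorem sharp {p : ENNReal} (hp : 2 ≤ p) : ∃ M N ι c, IsSpacetime IsSmooth M ∧ AllEnd p M ∧
    ∀ q < p, IsFutureExtension (IsC0W1 q) M N ι c := by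
  have ha : p.toReal⁻¹ ≤ 1 / 2 := by
    by_cases ht : p = ⊤
    · rw [ht]; simp only [ENNReal.toReal_top, inv_zero, one_div, inv_nonneg, Nat.ofNat_nonneg]
    · have hr : 2 ≤ p.toReal := by
        have := ENNReal.toReal_mono ht hp
        simpa only [ge_iff_le, ENNReal.toReal_ofNat] using this
      rw [inv_le_comm₀ (by linarith) (by norm_num)]
      simpa only [one_div, inv_inv] using hr
  letI : Prm := ⟨p.toReal⁻¹, inv_nonneg.2 ENNReal.toReal_nonneg, ha⟩
  refine ⟨M0, N0, io, c0, spacetime, fun _ h1 h2 => ends hp rfl h1 h2, fun q hq => ?_⟩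
  have hqt : q ≠ ⊤ := ne_top_of_lt hq
  refine extension (r := max 1 q.toReal) (le_max_left _ _) ?_ ?_
  · rw [ENNReal.le_ofReal_iff_toReal_le hqt (by positivity)]
    exact le_max_right _ _
  · show p.toReal⁻¹ * max 1 q.toReal < 1
    by_cases ht : p = ⊤
    · rw [ht]; simp only [ENNReal.toReal_top, inv_zero, zero_mul, zero_lt_one]
    · have hr : 2 ≤ p.toReal := by
        have := ENNReal.toReal_mono ht hp
        simpa only [ge_iff_le, ENNReal.toReal_ofNat] using this
      have hlt : q.toReal < p.toReal := (ENNReal.toReal_lt_toReal hqt ht).2 hq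
      rw [inv_mul_lt_iff₀ (by linarith only [hr]), mul_one]
      exact max_lt (by linarith only [hr]) hlt

end Vale.Agent.P354p.Ex
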