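import Mathlib
import Vale.Agent.P354p.Asm
import Vale.Agent.P354.Det
import Vale.Agent.P354w.CoreHyp
import Vale.Agent.P354y.OpenC

set_option linter.unusedSectionVars false
set_option maxSynthPendingDepth 3

open scoped Manifold ContDiff
open MeasureTheory Set Topology Filter

namespace Vale.Agent.P354p

open Vale.Agent.P354 (P4 P3 norm_P4_le NearM Gram Tv cone mem_cone
  SHyp SCurve Coef Iso MB det_bounds)

/-- the bound of the derivatives in the direction e4 -/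
noncomputable def cvF (r K : ℝ) (k : ℝ → ℝ) : ℝ → ℝ :=
  (Ioo (-r) 0).indicator (fun v => 4 * (k v + K ^ 2))

lemma cvF_of_mem {r K : ℝ} {k : ℝ → ℝ} {v : ℝ} (hv : v ∈ Ioo (-r) 0) :
    cvF r K k v = 4 * (k v + K ^ 2) := by
  unfold cvF; rw [indicator_of_mem hv]

lemma cvF_meas {r K : ℝ} {k : ℝ → ℝ} (hk : Measurable k) : Measurable (cvF r K k) :=
  ((hk.add_const _).const_mul 4).indicator measurableSet_Ioo

lemma cvF_int {r K : ℝ} {k : ℝ → ℝ} (hk : IntegrableOn k (Ioo (-r) 0)) (s : Set ℝ) :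
    ∫⁻ v in s, ENNReal.ofReal (cvF r K k v) ≠ ⊤ := by
  have h1 : IntegrableOn (fun v => 4 * (k v + K ^ 2)) (Ioo (-r) 0) :=
    (hk.add (by simp only [enorm_pow, ne_eq, ENNReal.pow_eq_top_iff, enorm_ne_top, OfNat.ofNat_ne_zero, not_false_eq_true, and_true, integrableOn_const_iff, pow_eq_zero_iff, enorm_eq_zero, Real.volume_Ioo, sub_neg_eq_add, zero_add, ENNReal.ofReal_lt_top, or_true])).const_mul 4
  have h2 : Integrable (cvF r K k) := (integrable_indicator_iff measurableSet_Ioo).2 h1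
  exact ne_of_lt ((h2.integrableOn (s := s)).lintegral_lt_top)

lemma MB_v {p0 : P4} (hp : p0.2.1 = 0) {r : ℝ} {y : P4} (hy : y ∈ MB p0 r) :
    y.2.1 ∈ Ioo (-r) 0 := by
  refine ⟨?_, hy.2⟩
  have h2 := hy.1
  have h3 : |y.2.1| < r := by
    have h4 : |(y - p0).2.1| ≤ ‖y - p0‖ := (norm_P4_le.1 (le_refl ‖y - p0‖)).2.1
    have h5 : (y - p0).2.1 = y.2.1 - p0.2.1 := rfl
    rw [h5, hp, sub_zero] at h4
    linarith only [h2, h4]
  linarith only [(abs_lt.1 h3).1]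

lemma MB_bound {p0 : P4} (hp : p0.2.1 = 0) {r : ℝ} {y : P4} (hy : y ∈ MB p0 r) :
    |y.1| ≤ r + ‖p0‖ ∧ -(r + ‖p0‖) ≤ y.2.1 ∧ y.2.1 < 0 ∧ |y.2.2.1| ≤ r + ‖p0‖ ∧
      |y.2.2.2| ≤ r + ‖p0‖ := by
  have h1 := hy.1
  have h2 := norm_P4_le.1 (le_refl ‖y - p0‖)
  have h3 := norm_P4_le.1 (le_refl ‖p0‖)
  have hn : 0 ≤ ‖p0‖ := norm_nonneg _
  simp only [Prod.fst_sub, Prod.snd_sub] at h2
  have tri : ∀ s t : ℝ, |s - t| < r → |t| ≤ ‖p0‖ → |s| ≤ r + ‖p0‖ := by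
    intro s t h4 h5
    have : |s| ≤ |s - t| + |t| := by
      calc |s| = |(s - t) + t| := by congr 1; ring
        _ ≤ _ := abs_add_le _ _
    linarith only [h4, h5, this]
  have hyv := MB_v hp hy
  refine ⟨tri _ _ (h2.1.trans_lt h1) h3.1, ?_, hy.2, tri _ _ (h2.2.2.1.trans_lt h1) h3.2.2.1,
    tri _ _ (h2.2.2.2.trans_lt h1) h3.2.2.2⟩
  have := hyv.1
  linarith only [hn, this]

namespace FrontBox

variable {M : Spc} {e : M.Chart} {C : ℕ → R4 → ℝ} {z0 : R4} {r K : ℝ} {k : ℝ → ℝ}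

lemma bd (hB : FrontBox M e C z0 r K k) {Cc : ℝ} (hCc : 6 * K ^ 2 ≤ Cc) {y : P4}
    (hy : y ∈ MB (Sp z0) r) :
    ((toW C).scale 4).Bd y Cc (cvF r K k y.2.1) (cvF r K k y.2.1) (4 * (K + K ^ 2)) := by
  have hx := Sp_symm_mem.1 hy
  have hv := MB_v (show (Sp z0).2.1 = 0 from hB.base) hy
  have h1 := (hB.bounded hx).bd (fun i _ => hB.diff hx i) hCc
  rw [ContinuousLinearEquiv.apply_symm_apply] at h1
  rw [cvF_of_mem hv]
  exact h1

lemma smooth4 (hB : FrontBox M e C z0 r K k) :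
    ((toW C).scale 4).SmoothOn (MB (Sp z0) r) := by
  have h1 := (smoothW hB.dn.smooth).scale 4
  rwa [Sp_image_nullBox] at h1

end FrontBox

/-- The data of the core theorem, for a curve which ends at a front. -/
structure FrontData (pp : ENNReal) (M N : Spc) (ι : M.pt → N.pt) (h : IsOpenEmbedding ι) [Nonempty M.pt]
    (e : M.Chart) (C : ℕ → R4 → ℝ) (z0 : R4) (r K : ℝ) (k : ℝ → ℝ) (p : N.pt)
    (e' : N.Chart) (A : R4 ≃L[ℝ] R4) (R0 Cc t0 r1 : ℝ) (f : P3 → ℝ) : Prop where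
  on : On e' p
  R0_pos : 0 < R0
  inTgt : ∀ z ∈ Metric.closedBall (0 : R4) R0, yv (co e' p) A z ∈ tgt e'
  near : ∀ z ∈ Metric.ball (0 : R4) R0, NearM (Gf (comp e') (co e' p) A z)
  fut : ∀ z ∈ Metric.ball (0 : R4) R0,
    N.g e' (yv (co e' p) A z) (A Tv) (N.X e' (yv (co e' p) A z)) < 0
  core : P354w.CoreHyp ((toW C).scale 4) (fun z => (4:ℝ) • Gf (comp e') (co e' p) A z)
    (PsiF e e' ι h (co e' p) A) (VV e e' ι h (nullBox z0 r) (co e' p) A R0) (MB (Sp z0) r)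
    Cc (r + ‖z0‖) (cvF r K k) (cvF r K k) (fun _ => 4 * (K + K ^ 2)) t0 r1 f
  sub : P354w.DD t0 r1 f ⊆ VV e e' ι h (nullBox z0 r) (co e' p) A R0
  bound : ∀ z ∈ P354w.DD t0 r1 f, ‖z‖ ≤ R0 / 2
  Cc_large : 8 * K ^ 2 ≤ Cc
  lp : MemLp (fderiv ℝ (fun z => (4:ℝ) • Gf (comp e') (co e' p) A z)) pp
    (volume.restrict (P354w.DD t0 r1 f))

/-- neighbourhoods of the end points of good vertical lines are covered -/
def Opn (Psi : P4 → P4) (t0 r1 : ℝ) (f : P3 → ℝ) : Prop :=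
  ∀ x ∈ Metric.ball (0 : P3) r1, ∀ A : ℝ, 1 ≤ A →
    (∀ t ∈ Ico t0 (f x), ‖fderiv ℝ Psi (t, x) Tv‖ ≤ A) → ∀ ε1 > 0,
    ∃ ε > 0, ∃ v0 < 0, ∃ ps : P4, ∀ q : P4, v0 ≤ q.2.1 → q.2.1 < 0 → |q.1 - ps.1| < ε →
      |q.2.2.1 - ps.2.2.1| < ε → |q.2.2.2 - ps.2.2.2| < ε →
      ∃ z ∈ P354.DD t0 r1 f, Psi z = q ∧ ‖z.2 - x‖ < ε1

/-- **The core data exist.** -/
theorem exists_frontData {pp : ENNReal} (hpp : 2 ≤ pp) {M N : Spc} {ι : M.pt → N.pt} {h : IsOpenEmbedding ι} [Nonempty M.pt]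
    {e : M.Chart} {C : ℕ → R4 → ℝ} {z0 : R4} {r K : ℝ} {k : ℝ → ℝ} {c : ℝ → N.pt}
    (hM : IsSpacetime IsSmooth M) (hg' : IsSpacetime (IsC0W1 pp) N) (hI : IsIsom ι)
    (hB : FrontBox M e C z0 r K k) (hc : IsFutureCurve N 0 (Icc 0 1) c)
    {a : ℝ → M.pt} (ha : ∀ t ∈ Ico (0:ℝ) 1, ι (a t) = c t)
    (hain : EndsAt a e (nullBox z0 r) z0) :
    ∃ (e' : N.Chart) (A : R4 ≃L[ℝ] R4) (R0 Cc t0 r1 : ℝ) (f : P3 → ℝ),
      FrontData pp M N ι h e C z0 r K k (c 1) e' A R0 Cc t0 r1 f ∧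
        Opn (PsiF e e' ι h (co e' (c 1)) A) t0 r1 f := by
  obtain ⟨e', hp⟩ := N.cover (c 1)
  replace hp : On e' (c 1) := hp
  have hy0 : co e' (c 1) ∈ tgt e' := co_mem hp
  obtain ⟨A, hA, lam, hl, hAT⟩ := exists_A hg' hy0 (endVel_timelike hp hc)
  have hTneg : N.g e' (co e' (c 1)) (A Tv) (N.X e' (co e' (c 1))) < 0 := by
    have h1 : A Tv = lam • endVel e' c := hAT
    rw [h1, (hg'.bilin e' hy0).smul_left]
    exact mul_neg_of_pos_of_neg hl (endVel_future hp hc)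
  obtain ⟨R0, hR0, hR, hnear⟩ := exists_R0 hg' hy0 A hA hTneg
  have H := mkSHyp (h := h) (R0 := R0) hM hB hg' hI hR0 hR
    (fun z hz => (hnear z hz).1) (fun z hz => (hnear z hz).2.1)
  have hK1 := hB.K_one
  have hK0 : 0 < K := by linarith
  set C3 : ℝ := 3 * K with hC3
  have hC31 : 1 ≤ C3 := by rw [hC3]; linarith only [hK1]
  have hr := hB.dn.r_pos
  -- the parameter eta1
  set η1 : ℝ := min (r / (50 * C3 ^ 2)) (1 / (1400 * C3 ^ 7)) with hη1
  have hη1pos : 0 < η1 := lt_min (by positivity) (by positivity)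
  have hη : 5 * C3 * (5 * C3 * η1) < r := by
    have h1 : η1 ≤ r / (50 * C3 ^ 2) := min_le_left _ _
    rw [le_div_iff₀ (by positivity)] at h1
    linarith only [hr, h1]
  have hη2 : 280 * C3 ^ 6 * (5 * C3 * η1) ≤ 1 := by
    have h1 : η1 ≤ 1 / (1400 * C3 ^ 7) := min_le_right _ _
    rw [le_div_iff₀ (by positivity)] at h1
    calc 280 * C3 ^ 6 * (5 * C3 * η1) = η1 * (1400 * C3 ^ 7) := by ring
      _ ≤ 1 := h1
  obtain ⟨γ, s0, hcurve⟩ := mkSCurve (h := h) (R0 := R0) hp hc hl hAT hR0 ha hain hη1pos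
  obtain ⟨t0, r1, f, hr1, ht0f, hmemV, hopenD, hcpt, hexit, hDR, hbdP⟩ :=
    H.main' hcurve hη1pos hη hη2
  have hDV : P354w.DD t0 r1 f ⊆ VV e e' ι h (nullBox z0 r) (co e' (c 1)) A R0 := by
    rintro ⟨t, x⟩ ⟨hx, h1, h2⟩
    exact hmemV x hx t ⟨le_of_lt h1, h2⟩
  have hopenD' : IsOpen (P354w.DD t0 r1 f) := hopenD
  have hDR' : ∀ z ∈ P354w.DD t0 r1 f, ‖z‖ ≤ R0 / 2 := hDR
  -- constants
  set Cc : ℝ := 4 * C3 ^ 4 with hCc
  have hC34 : C3 ≤ C3 ^ 4 := by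
    calc C3 = C3 ^ 1 := (pow_one _).symm
      _ ≤ C3 ^ 4 := pow_le_pow_right₀ hC31 (by norm_num)
  have hC32 : C3 ^ 2 ≤ C3 ^ 4 := pow_le_pow_right₀ hC31 (by norm_num)
  have hCc1 : 1 ≤ Cc := by rw [hCc]; linarith only [hK1, hC34]
  have hCcK : 6 * K ^ 2 ≤ Cc := by
    have : C3 ^ 2 = 9 * K ^ 2 := by rw [hC3]; ring
    have h2 : 0 ≤ K ^ 2 := by positivity
    rw [hCc]; linarith only [hK1, hC34, hC32]
  have hbase : (Sp z0).2.1 = 0 := hB.base
  refine ⟨e', A, R0, Cc, t0, r1, f, ⟨hp, hR0, hR, fun z hz => (hnear z hz).1,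
    fun z hz => (hnear z hz).2.1, ?_, hDV, hDR', ?_,
    energy_DDp (h := h) hpp hM hg' hI hR hR0 hopenD' hDV hDR'⟩, fun x hx A1 hA1 hgd ε1 hε1 => ?_⟩
  rotate_left 2
  · exact H.openness hη ht0f hmemV hexit hbdP hDR hx
      ((Gf_continuousOn (c := comp e') (fun i j => (hg'.regular e' (bas i) (bas j)).1) _ A).mono
        (fun z hz => hR z (Metric.ball_subset_closedBall hz))) hA1 hgd hε1
  swap
  · have h1 : C3 ^ 2 = 9 * K ^ 2 := by rw [hC3]; ring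
    have h2 : 0 ≤ K ^ 2 := by positivity
    rw [hCc]; linarith only [hK1, hC34, hC32]
  refine
    { openU := MB_isOpen _ _
      smoothK := hB.smooth4
      bd := fun y hy => hB.bd hCcK hy
      U_sub := ?_
      cv_meas := cvF_meas (hB.dn.intg k (Or.inl rfl)).1
      cw_meas := cvF_meas (hB.dn.intg k (Or.inl rfl)).1
      cu_meas := measurable_const
      cv_int := cvF_int (hB.dn.intg k (Or.inl rfl)).2 _
      cw_int := cvF_int (hB.dn.intg k (Or.inl rfl)).2 _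
      cu_int := ?_
      iso := ?_
      inj := Psi_injOn
      maps := fun z hz => H.maps z hz
      cone := fun z hz a => (H.nearV hz).cone4 hCc1 a
      tt := ?_
      pos := fun z hz => H.beta z hz
      det_lo := ?_
      det_hi := ?_
      r_pos := hr1
      t0f := ht0f
      memV := hmemV
      openD := hopenD'
      cpt := hcpt
      exit := hexit
      finD := ?_
      L2 := ?_ }
  · intro y hy
    have h1 := MB_bound hbase hy
    rwa [norm_Sp] at h1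
  · rw [setLIntegral_const]
    exact ENNReal.mul_ne_top ENNReal.ofReal_ne_top (by simp only [neg_add_rev, Real.volume_Icc, ne_eq, ENNReal.ofReal_ne_top, not_false_eq_true])
  · exact (IsoW_mono (Psi_IsoW hM hg' hI (nullBox_isOpen z0 r) (fun x hx => (hB.dn.box x hx).1)
      (fun x hx i => hB.diff hx i) (co e' (c 1)) A) (VV_isOpen (nullBox_isOpen z0 r))
      inter_subset_left).scale 4
  · intro z hz
    have hTc : Tv ∈ cone (1 / 4) := by simp only [one_div, Tv, mem_cone, Prod.norm_mk, norm_zero, max_self, mul_one, inv_nonneg, Nat.ofNat_nonneg]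
    have h1 := (H.nearV hz).timelike_of_cone hTc
    have h2 : (Tv : P4).1 = 1 := rfl
    rw [h2] at h1
    have h3 : ((4:ℝ) • Gf (comp e') (co e' (c 1)) A z) P354w.e1 P354w.e1 =
      4 * Gf (comp e') (co e' (c 1)) A z Tv Tv := rfl
    show 1 ≤ Cc * (-(((4:ℝ) • Gf (comp e') (co e' (c 1)) A z) P354w.e1 P354w.e1))
    rw [h3]
    nlinarith only [hK1, hC34, h1]
  · intro z hz
    exact (det_bounds H.iso hz (H.cbd hz) (hnear z (H.V_sub hz)).2.2).1
  · intro z hz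
    exact (det_bounds H.iso hz (H.cbd hz) (hnear z (H.V_sub hz)).2.2).2
  · have hsub : P354w.DD t0 r1 f ⊆ Metric.closedBall (0 : R4) (R0 / 2) := by
      intro z hz
      simpa only [Metric.mem_closedBall, dist_zero_right] using hDR' z hz
    have := volume_haar
    exact ne_top_of_le_ne_top (isCompact_closedBall (0 : R4) (R0 / 2)).measure_ne_top
      (measure_mono hsub)
  · exact energy_DD (h := h) hpp hM hg' hI hR hR0 hopenD' hDV hDR'

end Vale.Agent.P354p
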