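import Vale.Agent.P354p.FrontCore
import Vale.Agent.P354x.Gen3
import Vale.Agent.P354z.O6

set_option linter.unusedSectionVars false
set_option maxSynthPendingDepth 3

open scoped Manifold ContDiff
open MeasureTheory Set Topology Filter

namespace Vale.Agent.P354p

open Vale.Agent.P354 (P4 P3 norm_P4_le MB)
open Vale.Agent.P354x (ins)

/-- **The core data exist, and an open set of generators is covered.** -/
theorem exists_frontData_open {pp : ENNReal} (hpp : 2 ≤ pp) {M N : Spc} {ι : M.pt → N.pt} {h : IsOpenEmbedding ι} [Nonempty M.pt]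
    {e : M.Chart} {C : ℕ → R4 → ℝ} {z0 : R4} {r K : ℝ} {k : ℝ → ℝ} {c : ℝ → N.pt}
    (hM : IsSpacetime IsSmooth M) (hg' : IsSpacetime (IsC0W1 pp) N) (hI : IsIsom ι)
    (hB : FrontBox M e C z0 r K k) (hc : IsFutureCurve N 0 (Icc 0 1) c)
    {a : ℝ → M.pt} (ha : ∀ t ∈ Ico (0:ℝ) 1, ι (a t) = c t)
    (hain : EndsAt a e (nullBox z0 r) z0) :
    ∃ (e' : N.Chart) (A : R4 ≃L[ℝ] R4) (R0 Cc t0 r1 : ℝ) (f : P3 → ℝ),
      FrontData pp M N ι h e C z0 r K k (c 1) e' A R0 Cc t0 r1 f ∧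
      ∃ O : Set P354w.P3, IsOpen O ∧ O.Nonempty ∧ ∃ v0 < 0, ∀ y ∈ O, ∀ v ∈ Ico v0 0,
        ∃ z ∈ P354w.DD t0 r1 f, PsiF e e' ι h (co e' (c 1)) A z = ins v y ∧ ‖z.2‖ ≤ r1 / 4 := by
  obtain ⟨e', A, R0, Cc, t0, r1, f, hF, hop⟩ := exists_frontData (h := h) hpp hM hg' hI hB hc ha hain
  refine ⟨e', A, R0, Cc, t0, r1, f, hF, ?_⟩
  have hr := hF.core.r_pos
  obtain ⟨x, hx, A1, hA1, hgd⟩ := P354z.exists_good_line hF.core (S0 := K) (fun y hy => by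
    have hBd := hB.bounded (Sp_symm_mem.1 hy)
    exact ⟨(hBd.bound 4 (by norm_num)).1, (hBd.bound 5 (by norm_num)).1,
      (hBd.bound 6 (by norm_num)).1, (hBd.bound 7 (by norm_num)).1⟩)
  obtain ⟨ε, hε, v0, hv0, ps, hq⟩ := hop x (by rw [mem_ball_zero_iff]; linarith only [hr, hx]) A1 hA1 hgd
    (r1 / 8) (by linarith only [hr])
  refine ⟨Metric.ball (ps.1, ps.2.2.1, ps.2.2.2) ε, Metric.isOpen_ball,
    ⟨_, Metric.mem_ball_self hε⟩, v0, hv0, fun y hy v hv => ?_⟩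
  rw [Metric.mem_ball, dist_eq_norm] at hy
  have h1 : |y.1 - ps.1| < ε := (norm_fst_le (y - (ps.1, ps.2.2.1, ps.2.2.2))).trans_lt hy
  have h2 : |y.2.1 - ps.2.2.1| < ε :=
    ((norm_fst_le (y - (ps.1, ps.2.2.1, ps.2.2.2)).2).trans
      (norm_snd_le (y - (ps.1, ps.2.2.1, ps.2.2.2)))).trans_lt hy
  have h3 : |y.2.2 - ps.2.2.2| < ε :=
    ((norm_snd_le (y - (ps.1, ps.2.2.1, ps.2.2.2)).2).trans
      (norm_snd_le (y - (ps.1, ps.2.2.1, ps.2.2.2)))).trans_lt hy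
  obtain ⟨z, hz, hzq, hzx⟩ := hq (ins v y) hv.1 hv.2 h1 h2 h3
  refine ⟨z, hz, hzq, ?_⟩
  have e1 : z.2 = (z.2 - x) + x := by abel
  rw [e1]
  refine (norm_add_le _ _).trans ?_
  linarith only [hx, hzx]

end Vale.Agent.P354p
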