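import Mathlib

open scoped ContDiff
open MeasureTheory Set Filter Topology

namespace Vale.Agent.P354p.Ex

/-- the derivative of the profile -/
noncomputable def ll (a s : ℝ) : ℝ := s ^ (-a) * (1 - Real.log s)

/-- the profile -/
noncomputable def hh (a s : ℝ) : ℝ :=
  ((1 - a)⁻¹ ^ 2 + (1 - a)⁻¹) * s ^ (1 - a) - (1 - a)⁻¹ ^ 2 * (s ^ (1 - a) * Real.log (s ^ (1 - a)))

section
variable {a : ℝ}

lemma hh_zero (ha : a ≤ 1 / 2) : hh a 0 = 0 := by
  unfold hh
  rw [Real.zero_rpow (by linarith)]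
  simp

lemma hh_cont (ha : a ≤ 1 / 2) : Continuous (hh a) := by
  have h1 : Continuous fun s : ℝ => s ^ (1 - a) :=
    Real.continuous_rpow_const (by linarith only [ha])
  have h2 : Continuous fun s : ℝ => s ^ (1 - a) * Real.log (s ^ (1 - a)) :=
    Real.continuous_mul_log.comp h1
  unfold hh
  exact (continuous_const.mul h1).sub (continuous_const.mul h2)

lemma hh_deriv (ha : a ≤ 1 / 2) {s : ℝ} (hs : 0 < s) : HasDerivAt (hh a) (ll a s) s := by
  have h0 : (1 - a) ≠ 0 := by linarith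
  have h1 : HasDerivAt (fun s : ℝ => s ^ (1 - a)) ((1 - a) * s ^ (-a)) s := by
    have := Real.hasDerivAt_rpow_const (x := s) (p := 1 - a) (Or.inl hs.ne')
    have e : (1 - a - 1) = -a := by ring
    rwa [e] at this
  have hy : 0 < s ^ (1 - a) := Real.rpow_pos_of_pos hs _
  have h2 : HasDerivAt (fun y : ℝ => y * Real.log y) (Real.log (s ^ (1 - a)) + 1) (s ^ (1 - a)) :=
    Real.hasDerivAt_mul_log hy.ne'
  have h3 := HasDerivAt.comp s h2 h1
  have h4 := (h1.const_mul ((1 - a)⁻¹ ^ 2 + (1 - a)⁻¹)).sub (h3.const_mul ((1 - a)⁻¹ ^ 2))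
  refine h4.congr_deriv ?_
  rw [Real.log_rpow hs]
  unfold ll
  field_simp
  ring

lemma inv_bd (ha0 : 0 ≤ a) (ha : a ≤ 1 / 2) : 0 < (1 - a)⁻¹ ∧ (1 - a)⁻¹ ≤ 2 := by
  constructor
  · exact inv_pos.2 (by linarith)
  · rw [inv_le_comm₀ (by linarith only [ha]) (by norm_num)]
    linarith

lemma hh_bd (ha0 : 0 ≤ a) (ha : a ≤ 1 / 2) {s : ℝ} (hs0 : 0 ≤ s) (hs1 : s ≤ 1) :
    0 ≤ hh a s ∧ hh a s ≤ 10 := by
  obtain ⟨hB0, hB2⟩ := inv_bd ha0 ha
  set B := (1 - a)⁻¹ with hB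
  set y := s ^ (1 - a) with hy
  have hy0 : 0 ≤ y := Real.rpow_nonneg hs0 _
  have hy1 : y ≤ 1 := Real.rpow_le_one hs0 hs1 (by linarith only [ha])
  have h1 : y * Real.log y ≤ 0 := Real.mul_log_nonpos hy0 hy1
  have h2 : -1 ≤ y * Real.log y := by
    rcases eq_or_lt_of_le hy0 with h | h
    · rw [← h]; simp only [Real.log_zero, mul_zero, Left.neg_nonpos_iff, zero_le_one]
    · have h3 := Real.one_sub_inv_le_log_of_pos h
      have h4 : y * (1 - y⁻¹) ≤ y * Real.log y := mul_le_mul_of_nonneg_left h3 hy0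
      have h5 : y * (1 - y⁻¹) = y - 1 := by field_simp
      linarith only [h, h4, h5]
  have e : hh a s = (B ^ 2 + B) * y - B ^ 2 * (y * Real.log y) := rfl
  rw [e]
  have hB4 : B ^ 2 ≤ 4 := by nlinarith only [hB2, hB0]
  have hB20 : 0 ≤ B ^ 2 := by positivity
  constructor
  · have : B ^ 2 * (y * Real.log y) ≤ 0 := mul_nonpos_of_nonneg_of_nonpos hB20 h1
    have : 0 ≤ (B ^ 2 + B) * y := by positivity
    linarith
  · have k1 : (B ^ 2 + B) * y ≤ 6 * 1 := mul_le_mul (by linarith only [hB2, hB4]) hy1 hy0 (by norm_num)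
    have k2 : -(B ^ 2 * (y * Real.log y)) ≤ 4 * 1 := by
      have : -(B ^ 2 * (y * Real.log y)) = B ^ 2 * (-(y * Real.log y)) := by ring
      rw [this]
      exact mul_le_mul hB4 (by linarith only [h2]) (by linarith only [h1]) (by norm_num)
    linarith only [k1, k2]

lemma log_nonpos' {s : ℝ} (hs1 : s ≤ 1) (hs0 : 0 < s) : 1 ≤ 1 - Real.log s := by
  have := Real.log_nonpos hs0.le hs1
  linarith only [this]

lemma ll_nonneg {s : ℝ} (hs0 : 0 < s) (hs1 : s ≤ 1) : 0 ≤ ll a s := by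
  have := log_nonpos' hs1 hs0
  have := Real.rpow_pos_of_pos hs0 (-a)
  unfold ll
  positivity

lemma ll_anti (ha0 : 0 ≤ a) {s t : ℝ} (hs0 : 0 < s) (hst : s ≤ t) (ht1 : t ≤ 1) :
    ll a t ≤ ll a s := by
  have h1 : t ^ (-a) ≤ s ^ (-a) := Real.rpow_le_rpow_of_nonpos hs0 hst (by linarith)
  have h2 : Real.log s ≤ Real.log t := Real.log_le_log hs0 hst
  have h3 := log_nonpos' ht1 (by linarith only [hs0, hst])
  have h4 := Real.rpow_pos_of_pos hs0 (-a)
  unfold ll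
  exact mul_le_mul h1 (by linarith only [h2]) (by linarith only [h3]) h4.le

lemma ll_meas : Measurable (ll a) := by
  unfold ll
  fun_prop

/-- power bound of the derivative -/
lemma ll_le {δ : ℝ} (hδ : 0 < δ) {s : ℝ} (hs0 : 0 < s) (hs1 : s ≤ 1) :
    ll a s ≤ (1 + 1 / δ) * s ^ (-(a + δ)) := by
  have h1 : -Real.log s ≤ s ^ (-δ) / δ := by
    have h := Real.log_le_rpow_div (x := s⁻¹) (by positivity) hδ
    rwa [Real.log_inv, Real.inv_rpow hs0.le, ← Real.rpow_neg hs0.le] at h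
  have h2 : 1 ≤ s ^ (-δ) := Real.one_le_rpow_of_pos_of_le_one_of_nonpos hs0 hs1 (by linarith)
  have h3 : 1 - Real.log s ≤ (1 + 1 / δ) * s ^ (-δ) := by
    have : (1 + 1 / δ) * s ^ (-δ) = s ^ (-δ) + s ^ (-δ) / δ := by ring
    rw [this]; linarith only [h1, h2]
  have h4 := Real.rpow_pos_of_pos hs0 (-a)
  have e : s ^ (-(a + δ)) = s ^ (-a) * s ^ (-δ) := by
    rw [← Real.rpow_add hs0]; congr 1; ring
  unfold ll
  rw [e]
  calc s ^ (-a) * (1 - Real.log s) ≤ s ^ (-a) * ((1 + 1 / δ) * s ^ (-δ)) := by gcongr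
    _ = _ := by ring

/-- the derivative is in `L^r` if `a r < 1` -/
lemma ll_Lr {r : ℝ} (hr : 1 ≤ r) (har : a * r < 1) (ha0 : 0 ≤ a) :
    ∫⁻ s in Ioo (0:ℝ) 1, ‖ll a s‖ₑ ^ r ≠ ⊤ := by
  set δ : ℝ := (1 - a * r) / (2 * r) with hδ
  have hδ0 : 0 < δ := div_pos (by linarith only [har]) (by linarith only [hr])
  have hexp : -1 < -(a + δ) * r := by
    have : (a + δ) * r = a * r + (1 - a * r) / 2 := by
      rw [hδ]; field_simp
    have h2 : -(a + δ) * r = -((a + δ) * r) := by ring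
    rw [h2, this]; linarith only [har]
  have h1 : IntegrableOn (fun s : ℝ => s ^ (-(a + δ) * r)) (Ioo 0 1) := by
    have := intervalIntegral.intervalIntegrable_rpow' (a := 0) (b := 1) hexp
    rwa [intervalIntegrable_iff_integrableOn_Ioo_of_le zero_le_one] at this
  have h2 : ∫⁻ s in Ioo (0:ℝ) 1, ENNReal.ofReal ((1 + 1 / δ) ^ r * s ^ (-(a + δ) * r)) ≠ ⊤ :=
    (h1.const_mul _).lintegral_lt_top.ne
  refine ne_top_of_le_ne_top h2 (setLIntegral_mono' measurableSet_Ioo ?_)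
  intro s hs
  have hl0 := ll_nonneg (a := a) hs.1 hs.2.le
  have hl1 := ll_le (a := a) hδ0 hs.1 hs.2.le
  have hs' : 0 < s ^ (-(a + δ)) := Real.rpow_pos_of_pos hs.1 _
  have e1 : ‖ll a s‖ₑ ^ r = ENNReal.ofReal (ll a s ^ r) := by
    rw [Real.enorm_eq_ofReal hl0, ENNReal.ofReal_rpow_of_nonneg hl0 (by linarith only [hr])]
  rw [e1]
  apply ENNReal.ofReal_le_ofReal
  calc ll a s ^ r ≤ ((1 + 1 / δ) * s ^ (-(a + δ))) ^ r :=
        Real.rpow_le_rpow hl0 hl1 (by linarith only [hr])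
    _ = (1 + 1 / δ) ^ r * s ^ (-(a + δ) * r) := by
        rw [Real.mul_rpow (by positivity) hs'.le, ← Real.rpow_mul hs.1.le]

/-- the derivative is not in `L^r` if `a r = 1` -/
lemma ll_top {r b : ℝ} (hr : 1 ≤ r) (har : a * r = 1) (hb0 : 0 < b) (hb1 : b ≤ 1) :
    ∫⁻ s in Ioo (0:ℝ) b, ‖ll a s‖ₑ ^ r = ⊤ := by
  by_contra hcon
  have h1 : ∫⁻ s in Ioo (0:ℝ) b, ENNReal.ofReal s⁻¹ ≠ ⊤ := by
    refine ne_top_of_le_ne_top hcon (setLIntegral_mono' measurableSet_Ioo ?_)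
    intro s hs
    have hs1 : s ≤ 1 := hs.2.le.trans hb1
    have hl0 := ll_nonneg (a := a) hs.1 hs1
    rw [Real.enorm_eq_ofReal hl0, ENNReal.ofReal_rpow_of_nonneg hl0 (by linarith)]
    apply ENNReal.ofReal_le_ofReal
    have h3 := log_nonpos' hs1 hs.1
    have h4 := Real.rpow_pos_of_pos hs.1 (-a)
    have h5 : s ^ (-a) ≤ ll a s := by
      unfold ll
      exact le_mul_of_one_le_right h4.le h3
    calc s⁻¹ = (s ^ (-a)) ^ r := by
          rw [← Real.rpow_mul hs.1.le]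
          have : -a * r = -1 := by linarith only [har]
          rw [this, Real.rpow_neg_one]
      _ ≤ ll a s ^ r := Real.rpow_le_rpow h4.le h5 (by linarith)
  have h2 : IntegrableOn (fun s : ℝ => s⁻¹) (Ioo 0 b) := by
    refine ⟨measurable_inv.aestronglyMeasurable, ?_⟩
    rw [hasFiniteIntegral_iff_ofReal]
    · exact lt_top_iff_ne_top.mpr h1
    · rw [EventuallyLE, ae_restrict_iff' measurableSet_Ioo]
      refine Eventually.of_forall fun s hs => ?_
      simpa only [Pi.zero_apply, inv_nonneg] using hs.1.le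
  have h3 : IntervalIntegrable (fun s : ℝ => s⁻¹) volume 0 b := by
    rw [intervalIntegrable_iff_integrableOn_Ioo_of_le hb0.le]
    exact h2
  rw [intervalIntegrable_inv_iff] at h3
  rcases h3 with h3 | h3
  · exact hb0.ne h3
  · exact h3 left_mem_uIcc

/-- for `a = 0` the derivative is not bounded -/
lemma ll_unbdd {b c : ℝ} (hb0 : 0 < b) : ∃ d, 0 < d ∧ d < b ∧ d ≤ 1 ∧
    ∀ s, 0 < s → s < d → c < ll 0 s := by
  refine ⟨min (b / 2) (min 1 (Real.exp (-c))), ?_, ?_, ?_, ?_⟩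
  · exact lt_min (by linarith) (lt_min one_pos (Real.exp_pos _))
  · exact (min_le_left _ _).trans_lt (by linarith only [hb0])
  · exact (min_le_right _ _).trans (min_le_left _ _)
  · intro s hs0 hs
    have h1 : s < Real.exp (-c) := hs.trans_le ((min_le_right _ _).trans (min_le_right _ _))
    have h2 : Real.log s < -c := by
      have := Real.log_lt_log hs0 h1
      rwa [Real.log_exp] at this
    unfold ll
    rw [neg_zero, Real.rpow_zero, one_mul]
    linarith only [h2]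

end

end Vale.Agent.P354p.Ex
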