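import Mathlib
import Vale.Agent.P354p.QCurve

set_option linter.unusedSectionVars false
set_option maxSynthPendingDepth 3

open scoped Manifold ContDiff
open MeasureTheory Set Topology Filter

namespace Vale.Agent.P354p

open Vale.Agent.P354 (P4 NearM Tv norm_Tv cone mem_cone mink_self norm_P4_le)

section

variable {N : Spc} {e' : N.Chart}

/-- Vertical lines in exotic coordinates are future curves in N. -/
lemma vline_future {pp : ENNReal} (hg' : IsSpacetime (IsC0W1 pp) N) {y0 : R4} {A : R4 ≃L[ℝ] R4} {R0 : ℝ}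
    (hR : ∀ z ∈ Metric.closedBall (0 : R4) R0, yv y0 A z ∈ tgt e')
    (hnear : ∀ z ∈ Metric.ball (0 : R4) R0, NearM (Gf (comp e') y0 A z))
    (hfut : ∀ z ∈ Metric.ball (0 : R4) R0,
      N.g e' (yv y0 A z) (A Tv) (N.X e' (yv y0 A z)) < 0)
    {t1 b : ℝ} (hb : t1 < b) {x : P354w.P3}
    (hx : ∀ t ∈ Icc t1 b, ((t, x) : P4) ∈ Metric.ball (0 : R4) R0) :
    IsFutureCurve N 0 (Icc 0 1)
      (fun τ => inv e' (yv y0 A ((t1 + τ * (b - t1), x) : P4))) := by
  set z : ℝ → R4 := fun τ => ((t1 + τ * (b - t1), x) : P4) with hz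
  have hzb : ∀ τ ∈ Icc (0:ℝ) 1, z τ ∈ Metric.ball (0 : R4) R0 := by
    intro τ hτ
    apply hx
    have h1 : 0 ≤ τ * (b - t1) := mul_nonneg hτ.1 (by linarith)
    have h2 : τ * (b - t1) ≤ 1 * (b - t1) := mul_le_mul_of_nonneg_right hτ.2 (by linarith)
    constructor <;> linarith
  have htg : ∀ τ ∈ Icc (0:ℝ) 1, yv y0 A (z τ) ∈ tgt e' := fun τ hτ =>
    hR _ (Metric.ball_subset_closedBall (hzb τ hτ))
  have hzc : Continuous (fun τ => yv y0 A (z τ)) := (yv_continuous y0 A).comp (by fun_prop)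
  have hzd : ∀ τ, HasDerivAt (fun τ => yv y0 A (z τ)) ((b - t1) • A Tv) τ := by
    intro τ
    have h1 : HasDerivAt z ((b - t1) • Tv) τ := by
      have h2 : HasDerivAt (fun τ : ℝ => t1 + τ * (b - t1)) (b - t1) τ := by
        simpa using ((hasDerivAt_id τ).mul_const (b - t1)).const_add t1
      have h3 := h2.prodMk (hasDerivAt_const τ x)
      have h4 : ((b - t1) • Tv : P4) = (b - t1, 0) := by
        simp [Tv]
      rw [h4]
      exact h3
    have h5 : HasDerivAt (fun τ => yv y0 A (z τ)) (A ((b - t1) • Tv)) τ :=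
      (yv_hasFDerivAt y0 A (z τ)).comp_hasDerivAt τ h1
    rwa [map_smul] at h5
  have hzcd : ContDiff ℝ 1 (fun τ => yv y0 A (z τ)) := by
    refine (yv_contDiff y0 A).of_le (by norm_cast) |>.comp ?_
    exact (contDiff_const.add (contDiff_id.mul contDiff_const)).prodMk contDiff_const
  refine isFutureCurve_of_charts hg' ?_ (uniqueDiffOn_Icc zero_lt_one) ?_
  · exact (N.toE e').continuousOn_symm.comp hzc.continuousOn (fun τ hτ => htg τ hτ)
  · intro τ hτ
    have heq : ∀ s ∈ Icc (0:ℝ) 1, co e' (inv e' (yv y0 A (z s))) = yv y0 A (z s) :=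
      fun s hs => co_inv (htg s hs)
    refine ⟨e', inv_mem (htg τ hτ), hzcd.contDiffWithinAt.congr heq (heq τ hτ), ?_⟩
    intro y w hy hw
    have hw' : w = (b - t1) • A Tv := by
      rw [hw, derivWithin_congr heq (heq τ hτ)]
      exact (hzd τ).hasDerivWithinAt.derivWithin (uniqueDiffOn_Icc zero_lt_one τ hτ)
    have hy' : y = yv y0 A (z τ) := by rw [hy]; exact heq τ hτ
    have hpos : 0 < b - t1 := by linarith
    have hB := hg'.bilin e' (htg τ hτ)
    subst hy'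
    rw [hw', hB.smul_left, hB.smul_right, hB.smul_left]
    have hTc : Tv ∈ cone (1 / 4) := by simp [mem_cone, Tv]
    have hTT := (hnear _ (hzb τ hτ)).timelike_of_cone hTc
    have h2 : (Tv : P4).1 = 1 := rfl
    rw [h2, Gf_apply hB] at hTT
    have hneg : N.g e' (yv y0 A (z τ)) (A Tv) (A Tv) < 0 := by linarith
    have h3 : (b - t1) * ((b - t1) * N.g e' (yv y0 A (z τ)) (A Tv) (A Tv)) < 0 :=
      mul_neg_of_pos_of_neg hpos (mul_neg_of_pos_of_neg hpos hneg)
    refine ⟨h3, by linarith, ?_⟩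
    exact mul_neg_of_pos_of_neg hpos (hfut _ (hzb τ hτ))

end

section

variable {M N : Spc} [Nonempty M.pt] {e : M.Chart} {e' : N.Chart}
  {ι : M.pt → N.pt} {h : IsOpenEmbedding ι} {y0 : R4} {A : R4 ≃L[ℝ] R4} {R0 : ℝ} {Om : Set R4}

/-- A vertical line in the exotic domain which tends to a boundary point. -/
theorem line_endsAt {pp : ENNReal} (hg' : IsSpacetime (IsC0W1 pp) N)
    (hR : ∀ z ∈ Metric.closedBall (0 : R4) R0, yv y0 A z ∈ tgt e')
    (hnear : ∀ z ∈ Metric.ball (0 : R4) R0, NearM (Gf (comp e') y0 A z))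
    (hfut : ∀ z ∈ Metric.ball (0 : R4) R0,
      N.g e' (yv y0 A z) (A Tv) (N.X e' (yv y0 A z)) < 0)
    (hOm : Om ⊆ tgt e) {t1 b : ℝ} (hb : t1 < b) {x : P354w.P3}
    (hV : ∀ t ∈ Ico t1 b, ((t, x) : P4) ∈ VV e e' ι h Om y0 A R0)
    (hbd : ((b, x) : P4) ∈ Metric.ball (0 : R4) R0) {q : R4}
    (hq : Tendsto (fun t => PsiF e e' ι h y0 A ((t, x) : P4)) (𝓝[<] b) (𝓝 q)) :
    ∃ (a : ℝ → M.pt) (c : ℝ → N.pt), IsFutureCurve N 0 (Icc 0 1) c ∧
      (∀ τ ∈ Ico (0:ℝ) 1, ι (a τ) = c τ) ∧ EndsAt a e Om (Sp.symm q) := by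
  set s : ℝ → ℝ := fun τ => t1 + τ * (b - t1) with hs
  have hpos : 0 < b - t1 := by linarith
  have hsI : ∀ τ ∈ Ico (0:ℝ) 1, s τ ∈ Ico t1 b := by
    intro τ hτ
    have h1 : 0 ≤ τ * (b - t1) := mul_nonneg hτ.1 hpos.le
    have h2 : τ * (b - t1) < 1 * (b - t1) := mul_lt_mul_of_pos_right hτ.2 hpos
    constructor <;> simp only [hs] <;> linarith
  have hball : ∀ t ∈ Icc t1 b, ((t, x) : P4) ∈ Metric.ball (0 : R4) R0 := by
    intro t ht
    rcases lt_or_eq_of_le ht.2 with h1 | h1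
    · exact (hV t ⟨ht.1, h1⟩).2
    · rw [h1]; exact hbd
  set a : ℝ → M.pt := fun τ => inv e ((theta e e' ι h).symm (yv y0 A ((s τ, x) : P4))) with ha
  have hon : ∀ τ ∈ Ico (0:ℝ) 1, (theta e e' ι h).symm (yv y0 A ((s τ, x) : P4)) ∈ tgt e :=
    fun τ hτ => hOm (hV _ (hsI τ hτ)).1.2
  have hco : ∀ τ ∈ Ico (0:ℝ) 1,
      co e (a τ) = Sp.symm (PsiF e e' ι h y0 A ((s τ, x) : P4)) := by
    intro τ hτ
    simp only [ha]
    rw [co_inv (hon τ hτ)]
    simp [PsiF]
  have hIco : ∀ᶠ τ in 𝓝[<] (1:ℝ), τ ∈ Ico (0:ℝ) 1 := Ico_mem_nhdsLT zero_lt_one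
  refine ⟨a, _, vline_future hg' hR hnear hfut hb hball, ?_, ?_, ?_⟩
  · intro τ hτ
    have h1 := (hV _ (hsI τ hτ)).1.1
    have h2 := (theta e e' ι h).map_target h1
    have h3 := (theta e e' ι h).right_inv h1
    rw [mem_theta_source] at h2
    rw [theta_apply] at h3
    have h4 := inv_co h2.2
    rw [h3] at h4
    exact h4.symm
  · filter_upwards [hIco] with τ hτ
    refine ⟨inv_mem (hon τ hτ), ?_⟩
    rw [hco τ hτ]
    have := (hV _ (hsI τ hτ)).1.2
    simpa [PsiF] using this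
  · have hst : Tendsto s (𝓝[<] 1) (𝓝[<] b) := by
      have h1 : Tendsto s (𝓝 1) (𝓝 b) := by
        have h2 : Continuous s := by fun_prop
        have h3 := h2.tendsto 1
        have h4 : s 1 = b := by simp [hs]
        rwa [h4] at h3
      refine tendsto_nhdsWithin_of_tendsto_nhds_of_eventually_within _
        (h1.mono_left nhdsWithin_le_nhds) ?_
      filter_upwards [hIco] with τ hτ
      exact (hsI τ hτ).2
    have h5 : Tendsto (fun τ => Sp.symm (PsiF e e' ι h y0 A ((s τ, x) : P4))) (𝓝[<] 1)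
        (𝓝 (Sp.symm q)) := (Sp.symm.continuous.tendsto q).comp (hq.comp hst)
    refine h5.congr' ?_
    filter_upwards [hIco] with τ hτ
    exact (hco τ hτ).symm

end

end Vale.Agent.P354p
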