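import Mathlib
import Vale.Agent.P354p.FrontOpen
import Vale.Agent.P354z.Lp4

set_option linter.unusedSectionVars false
set_option maxSynthPendingDepth 3

open scoped Manifold ContDiff
open MeasureTheory Set Topology Filter

namespace Vale.Agent.P354p

open Vale.Agent.P354 (P4 P3 norm_P4_le MB)
open Vale.Agent.P354x (ins chi4 PtW)

/-- Exchange of the first two of three factors preserves the measure. -/
lemma mp_sw {α β γ : Type} [MeasureSpace α] [MeasureSpace β] [MeasureSpace γ]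
    [SFinite (volume : Measure α)] [SFinite (volume : Measure β)] [SFinite (volume : Measure γ)] :
    MeasurePreserving (fun x : α × β × γ => ((x.2.1, x.1, x.2.2) : β × α × γ)) := by
  have h1 : MeasurePreserving (MeasurableEquiv.prodAssoc : (α × β) × γ ≃ᵐ α × β × γ) :=
    ⟨MeasurableEquiv.prodAssoc.measurable, Measure.prodAssoc_prod⟩
  have h2 : MeasurePreserving (MeasurableEquiv.prodAssoc : (β × α) × γ ≃ᵐ β × α × γ) :=
    ⟨MeasurableEquiv.prodAssoc.measurable, Measure.prodAssoc_prod⟩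
  have h3 : MeasurePreserving (Prod.map Prod.swap id : (α × β) × γ → (β × α) × γ) :=
    Measure.measurePreserving_swap.prod (MeasurePreserving.id _)
  exact (h2.comp h3).comp (h1.symm _)

/-- A property which holds for almost every line of direction v holds for almost every
point. -/
lemma ae_line {P : P354w.P3 → Prop} (h : ∀ᵐ y : P354w.P3, P y) :
    ∀ᵐ x : R4, P (x.2.2.1, x.1, x.2.2.2) := by
  have hsw := mp_sw (α := ℝ) (β := ℝ) (γ := ℝ × ℝ)
  have hsw2 := mp_sw (α := ℝ) (β := ℝ) (γ := ℝ)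
  have h1 : ∀ᵐ w : ℝ × ℝ × ℝ, P (w.2.1, w.1, w.2.2) := hsw2.quasiMeasurePreserving.ae h
  have h2 : ∀ᵐ x : ℝ × (ℝ × ℝ × ℝ), P (x.2.2.1, x.2.1, x.2.2.2) := by
    have hq : Measure.QuasiMeasurePreserving (Prod.snd : ℝ × (ℝ × ℝ × ℝ) → ℝ × ℝ × ℝ) volume
        volume := Measure.quasiMeasurePreserving_snd
    exact hq.ae h1
  exact hsw.quasiMeasurePreserving.ae h2

section
variable {M : Spc} {e : M.Chart} {C : ℕ → R4 → ℝ} {z0 : R4} {r K : ℝ} {k : ℝ → ℝ}

/-- the derivatives in the direction e4 in terms of those in the direction dv -/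
lemma e4_dv (hB : FrontBox M e C z0 r K k) {y : P4} (hy : y ∈ MB (Sp z0) r) {i : ℕ}
    (hi : i < 3) :
    |fderiv ℝ (fun z => 4 * C i (Sp.symm z)) y (P354w.e4 ((toW C).scale 4) y) -
      4 * deriv (C i) (Sp.symm y) dv| ≤ 4 * K ^ 2 := by
  have hx := Sp_symm_mem.1 hy
  have hBd := hB.bounded hx
  have hd := hB.diff hx i
  have h1 : fderiv ℝ (fun z => 4 * C i (Sp.symm z)) (Sp (Sp.symm y))
        (P354w.e4 ((toW C).scale 4) (Sp (Sp.symm y))) =
      4 * deriv (C i) (Sp.symm y) dv + 4 * deriv (C i) (Sp.symm y)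
        (sph (C 4 (Sp.symm y)) (C 5 (Sp.symm y))) := by
    rw [fderiv_comp_Sp4 hd, IsBounded.e4_eq, deriv_add hd]; ring
  rw [ContinuousLinearEquiv.apply_symm_apply] at h1
  have h2 := hBd.deriv_sph (i := i) (by omega) (hBd.bound 4 (by norm_num)).1
    (hBd.bound 5 (by norm_num)).1
  rw [h1, add_sub_cancel_left, abs_mul, abs_of_pos (by norm_num : (0:ℝ) < 4)]
  linarith only [h2]

lemma ptw (hB : FrontBox M e C z0 r K k) {Cc : ℝ} (hCc : 8 * K ^ 2 ≤ Cc) {y : P4}
    (hy : y ∈ MB (Sp z0) r) : PtW ((toW C).scale 4) y Cc := by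
  have hx := Sp_symm_mem.1 hy
  have hBd := hB.bounded hx
  have hK := hB.K_one
  have hKC : K ≤ Cc := by linarith only [hCc, hK, le_self_pow₀ hK two_ne_zero]
  have hz : ∀ i, (i = 6 ∨ i = 7) → ∀ a, fderiv ℝ (fun z => C i (Sp.symm z)) y a = 0 := by
    intro i hi a
    have h3 : (fun z => C i (Sp.symm z)) =ᶠ[𝓝 y] fun _ => 0 := by
      filter_upwards [(MB_isOpen (Sp z0) r).mem_nhds hy] with w hw
      have h4 := hB.h67 _ (Sp_symm_mem.1 hw)
      rcases hi with rfl | rfl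
      · exact h4.1
      · exact h4.2
    rw [h3.fderiv_eq]
    simp only [fderiv_fun_const, Pi.zero_apply, zero_apply]
  exact ⟨(hBd.bound 4 (by norm_num)).1.trans hKC, (hBd.bound 5 (by norm_num)).1.trans hKC,
    hz 6 (Or.inl rfl), hz 7 (Or.inr rfl)⟩

/-- the sum of the v derivatives -/
noncomputable def SS (C : ℕ → R4 → ℝ) (x : R4) : ℝ :=
  |deriv (C 0) x dv| + |deriv (C 1) x dv| + |deriv (C 2) x dv|

lemma le_SS {i : ℕ} (hi : i < 3) (x : R4) : |deriv (C i) x dv| ≤ SS C x := by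
  have a0 := abs_nonneg (deriv (C 0) x dv)
  have a1 := abs_nonneg (deriv (C 1) x dv)
  have a2 := abs_nonneg (deriv (C 2) x dv)
  unfold SS
  interval_cases i <;> linarith only [a1, a2, a0]

/-- Oscillation of the v derivative from the bound of its derivatives. -/
lemma lip_gron (hB : FrontBox M e C z0 r K k) {l : ℝ → ℝ}
    (hd : ∀ x ∈ nullBox z0 r, ∀ b, cv b = 0 → ∀ i < 3, ∃ j < 3,
      |deriv (fun y => deriv (C i) y dv) x b| ≤ (l (cv x) + K * |deriv (C j) x dv|) * ‖b‖)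
    {x y : R4} (hx : x ∈ nullBox z0 r) (hy : y ∈ nullBox z0 r) (hxy : cv x = cv y)
    (hs : 6 * K * ‖x - y‖ ≤ 1) {i : ℕ} (hi : i < 3) :
    |deriv (C i) x dv - deriv (C i) y dv| ≤ 2 * (|l (cv x)| + K * SS C y) * ‖x - y‖ := by
  set b := x - y with hb
  have hK := hB.K_one
  have hb0 : cv b = 0 := by
    have : cv b = cv x - cv y := rfl
    rw [this, hxy, sub_self]
  have hO := nullBox_isOpen z0 r
  have hsm2 : ∀ i, ContDiffOn ℝ 1 (fun x => deriv (C i) x dv) (nullBox z0 r) := fun i =>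
    (((hB.dn.smooth i).fderiv_of_isOpen hO (m := 1) (by norm_cast)).clm_apply
      contDiffOn_const).congr (fun w hw => deriv_eq (hB.diff hw i) dv)
  have hseg : ∀ τ ∈ Icc (0:ℝ) 1, y + τ • b ∈ nullBox z0 r ∧ cv (y + τ • b) = cv x := by
    intro τ hτ
    have h1 : cv (y + τ • b) = cv x := by
      have : cv (y + τ • b) = cv y + τ * cv b := rfl
      rw [this, hb0, mul_zero, add_zero, hxy]
    refine ⟨⟨?_, by rw [h1]; exact hx.2⟩, h1⟩
    have h2 : y ∈ Metric.ball z0 r := by simpa only [Metric.mem_ball, dist_eq_norm] using hy.1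
    have h3 : x ∈ Metric.ball z0 r := by simpa [dist_eq_norm] using hx.1
    have h4 := (convex_ball z0 r).add_smul_sub_mem h2 h3 hτ
    simpa only [gt_iff_lt, Metric.mem_ball, dist_eq_norm] using h4
  have hdd : ∀ i, ∀ τ ∈ Icc (0:ℝ) 1, HasDerivAt (fun τ : ℝ => deriv (C i) (y + τ • b) dv)
      (fderiv ℝ (fun x => deriv (C i) x dv) (y + τ • b) b) τ := by
    intro i τ hτ
    have h1 := (((hsm2 i).differentiableOn (by norm_num)).differentiableAt
      (hO.mem_nhds (hseg τ hτ).1)).hasFDerivAt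
    have h2 : HasDerivAt (fun τ : ℝ => y + τ • b) b τ := by
      simpa using ((hasDerivAt_id τ).smul_const b).const_add y
    exact h1.comp_hasDerivAt τ h2
  have hcont : ∀ i, ContinuousOn (fun τ : ℝ => deriv (C i) (y + τ • b) dv) (Icc 0 1) :=
    fun i τ hτ => (hdd i τ hτ).continuousAt.continuousWithinAt
  have hSc : ContinuousOn (fun τ : ℝ => SS C (y + τ • b)) (Icc 0 1) := by
    unfold SS
    exact (((hcont 0).abs.add (hcont 1).abs).add (hcont 2).abs)
  obtain ⟨τs, hτs, hmax⟩ := isCompact_Icc.exists_isMaxOn ⟨0, by simp only [mem_Icc, Std.le_refl, zero_le_one, and_self]⟩ hSc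
  set N := SS C (y + τs • b) with hN
  have hN0 : 0 ≤ N := by rw [hN]; unfold SS; positivity
  set Ml := (|l (cv x)| + K * N) * ‖b‖ with hMl
  have hMl0 : 0 ≤ Ml := by positivity
  have hmv : ∀ i < 3, ∀ τ ∈ Icc (0:ℝ) 1,
      |deriv (C i) (y + τ • b) dv - deriv (C i) y dv| ≤ Ml := by
    intro i hi τ hτ
    have hsub : ∀ s ∈ Icc (0:ℝ) τ, s ∈ Icc (0:ℝ) 1 := fun s hs => ⟨hs.1, hs.2.trans hτ.2⟩
    have hg : ∀ s ∈ Icc (0:ℝ) τ, HasDerivAt (fun s : ℝ => Ml * s) Ml s := by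
      intro s _
      simpa using (hasDerivAt_id s).const_mul Ml
    have key := P354.norm_sub_le_of_deriv hτ.1 (fun s hs => hdd i s (hsub s hs)) hg
      (fun s hs => by
        obtain ⟨h0, h0'⟩ := hseg s (hsub s hs)
        obtain ⟨j, hj, h1⟩ := hd _ h0 b hb0 i hi
        rw [deriv_eq (((hsm2 i).differentiableOn (by norm_num)).differentiableAt
          (hO.mem_nhds h0)), h0'] at h1
        rw [Real.norm_eq_abs]
        refine h1.trans ?_
        have h2 : |deriv (C j) (y + s • b) dv| ≤ N :=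
          (le_SS hj _).trans (hmax (hsub s hs))
        have h3 : l (cv x) ≤ |l (cv x)| := le_abs_self _
        rw [hMl]
        gcongr)
    simp only [zero_smul, add_zero, mul_zero, sub_zero] at key
    rw [Real.norm_eq_abs] at key
    calc |deriv (C i) (y + τ • b) dv - deriv (C i) y dv| ≤ Ml * τ := key
      _ ≤ Ml * 1 := by gcongr; exact hτ.2
      _ = Ml := mul_one _
  have hS : N ≤ SS C y + 3 * Ml := by
    have k0 := hmv 0 (by norm_num) τs hτs
    have k1 := hmv 1 (by norm_num) τs hτs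
    have k2 := hmv 2 (by norm_num) τs hτs
    have tri : ∀ s t m : ℝ, |s - t| ≤ m → |s| ≤ |t| + m := by
      intro s t m h
      have := abs_sub_abs_le_abs_sub s t
      linarith only [h, this]
    have := tri _ _ _ k0
    have := tri _ _ _ k1
    have := tri _ _ _ k2
    rw [hN]
    unfold SS
    linarith
  have hbn : 0 ≤ ‖b‖ := norm_nonneg b
  have hl0 : 0 ≤ |l (cv x)| := abs_nonneg _
  have hS0 : 0 ≤ SS C y := by unfold SS; positivity
  have hN2 : N ≤ 2 * SS C y + 6 * |l (cv x)| * ‖b‖ := by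
    have h1 : 3 * Ml = 3 * |l (cv x)| * ‖b‖ + (6 * K * ‖b‖) * N / 2 := by rw [hMl]; ring
    have h2 : (6 * K * ‖b‖) * N ≤ 1 * N := by gcongr
    linarith only [hS, h2]
  have key := hmv i hi 1 (by simp only [mem_Icc, zero_le_one, Std.le_refl, and_self])
  rw [one_smul] at key
  have e1 : y + b = x := by rw [hb]; abel
  rw [e1] at key
  refine key.trans ?_
  calc Ml ≤ (|l (cv x)| + K * (2 * SS C y + 6 * |l (cv x)| * ‖b‖)) * ‖b‖ := by
        rw [hMl]; gcongr
    _ = (|l (cv x)| * (1 + 6 * K * ‖b‖) + 2 * K * SS C y) * ‖b‖ := by ring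
    _ ≤ (|l (cv x)| * (1 + 1) + 2 * K * SS C y) * ‖b‖ := by gcongr
    _ = _ := by ring

/-- the oscillation of the derivatives in the direction e4 -/
lemma osc4 (hB : FrontBox M e C z0 r K k) {l : ℝ → ℝ}
    (hd : ∀ x ∈ nullBox z0 r, ∀ b, cv b = 0 → ∀ i < 3, ∃ j < 3,
      |deriv (fun y => deriv (C i) y dv) x b| ≤ (l (cv x) + K * |deriv (C j) x dv|) * ‖b‖)
    {v : ℝ} {y y' : P3} (hy : ins v y ∈ MB (Sp z0) r) (hy' : ins v y' ∈ MB (Sp z0) r)
    (h1 : ‖y - y'‖ < 1 / (200 * K)) (h2 : |Real.sqrt (|l v|)| * ‖y - y'‖ < 1 / (200 * K))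
    {i : ℕ} (hi : i < 3) :
    |fderiv ℝ (fun z => 4 * C i (Sp.symm z)) (ins v y)
        (P354w.e4 ((toW C).scale 4) (ins v y)) -
      fderiv ℝ (fun z => 4 * C i (Sp.symm z)) (ins v y')
        (P354w.e4 ((toW C).scale 4) (ins v y'))| ≤
      chi4 ((toW C).scale 4) (ins v y') / 56 + (9 * K ^ 2) * (1 + |Real.sqrt (|l v|)|) := by
  have hK := hB.K_one
  have k1 := e4_dv hB hy hi
  have k2 := e4_dv hB hy' hi
  have hc : cv (Sp.symm (ins v y)) = v := rfl
  have hn : ‖Sp.symm (ins v y) - Sp.symm (ins v y')‖ = ‖y - y'‖ := by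
    rw [← map_sub, ← norm_Sp, ContinuousLinearEquiv.apply_symm_apply]
    have e1 : ins v y - ins v y' = ins 0 (y - y') := by
      unfold ins
      ext <;> simp only [Prod.mk.eta, Prod.mk_sub_mk, sub_self, Prod.fst_sub, Prod.snd_sub]
    rw [e1]
    unfold ins
    simp only [Prod.norm_def, norm_zero, Prod.fst_sub, Prod.snd_sub]
    have hb : 0 ≤ max ‖y.2.1 - y'.2.1‖ ‖y.2.2 - y'.2.2‖ :=
      le_max_of_le_left (norm_nonneg _)
    rw [max_eq_right hb]
  have hb0 : 0 ≤ ‖y - y'‖ := norm_nonneg _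
  have hKb : K * ‖y - y'‖ ≤ 1 / 200 := by
    rw [lt_div_iff₀ (by positivity)] at h1
    linarith only [h1]
  have k3 := lip_gron hB hd (Sp_symm_mem.1 hy) (Sp_symm_mem.1 hy') rfl
    (by rw [hn]; linarith only [hKb]) hi
  rw [hc, hn] at k3
  set s := Real.sqrt (|l v|) with hs
  have hs0 : 0 ≤ s := Real.sqrt_nonneg _
  have hss : |l v| = s * s := (Real.mul_self_sqrt (abs_nonneg _)).symm
  rw [abs_of_nonneg hs0] at h2 ⊢
  have hsb : s * ‖y - y'‖ ≤ 1 / 200 := by
    refine h2.le.trans ?_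
    rw [div_le_div_iff₀ (by positivity) (by norm_num)]
    linarith only [hK]
  set χ := chi4 ((toW C).scale 4) (ins v y') with hχ
  have hSχ : 4 * SS C (Sp.symm (ins v y')) ≤ χ + 12 * K ^ 2 := by
    have j0 := e4_dv hB hy' (i := 0) (by norm_num)
    have j1 := e4_dv hB hy' (i := 1) (by norm_num)
    have j2 := e4_dv hB hy' (i := 2) (by norm_num)
    have e11 : χ = |fderiv ℝ (fun z => 4 * C 0 (Sp.symm z)) (ins v y')
          (P354w.e4 ((toW C).scale 4) (ins v y'))| +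
        |fderiv ℝ (fun z => 4 * C 1 (Sp.symm z)) (ins v y')
          (P354w.e4 ((toW C).scale 4) (ins v y'))| +
        |fderiv ℝ (fun z => 4 * C 2 (Sp.symm z)) (ins v y')
          (P354w.e4 ((toW C).scale 4) (ins v y'))| := rfl
    have tri : ∀ s t m : ℝ, |s - 4 * t| ≤ m → 4 * |t| ≤ |s| + m := by
      intro s t m h
      have h0 := abs_sub_abs_le_abs_sub (4 * t) s
      rw [abs_sub_comm, abs_mul, abs_of_pos (by norm_num : (0:ℝ) < 4)] at h0
      linarith only [h, h0]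
    have := tri _ _ _ j0
    have := tri _ _ _ j1
    have := tri _ _ _ j2
    rw [e11]
    unfold SS
    linarith
  have hχ0 : 0 ≤ χ := by rw [hχ]; unfold P354x.chi4; positivity
  set S := SS C (Sp.symm (ins v y')) with hSd
  have hS0 : 0 ≤ S := by rw [hSd]; unfold SS; positivity
  have m1 : 4 * (2 * (|l v| + K * S) * ‖y - y'‖) ≤ s + (χ + 12 * K ^ 2) / 100 := by
    have e : 4 * (2 * (|l v| + K * S) * ‖y - y'‖) =
        8 * s * (s * ‖y - y'‖) + 2 * (K * ‖y - y'‖) * (4 * S) := by rw [hss]; ring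
    rw [e]
    have a1 : 8 * s * (s * ‖y - y'‖) ≤ 8 * s * (1 / 200) := by gcongr
    have a2 : 2 * (K * ‖y - y'‖) * (4 * S) ≤ 2 * (1 / 200) * (χ + 12 * K ^ 2) := by gcongr
    linarith only [hs0, a1, a2]
  have m2 : 9 * K ^ 2 * (1 + s) = 9 * K ^ 2 + 9 * K ^ 2 * s := by ring
  have m3 : s ≤ 9 * K ^ 2 * s := by
    have : 1 ≤ 9 * K ^ 2 := by nlinarith only [hK]
    nlinarith only [hs0, this]
  have m4 : 4 * |deriv (C i) (Sp.symm (ins v y)) dv - deriv (C i) (Sp.symm (ins v y')) dv| ≤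
      s + (χ + 12 * K ^ 2) / 100 := (mul_le_mul_of_nonneg_left k3 (by norm_num)).trans m1
  have hK2 : 0 ≤ K ^ 2 := by positivity
  rw [m2]
  rw [abs_le] at k1 k2 ⊢
  have m5 := neg_abs_le (deriv (C i) (Sp.symm (ins v y)) dv - deriv (C i) (Sp.symm (ins v y')) dv)
  have m6 := le_abs_self (deriv (C i) (Sp.symm (ins v y)) dv - deriv (C i) (Sp.symm (ins v y')) dv)
  constructor <;> linarith only [k1, k2, hχ0, k3, m1, m3, m5, m6]

end

/-- **No extension through a weak null singularity.** -/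
theorem front_step {pp : ENNReal} (hpp : 2 ≤ pp) {M N : Spc} {ι : M.pt → N.pt}
    (hM : IsSpacetime IsSmooth M)
    (hg' : IsSpacetime (IsC0W1 pp) N) (h : IsOpenEmbedding ι) (hI : IsIsom ι) {c : ℝ → N.pt}
    (hc : IsFutureCurve N 0 (Icc 0 1) c) {a : ℝ → M.pt} (ha : ∀ t ∈ Ico (0:ℝ) 1, ι (a t) = c t)
    (hfr : EndsAtFront pp M a) : False := by
  obtain ⟨e, C, z, r, K, k, l, hdn, hz, hlm, hlp, hall, hain⟩ := hfr
  have hne : Nonempty M.pt := ⟨a 0⟩
  have hr := hdn.r_pos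
  have hB : FrontBox M e C z r K k := ⟨hdn, hz, fun x hx => ⟨(hall x hx).1, (hall x hx).2.1⟩⟩
  have hd := fun x hx => (hall x hx).2.2.1
  have hK := hB.K_one
  obtain ⟨e', A, R0, Cc, t0, r1, f, hF, O, hO, ⟨y1, hy1⟩, v0, hv0, hin⟩ :=
    exists_frontData_open (h := h) hpp hM hg' hI hB hc ha hain
  have hCc := hF.Cc_large
  have hG : P354z.LpF pp (volume.restrict (P354w.DD t0 r1 f))
      (fun w => ‖fderiv ℝ (fun z => (4:ℝ) • Gf (comp e') (co e' (c 1)) A z) w‖ₑ) := by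
    have h1 := hF.lp.norm.2
    have h2 := (P354z.LpF_iff hpp).2 h1.ne
    refine h2.mono fun w => ?_
    rw [enorm_norm]
  have hl' : P354z.LpF pp (volume.restrict (Ico (-r / 2) 0)) (fun v => ‖Real.sqrt (|l v|)‖ₑ) := by
    refine (P354z.LpF_sqrt hpp hlp.ne).mono_meas ?_
    refine Measure.restrict_mono ?_ le_rfl
    intro v hv
    exact ⟨by linarith only [hr, hv.1], hv.2⟩
  obtain ⟨v1, hv1, hgen⟩ := P354z.openP hF.core (fun y hy => ptw hB hCc hy)
    (cvF_int (hdn.intg k (Or.inl rfl)).2 _)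
    (cvF_int (hdn.intg k (Or.inl rfl)).2 _)
    (by
      rw [setLIntegral_const]
      exact ENNReal.mul_ne_top ENNReal.ofReal_ne_top (by simp only [Real.volume_Icc, sub_neg_eq_add, ne_eq, ENNReal.ofReal_ne_top, not_false_eq_true]))
    (fun _ => by nlinarith only [hK, hCc]) hpp hG (l := fun v => Real.sqrt (|l v|)) hlm.abs.sqrt
    (va := -r / 2) (by linarith only [hr]) hl' (P := 9 * K ^ 2) (ρ1 := 1 / (200 * K)) (by positivity)
    (by positivity)
    (fun v _ y y' hy hy' h1 h2 => ⟨osc4 hB hd hy hy' h1 h2 (i := 0) (by norm_num),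
      osc4 hB hd hy hy' h1 h2 (i := 1) (by norm_num),
      osc4 hB hd hy hy' h1 h2 (i := 2) (by norm_num)⟩)
    hO hv0 hin
  have hMB : ∀ y ∈ O, ∀ v ∈ Ico v1 0, ins v y ∈ MB (Sp z) r := by
    intro y hy v hv
    obtain ⟨w, hw, hwy, _⟩ := hin y hy v ⟨hv1.1.trans hv.1, hv.2⟩
    rw [← hwy]
    exact hF.core.maps (hF.core.DD_sub hw)
  -- a point and a neighbourhood
  have hv2 : v1 / 2 ∈ Ioo v1 0 := ⟨by linarith only [hv1.2], by linarith [hv1.2]⟩
  set x : R4 := Sp.symm (ins (v1 / 2) y1) with hx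
  have hxn : x ∈ nullBox z r := by
    have := hMB y1 hy1 (v1 / 2) ⟨hv2.1.le, hv2.2⟩
    rw [Sp_symm_mem] at this
    exact this
  set W : Set R4 := {w | w.2.1 ∈ Ioo v1 0 ∧ ((w.2.2.1, w.1, w.2.2.2) : P354w.P3) ∈ O} with hW
  have hWo : IsOpen W := by
    have k1 : Continuous fun w : R4 => w.2.1 := by fun_prop
    have k2 : Continuous fun w : R4 => ((w.2.2.1, w.1, w.2.2.2) : P354w.P3) := by fun_prop
    exact (isOpen_Ioo.preimage k1).inter (hO.preimage k2)
  have hxW : x ∈ W := by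
    rw [hx, Sp_symm_apply]
    exact ⟨hv2, hy1⟩
  obtain ⟨ε, hε, hball⟩ := Metric.isOpen_iff.1 hWo x hxW
  apply (hall x hxn).2.2.2 ε hε
  rw [measure_eq_zero_iff_ae_notMem]
  filter_upwards [ae_line hgen] with w hw hwm
  obtain ⟨hwx, hwb⟩ := hwm
  have hwW : w ∈ W := hball (by rw [Metric.mem_ball, dist_eq_norm]; exact hwx.1)
  set y : P354w.P3 := (w.2.2.1, w.1, w.2.2.2) with hy
  have hyO : y ∈ O := hwW.2
  have hfin := hw hyO
  obtain ⟨i, hi, hitop⟩ := hwb v1 hv1.2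
  apply hitop
  show eLpNorm _ pp (volume.restrict (Ioo v1 0)) < ⊤
  rw [lt_top_iff_ne_top, ← P354z.LpF_iff hpp]
  have hvol : (volume.restrict (Ioo v1 0)) univ ≠ ⊤ := by
    rw [Measure.restrict_apply MeasurableSet.univ, univ_inter, Real.volume_Ioo]
    exact ENNReal.ofReal_ne_top
  have hfin2 : P354z.LpF pp (volume.restrict (Ioo v1 0)) (fun v => ENNReal.ofReal (K ^ 2) +
      ENNReal.ofReal (chi4 ((toW C).scale 4) (ins v y))) :=
    P354z.LpF.add (P354z.LpF.const hvol ENNReal.ofReal_ne_top)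
      (hfin.mono_meas (Measure.restrict_mono Ioo_subset_Ico_self le_rfl)) hpp aemeasurable_const
  refine hfin2.mono_ae ?_
  rw [ae_restrict_iff' measurableSet_Ioo]
  refine Filter.Eventually.of_forall fun v hv => ?_
  have e1 : w + (v - cv w) • dv = Sp.symm (ins v y) := by
    rw [Sp_symm_apply]
    ext <;> simp only [cv, dv, Prod.smul_mk, smul_eq_mul, mul_zero, mul_one, Prod.fst_add, add_zero, ins, hy, Prod.snd_add, add_sub_cancel]
  rw [e1]
  have h1 := e4_dv hB (hMB y hyO v ⟨hv.1.le, hv.2⟩) hi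
  have h2 : |fderiv ℝ (fun z => 4 * C i (Sp.symm z)) (ins v y)
      (P354w.e4 ((toW C).scale 4) (ins v y))| ≤ chi4 ((toW C).scale 4) (ins v y) := by
    have e11 : chi4 ((toW C).scale 4) (ins v y) =
      |fderiv ℝ (fun z => 4 * C 0 (Sp.symm z)) (ins v y)
        (P354w.e4 ((toW C).scale 4) (ins v y))| +
      |fderiv ℝ (fun z => 4 * C 1 (Sp.symm z)) (ins v y)
        (P354w.e4 ((toW C).scale 4) (ins v y))| +
      |fderiv ℝ (fun z => 4 * C 2 (Sp.symm z)) (ins v y)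
        (P354w.e4 ((toW C).scale 4) (ins v y))| := rfl
    rw [e11]
    have a0 := abs_nonneg (fderiv ℝ (fun z => 4 * C 0 (Sp.symm z)) (ins v y)
        (P354w.e4 ((toW C).scale 4) (ins v y)))
    have a1 := abs_nonneg (fderiv ℝ (fun z => 4 * C 1 (Sp.symm z)) (ins v y)
        (P354w.e4 ((toW C).scale 4) (ins v y)))
    have a2 := abs_nonneg (fderiv ℝ (fun z => 4 * C 2 (Sp.symm z)) (ins v y)
        (P354w.e4 ((toW C).scale 4) (ins v y)))
    interval_cases i <;> linarith only [a1, a2, a0]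
  have h3 : |deriv (C i) (Sp.symm (ins v y)) dv| ≤
      K ^ 2 + chi4 ((toW C).scale 4) (ins v y) := by
    have h4 := abs_nonneg (fderiv ℝ (fun z => 4 * C i (Sp.symm z)) (ins v y)
      (P354w.e4 ((toW C).scale 4) (ins v y)))
    rw [abs_le] at h1 h2 ⊢
    constructor <;> linarith only [h1, h2]
  have hchi : 0 ≤ chi4 ((toW C).scale 4) (ins v y) := by unfold P354x.chi4; positivity
  rw [← ofReal_norm, Real.norm_eq_abs, ← ENNReal.ofReal_add (by positivity) hchi]
  exact ENNReal.ofReal_le_ofReal h3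

end Vale.Agent.P354p
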