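import Vale.Agent.P354p.Prof

open scoped ContDiff
open MeasureTheory Set Filter Topology

namespace Vale.Agent.P354p.Ex

abbrev E4 : Type := ℝ × ℝ × ℝ × ℝ

lemma haar4 : Measure.IsAddHaarMeasure (volume : Measure E4) := by
  have h2 : (volume : Measure (ℝ × ℝ)).IsAddHaarMeasure :=
    Measure.prod.instIsAddHaarMeasure volume volume
  have h3 : (volume : Measure (ℝ × ℝ × ℝ)).IsAddHaarMeasure :=
    Measure.prod.instIsAddHaarMeasure volume volume
  exact Measure.prod.instIsAddHaarMeasure volume volume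

/-- clamp -/
noncomputable def cl (e s : ℝ) : ℝ := max e (min s 1)

/-- derivative of the profile, extended by zero -/
noncomputable def LLe (a e t : ℝ) : ℝ := if -1 < t ∧ t < -e then ll a (-t) else 0

/-- the coefficient -/
noncomputable def Gf (a e : ℝ) (x : E4) : ℝ := 22 - hh a (cl e (-x.1)) - hh a (cl e (-x.2.1))

/-- its weak derivative in the direction w -/
noncomputable def Hw (a e : ℝ) (w x : E4) : ℝ := LLe a e x.1 * w.1 + LLe a e x.2.1 * w.2.1

section
variable {a e : ℝ}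

lemma cl_mem {s : ℝ} (he : e ≤ 1) : cl e s ∈ Icc e 1 :=
  ⟨le_max_left _ _, max_le he (min_le_right _ _)⟩

lemma cl_cont : Continuous (cl e) := by unfold cl; fun_prop

lemma hh_lip (ha0 : 0 ≤ a) (ha : a ≤ 1 / 2) (he0 : 0 < e) (he1 : e ≤ 1) :
    LipschitzWith (Real.toNNReal (ll a e)) (fun s => hh a (cl e s)) := by
  have hl0 := ll_nonneg (a := a) he0 he1
  have h1 : LipschitzWith 1 (cl e) := by
    have := (LipschitzWith.id.min_const (α := ℝ) 1).const_max e
    exact this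
  refine LipschitzWith.of_dist_le_mul fun s t => ?_
  have h2 := Convex.norm_image_sub_le_of_norm_hasDerivWithin_le (f := hh a) (f' := ll a)
    (C := ll a e) (s := Icc e 1) (x := cl e t) (y := cl e s)
    (fun x hx => (hh_deriv ha (lt_of_lt_of_le he0 hx.1)).hasDerivWithinAt)
    (fun x hx => by
      have hx0 := lt_of_lt_of_le he0 hx.1
      rw [Real.norm_eq_abs, abs_of_nonneg (ll_nonneg hx0 hx.2)]
      exact ll_anti ha0 he0 hx.1 hx.2)
    (convex_Icc _ _) (cl_mem he1) (cl_mem he1)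
  have h3 := h1.dist_le_mul s t
  rw [NNReal.coe_one, one_mul] at h3
  rw [Real.coe_toNNReal _ hl0]
  calc dist (hh a (cl e s)) (hh a (cl e t)) ≤ ll a e * dist (cl e s) (cl e t) := by
        rw [dist_eq_norm, dist_eq_norm]; exact h2
    _ ≤ _ := by gcongr

lemma Gf_lip (ha0 : 0 ≤ a) (ha : a ≤ 1 / 2) (he0 : 0 < e) (he1 : e ≤ 1) :
    ∃ C, LipschitzWith C (Gf a e) := by
  have h1 := hh_lip ha0 ha he0 he1
  have l1 : ∃ C, LipschitzWith C (fun x : E4 => -x.1) :=
    ⟨_, (-(ContinuousLinearMap.fst ℝ ℝ (ℝ × ℝ × ℝ))).lipschitz⟩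
  have l2 : ∃ C, LipschitzWith C (fun x : E4 => -x.2.1) :=
    ⟨_, (-((ContinuousLinearMap.fst ℝ ℝ (ℝ × ℝ)).comp
      (ContinuousLinearMap.snd ℝ ℝ (ℝ × ℝ × ℝ)))).lipschitz⟩
  obtain ⟨C1, l1⟩ := l1
  obtain ⟨C2, l2⟩ := l2
  exact ⟨_, ((LipschitzWith.const (22:ℝ)).sub (h1.comp l1)).sub (h1.comp l2)⟩

lemma cl_deriv (ha : a ≤ 1 / 2) (he0 : 0 ≤ e) (he1 : e < 1) {t c : ℝ} (h1 : t ≠ -1)
    (h2 : t ≠ -e) :
    HasDerivAt (fun τ : ℝ => hh a (cl e (-(t + τ * c)))) (-(LLe a e t * c)) 0 := by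
  have hc : Tendsto (fun τ : ℝ => -(t + τ * c)) (𝓝 0) (𝓝 (-t)) := by
    have : Continuous (fun τ : ℝ => -(t + τ * c)) := by fun_prop
    have h := this.tendsto 0
    simpa only [neg_add_rev, zero_mul, add_zero] using h
  rcases lt_or_gt_of_ne h1 with h | h
  · have e0 : LLe a e t = 0 := by
      unfold LLe; rw [if_neg]; rintro ⟨h3, _⟩; linarith only [h, h3]
    rw [e0, zero_mul, neg_zero]
    refine (hasDerivAt_const (0:ℝ) (hh a 1)).congr_of_eventuallyEq ?_
    filter_upwards [hc.eventually (lt_mem_nhds (show 1 < -t by linarith only [h]))] with τ hτ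
    rw [cl, min_eq_right hτ.le, max_eq_right he1.le]
  · rcases lt_or_gt_of_ne h2 with h' | h'
    · have e0 : LLe a e t = ll a (-t) := by
        unfold LLe; rw [if_pos ⟨h, h'⟩]
      have k1 : HasDerivAt (fun τ : ℝ => -(t + τ * c)) (-c) 0 := by
        have h5 : HasDerivAt (fun τ : ℝ => t + τ * c) c 0 := by
          simpa using ((hasDerivAt_id (0:ℝ)).mul_const c).const_add t
        exact h5.neg
      have k2 : HasDerivAt (hh a) (ll a (-t)) (-(t + 0 * c)) := by
        rw [zero_mul, add_zero]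
        exact hh_deriv ha (by linarith only [he0, h'])
      have k3 := HasDerivAt.comp (0:ℝ) k2 k1
      have e1 : -(LLe a e t * c) = ll a (-t) * -c := by rw [e0]; ring
      rw [e1]
      refine k3.congr_of_eventuallyEq ?_
      filter_upwards [hc.eventually (Ioo_mem_nhds (show e < -t by linarith only [h'])
        (show -t < 1 by linarith))] with τ hτ
      rw [cl, min_eq_left hτ.2.le, max_eq_right hτ.1.le]
      rfl
    · have e0 : LLe a e t = 0 := by
        unfold LLe; rw [if_neg]; rintro ⟨_, h3⟩; linarith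
      rw [e0, zero_mul, neg_zero]
      refine (hasDerivAt_const (0:ℝ) (hh a e)).congr_of_eventuallyEq ?_
      filter_upwards [hc.eventually (gt_mem_nhds (show -t < e by linarith))] with τ hτ
      rw [cl, max_eq_left]
      exact (min_le_left _ _).trans hτ.le

lemma lineDeriv_Gf (ha : a ≤ 1 / 2) (he0 : 0 ≤ e) (he1 : e < 1) {x : E4} (w : E4)
    (h1 : x.1 ≠ -1) (h2 : x.1 ≠ -e) (h3 : x.2.1 ≠ -1) (h4 : x.2.1 ≠ -e) :
    HasLineDerivAt ℝ (Gf a e) (Hw a e w x) x w := by
  have k1 := cl_deriv ha he0 he1 (c := w.1) h1 h2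
  have k2 := cl_deriv ha he0 he1 (c := w.2.1) h3 h4
  have k3 := (k1.const_sub 22).sub k2
  have e1 : Hw a e w x = - -(LLe a e x.1 * w.1) - -(LLe a e x.2.1 * w.2.1) := by
    unfold Hw; ring
  rw [e1]
  exact k3

lemma ae_ne (c : ℝ) : ∀ᵐ x : E4, x.1 ≠ c ∧ x.2.1 ≠ c := by
  have h0 : ∀ᵐ t : ℝ, t ≠ c := (Set.countable_singleton c).ae_notMem volume
  have q1 : Measure.QuasiMeasurePreserving (Prod.fst : ℝ × (ℝ × ℝ × ℝ) → ℝ) volume volume :=
    Measure.quasiMeasurePreserving_fst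
  have q2 : Measure.QuasiMeasurePreserving (Prod.snd : ℝ × (ℝ × ℝ × ℝ) → ℝ × ℝ × ℝ) volume
    volume := Measure.quasiMeasurePreserving_snd
  have q3 : Measure.QuasiMeasurePreserving (Prod.fst : ℝ × (ℝ × ℝ) → ℝ) volume volume :=
    Measure.quasiMeasurePreserving_fst
  exact (q1.ae h0).and ((q3.comp q2).ae h0)

lemma LLe_nonneg (he0 : 0 ≤ e) (t : ℝ) : 0 ≤ LLe a e t := by
  unfold LLe
  split_ifs with h
  · exact ll_nonneg (by linarith only [he0, h.2]) (by linarith only [h.1])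
  · exact le_refl _

lemma LLe_le (he0 : 0 ≤ e) (t : ℝ) : LLe a e t ≤ LLe a 0 t := by
  unfold LLe
  by_cases h : -1 < t ∧ t < -e
  · rw [if_pos h, if_pos ⟨h.1, by linarith [h.2]⟩]
  · rw [if_neg h]
    split_ifs with h'
    · exact ll_nonneg (by linarith [h'.2]) (by linarith [h'.1])
    · exact le_refl _

lemma LLe_meas : Measurable (LLe a e) := by
  have h1 : Measurable fun t : ℝ => ll a (-t) := ll_meas.comp measurable_neg
  exact Measurable.ite measurableSet_Ioo h1 measurable_const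

lemma LLe_eq_indicator : LLe a e = (Ioo (-1) (-e)).indicator (fun t => ll a (-t)) := by
  funext t
  unfold LLe
  by_cases h : -1 < t ∧ t < -e
  · rw [if_pos h, indicator_of_mem (show t ∈ Ioo (-1) (-e) from h)]
  · rw [if_neg h, indicator_of_notMem (show t ∉ Ioo (-1) (-e) from h)]

lemma LLe_Lr {r : ℝ} (hr : 1 ≤ r) (har : a * r < 1) (ha0 : 0 ≤ a) :
    ∫⁻ t, ‖LLe a 0 t‖ₑ ^ r ≠ ⊤ := by
  have h1 := ll_Lr hr har ha0
  have e1 : (fun t => ‖LLe a 0 t‖ₑ ^ r) =
      (Ioo (-1 : ℝ) 0).indicator (fun t => ‖ll a (-t)‖ₑ ^ r) := by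
    funext t
    rw [LLe_eq_indicator, neg_zero]
    by_cases h : t ∈ Ioo (-1 : ℝ) 0
    · rw [indicator_of_mem h, indicator_of_mem h]
    · rw [indicator_of_notMem h, indicator_of_notMem h, enorm_zero,
        ENNReal.zero_rpow_of_pos (by linarith)]
  rw [e1, lintegral_indicator measurableSet_Ioo]
  have hmp : MeasurePreserving (fun t : ℝ => -t) volume volume := Measure.measurePreserving_neg _
  have h2 := hmp.setLIntegral_comp_preimage_emb (MeasurableEquiv.neg ℝ).measurableEmbedding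
    (fun s => ‖ll a s‖ₑ ^ r) (Ioo 0 1)
  have e2 : (fun t : ℝ => -t) ⁻¹' Ioo 0 1 = Ioo (-1) 0 := by
    ext t
    simp only [mem_preimage, mem_Ioo]
    constructor <;> (rintro ⟨h3, h4⟩; constructor <;> linarith only [h4, h3])
  rw [e2] at h2
  rw [h2]
  exact h1

/-- functions of u or v alone on balls -/
lemma lint_ball {F : ℝ → ENNReal} (hF : Measurable F) (h : ∫⁻ t, F t ≠ ⊤) (R : ℝ) :
    ∫⁻ x in Metric.closedBall (0:E4) R, F x.1 ≠ ⊤ ∧
      ∫⁻ x in Metric.closedBall (0:E4) R, F x.2.1 ≠ ⊤ := by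
  have hb1 : Metric.closedBall (0:E4) R =
      Metric.closedBall (0:ℝ) R ×ˢ Metric.closedBall (0 : ℝ × ℝ × ℝ) R :=
    (closedBall_prod_same (0:ℝ) (0 : ℝ × ℝ × ℝ) R).symm
  have hb2 : Metric.closedBall (0:ℝ × ℝ × ℝ) R =
      Metric.closedBall (0:ℝ) R ×ˢ Metric.closedBall (0 : ℝ × ℝ) R :=
    (closedBall_prod_same (0:ℝ) (0 : ℝ × ℝ) R).symm
  have hv1 : (volume : Measure ℝ) (Metric.closedBall (0:ℝ) R) ≠ ⊤ :=
    (isCompact_closedBall _ _).measure_lt_top.ne
  have hv3 : (volume : Measure (ℝ × ℝ × ℝ)) (Metric.closedBall (0:ℝ × ℝ × ℝ) R) ≠ ⊤ :=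
    (isCompact_closedBall _ _).measure_lt_top.ne
  have hv2 : (volume : Measure (ℝ × ℝ)) (Metric.closedBall (0:ℝ × ℝ) R) ≠ ⊤ :=
    (isCompact_closedBall _ _).measure_lt_top.ne
  have hFR : ∫⁻ t in Metric.closedBall (0:ℝ) R, F t ≠ ⊤ :=
    ne_top_of_le_ne_top h (setLIntegral_le_lintegral _ _)
  have m4 : (volume : Measure E4).restrict (Metric.closedBall (0:E4) R) =
      ((volume : Measure ℝ).restrict (Metric.closedBall (0:ℝ) R)).prod
        ((volume : Measure (ℝ × ℝ × ℝ)).restrict (Metric.closedBall (0 : ℝ × ℝ × ℝ) R)) := by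
    rw [Measure.prod_restrict, ← hb1]; rfl
  have m3 : (volume : Measure (ℝ × ℝ × ℝ)).restrict (Metric.closedBall (0:ℝ × ℝ × ℝ) R) =
      ((volume : Measure ℝ).restrict (Metric.closedBall (0:ℝ) R)).prod
        ((volume : Measure (ℝ × ℝ)).restrict (Metric.closedBall (0 : ℝ × ℝ) R)) := by
    rw [Measure.prod_restrict, ← hb2]; rfl
  constructor
  · have h1 := lintegral_prod_mul (μ := (volume : Measure ℝ).restrict (Metric.closedBall (0:ℝ) R))
      (ν := (volume : Measure (ℝ × ℝ × ℝ)).restrict (Metric.closedBall (0 : ℝ × ℝ × ℝ) R))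
      (f := F) (g := fun _ => 1) hF.aemeasurable aemeasurable_const
    simp only [mul_one, lintegral_const, Measure.restrict_apply MeasurableSet.univ, univ_inter,
      one_mul] at h1
    rw [m4, h1]
    exact ENNReal.mul_ne_top hFR hv3
  · have h2 := lintegral_prod_mul (μ := (volume : Measure ℝ).restrict (Metric.closedBall (0:ℝ) R))
      (ν := (volume : Measure (ℝ × ℝ)).restrict (Metric.closedBall (0 : ℝ × ℝ) R))
      (f := F) (g := fun _ => 1) hF.aemeasurable aemeasurable_const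
    simp only [mul_one, lintegral_const, Measure.restrict_apply MeasurableSet.univ, univ_inter,
      one_mul] at h2
    rw [← m3] at h2
    have h1 := lintegral_prod_mul (μ := (volume : Measure ℝ).restrict (Metric.closedBall (0:ℝ) R))
      (ν := (volume : Measure (ℝ × ℝ × ℝ)).restrict (Metric.closedBall (0 : ℝ × ℝ × ℝ) R))
      (f := fun _ => 1) (g := fun y => F y.1) aemeasurable_const
      (hF.comp measurable_fst).aemeasurable
    simp only [one_mul, lintegral_const, Measure.restrict_apply MeasurableSet.univ, univ_inter,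
      ] at h1
    rw [m4, h1, h2]
    exact ENNReal.mul_ne_top hv1 (ENNReal.mul_ne_top hFR hv2)

end

end Vale.Agent.P354p.Ex
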